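import Vale.Agent.P097T.EndDefs
import Vale.Agent.P097T.UDefs

/-!
# P097Top: the top of the tree (definitions and statements of the blocks)

`θ`, `H` are the normal angle and the support function as functions of the Lazutkin parameter.
-/

set_option linter.all false

noncomputable section

namespace Vale.Agent.P097Top

open Filter Topology Set Metric Complex Vale.Agent.P097 Vale.Agent.P097T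

/-- The depth of a point of the strip. -/
def dp (r : ℝ) (y : ℂ) : ℝ := r - |y.im|

/-- The complexified table on the strip of half width `r`. -/
structure Cur (r c : ℝ) (θ H Q : ℂ → ℂ) : Prop where
  rpos : 0 < r
  cpos : 0 < c
  dθ : DifferentiableOn ℂ θ (Strip r)
  dH : DifferentiableOn ℂ H (Strip r)
  dQ : DifferentiableOn ℂ Q (Strip r)
  perθ : ∀ y ∈ Strip r, θ (y + 1) = θ y + 2 * Real.pi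
  perH : ∀ y ∈ Strip r, H (y + 1) = H y
  ode : ∀ y ∈ Strip r, deriv (deriv (deriv θ)) y = Q y * deriv θ y
  laz : ∀ y ∈ Strip r, deriv (deriv H) y * deriv θ y - deriv H y * deriv (deriv θ) y +
    H y * deriv θ y ^ 3 = c
  reθ : ∀ x : ℝ, (θ x).im = 0
  reH : ∀ x : ℝ, (H x).im = 0
  pos : ∀ x : ℝ, 0 < (deriv θ x).re

/-- `θ`, `H` continue the real data. -/
def Agr (h : ℝ → ℝ) (ψ : ℝ × ℝ → ℝ) (θ H : ℂ → ℂ) : Prop :=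
  ∀ x : ℝ, θ x = (ψ (x, 0) : ℝ) ∧ H x = (h (ψ (x, 0)) : ℝ)

/-- Both boundary lines of the strip are natural boundaries of `θ`. -/
def NatB (r : ℝ) (θ : ℂ → ℂ) : Prop :=
  ∀ (y₀ : ℂ) (ρ : ℝ) (θ' : ℂ → ℂ), |y₀.im| = r → 0 < ρ →
    DifferentiableOn ℂ θ' (Strip r ∪ ball y₀ ρ) → EqOn θ' θ (Strip r) → False

/-- The critical growth bound. -/
def Crit (r : ℝ) (θ Q : ℂ → ℂ) : Prop :=
  ∃ C : ℝ, ∀ y ∈ Strip r, ‖deriv θ y‖ * dp r y ≤ C ∧ ‖Q y‖ * dp r y ^ 2 ≤ C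

/-- There is no calm ball near the boundary. -/
def NoCalm (r : ℝ) (θ Q : ℂ → ℂ) : Prop :=
  ∃ e d : ℝ, 0 < e ∧ 0 < d ∧ ∀ y₀ ∈ Strip r, dp r y₀ < d → ∃ y ∈ ball y₀ (dp r y₀ / 8),
    e ≤ ‖Q y‖ * dp r y₀ ^ 2 ∨ e ≤ ‖deriv θ y‖ * dp r y₀

/-- The point at `z` paired with the tangent line at `y`. -/
def aa (θ H : ℂ → ℂ) (y z : ℂ) : ℂ :=
  deriv θ z * H z * cos (θ z - θ y) - deriv H z * sin (θ z - θ y) - deriv θ z * H y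

/-- The derivative of `aa` in `y`. -/
def bb (θ H : ℂ → ℂ) (y z : ℂ) : ℂ :=
  deriv θ y * (deriv θ z * H z * sin (θ z - θ y) + deriv H z * cos (θ z - θ y)) -
    deriv θ z * deriv H y

/-- The reflection law at `y` for the neighbours `u`, `v`. -/
def law (θ H : ℂ → ℂ) (u y v : ℂ) : ℂ := aa θ H y u * bb θ H y v + aa θ H y v * bb θ H y u

/-- Homogeneous isotropic coordinates of the point: `(fZ : fW : deriv θ)`. -/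
def fZ (θ H : ℂ → ℂ) (y : ℂ) : ℂ := (deriv θ y * H y + deriv H y * I) * exp (θ y * I)

def fW (θ H : ℂ → ℂ) (y : ℂ) : ℂ := (deriv θ y * H y - deriv H y * I) * exp (-(θ y * I))

/-- The integrable germ on a box around the real line. -/
structure Sol0 (θ H : ℂ → ℂ) (κ : ℝ) (Y : ℂ × ℂ → ℂ) : Prop where
  pos : 0 < κ
  an : AnalyticOnNhd ℂ Y (Strip κ ×ˢ ball 0 κ)
  bd : ∀ q ∈ Strip κ ×ˢ ball (0 : ℂ) κ, ‖Y q - q.1‖ ≤ ‖q.2‖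
  per : ∀ q ∈ Strip κ ×ˢ ball (0 : ℂ) κ, Y (q.1 + 1, q.2) = Y q + 1
  ev : ∀ q ∈ Strip κ ×ˢ ball (0 : ℂ) κ, Y (q.1, -q.2) = Y q
  re : ∀ x w : ℝ, |w| < κ → (Y (x, w)).im = 0
  law : ∀ q ∈ Strip κ ×ˢ ball (0 : ℂ) κ, q.1 - q.2 ∈ Strip κ → q.1 + q.2 ∈ Strip κ →
    law θ H (Y (q.1 - q.2, q.2)) (Y q) (Y (q.1 + q.2, q.2)) = 0

/-- The two-variable continuation along the leaf `w₀` up to the height `T`. -/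
structure Lf2 (θ : ℂ → ℂ) (ψ : ℝ × ℝ → ℝ) (r w₀ T : ℝ) (Y : ℂ × ℂ → ℂ) : Prop where
  pos : 0 < T
  an : ∀ x ∈ Strip T, AnalyticAt ℂ Y (x, w₀)
  mem : ∀ x ∈ Strip T, Y (x, w₀) ∈ Strip r
  re : ∀ x : ℝ, ∀ᶠ q : ℝ × ℝ in 𝓝 (x, w₀),
    (Y (q.1, q.2)).im = 0 ∧ θ (Y (q.1, q.2)) = (ψ q : ℝ)

/-- The functional equations near the leaf. -/
def Lf2F (θ H : ℂ → ℂ) (w₀ T : ℝ) (Y : ℂ × ℂ → ℂ) : Prop :=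
  ∀ x ∈ Strip T, ∀ᶠ q : ℂ × ℂ in 𝓝 (x, w₀), Y (q.1 + 1, q.2) = Y q + 1 ∧
    law θ H (Y (q.1 - q.2, q.2)) (Y q) (Y (q.1 + q.2, q.2)) = 0

/-- The half angle at the vertex `x`. -/
def de (n : ℕ) (φ : ℂ → ℂ) (x : ℂ) : ℂ := (φ x - φ (x - 1 / n)) / 2

/-- The normal speed of the vertex `x`. -/
def sg (c : ℝ) (θ : ℂ → ℂ) (n : ℕ) (Y φ : ℂ → ℂ) (x : ℂ) : ℂ :=
  c * sin (de n φ x) * deriv Y x / deriv θ (Y x) ^ 2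

/-- The leaf of `n`-periodic orbits: vertex `Y x`, outgoing line with normal angle `φ x` and
offset `p x`; the next vertex is `Y (x + 1 / n)`. -/
structure LeafD (r c : ℝ) (θ H : ℂ → ℂ) (n : ℕ) (T : ℝ) (Y φ p : ℂ → ℂ) : Prop where
  odd : Odd n
  three : 3 ≤ n
  pos : 0 < T
  dY : DifferentiableOn ℂ Y (Strip T)
  dφ : DifferentiableOn ℂ φ (Strip T)
  dp : DifferentiableOn ℂ p (Strip T)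
  mem : ∀ x ∈ Strip T, Y x ∈ Strip r
  perY : ∀ x ∈ Strip T, Y (x + 1) = Y x + 1
  perφ : ∀ x ∈ Strip T, φ (x + 1) = φ x + 2 * Real.pi
  perp : ∀ x ∈ Strip T, p (x + 1) = p x
  th : ∀ x ∈ Strip T, φ x + φ (x - 1 / n) = 2 * θ (Y x)
  pc : ∀ x ∈ Strip T, p x + p (x - 1 / n) = 2 * H (Y x) * cos (de n φ x)
  ps : ∀ x ∈ Strip T,
    (p x - p (x - 1 / n)) * deriv θ (Y x) = 2 * deriv H (Y x) * sin (de n φ x)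
  re : ∀ x : ℝ, (Y x).im = 0 ∧ (φ x).im = 0 ∧ (p x).im = 0
  sgn : ∀ x : ℝ, 0 < (deriv Y x).re ∧ 0 < (deriv φ x).re ∧ 0 < (de n φ x).re ∧
    (de n φ x).re < Real.pi / 2
  wr : ∃ C₀ : ℂ, C₀ ≠ 0 ∧ ∀ x : ℝ, ∑ j ∈ Finset.range n,
    ((sg c θ n Y φ (x + j / n))⁻¹ + (sg c θ n Y φ (x + (j + 1) / n))⁻¹) /
      deriv φ (x + j / n) = C₀

/-- All vertices continue across the point `x₀` with values in the strip. -/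
def RegAt (r : ℝ) (n : ℕ) (T : ℝ) (Y : ℂ → ℂ) (x₀ : ℂ) : Prop :=
  ∃ (ρ : ℝ) (F : ℕ → ℂ → ℂ), 0 < ρ ∧ ∀ j < n, DifferentiableOn ℂ (F j) (ball x₀ ρ) ∧
    MapsTo (F j) (ball x₀ ρ) (Strip r) ∧
    EqOn (F j) (fun x => Y (x + j / n)) (ball x₀ ρ ∩ Strip T)

/-- The boundary lines of the leaf have no regular point. -/
def NoReg (r : ℝ) (n : ℕ) (T : ℝ) (Y : ℂ → ℂ) : Prop :=
  ∀ x₀ : ℂ, |x₀.im| = T → ¬ RegAt r n T Y x₀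

/-- `f` continues to the tube over the rectangle, around the leaf `w₀`. -/
def TubeW (f : ℝ × ℝ → ℂ) (x₀ δ T w₀ η : ℝ) : Prop :=
  ∃ F : ℂ × ℂ → ℂ, AnalyticOnNhd ℂ F (U.Rect x₀ δ T ×ˢ ball (w₀ : ℂ) η) ∧
    ∀ x w : ℝ, |x - x₀| < δ → |w - w₀| < η → F (x, w) = f (x, w)

/-! ## The blocks -/

/-- the two forms of the normal form -/
def Spec_NF : Prop := ∀ (h : ℝ → ℝ) (ε η : ℝ) (Φ J : ℝ × ℝ → ℝ × ℝ), IsTable h →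
  NForm h ε η Φ J → Gm.NF h ε (fun q => (Φ q).1) (fun q => (Φ q).2)

/-- the support function is holomorphic where the normal angle is -/
def Spec_CUR : Prop := ∀ (h p : ℝ → ℝ) (c r : ℝ) (Z W θ : ℂ → ℂ), IsTable h → H402.IntBd h →
  Laz h p c → 0 < r → MerExt h p Z W (Strip r) → HolExt p θ (Strip r) →
  ∃ H Q : ℂ → ℂ, Cur r c θ H Q ∧ ∀ x : ℝ, H x = (h (p x) : ℝ)

/-- the real vertex map and the real law -/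
def Spec_RL : Prop := ∀ (h : ℝ → ℝ) (ε : ℝ) (ψ δ : ℝ × ℝ → ℝ) (r c : ℝ) (θ H Q : ℂ → ℂ),
  Gm.NF h ε ψ δ → Cur r c θ H Q → Agr h ψ θ H →
  (∀ a b : ℝ, θ a = θ b → a = b) ∧
  ∀ (x w u y v : ℝ), 0 < w → w < ε → θ u = (ψ (x - w, w) : ℝ) → θ y = (ψ (x, w) : ℝ) →
    θ v = (ψ (x + w, w) : ℝ) →
    law θ H u y v = 0 ∧
    fW θ H v * deriv θ y - fW θ H y * deriv θ v ≠ 0 ∧
    fZ θ H y = Gm.la ψ δ (x + w / 2, w) * fW θ H y + Gm.lb h ψ δ (x + w / 2, w) * deriv θ y ∧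
    fZ θ H v = Gm.la ψ δ (x + w / 2, w) * fW θ H v + Gm.lb h ψ δ (x + w / 2, w) * deriv θ v ∧
    (δ (x + w, w) ≠ Real.pi / 2 → Gm.la ψ δ (x + w / 2, w) ≠ Gm.la ψ δ (x + w + w / 2, w))

/-- the first box -/
def Spec_Y0 : Prop := ∀ (h : ℝ → ℝ) (ε : ℝ) (ψ δ : ℝ × ℝ → ℝ) (r c : ℝ) (θ H Q : ℂ → ℂ),
  Gm.NF h ε ψ δ → Cur r c θ H Q → Agr h ψ θ H →
  ∃ (κ : ℝ) (Y : ℂ × ℂ → ℂ), Sol0 θ H κ Y ∧ κ ≤ ε ∧ 2 * κ ≤ r ∧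
    ∀ x w : ℝ, |w| < κ → θ (Y (x, w)) = (ψ (x, w) : ℝ)

/-- no calm ball (baseline and kink) -/
def Spec_NOCALM : Prop := ∀ (r c κ : ℝ) (θ H Q : ℂ → ℂ) (Y : ℂ × ℂ → ℂ), Cur r c θ H Q →
  Sol0 θ H κ Y → 2 * κ ≤ r → Crit r θ Q → NatB r θ → NoCalm r θ Q

/-- germs along a connected set -/
def Spec_GERM : Prop := ∀ (F G : ℂ × ℂ → ℂ) (K : Set ℂ) (w₀ : ℝ) (x₀ : ℝ), IsPreconnected K →
  (x₀ : ℂ) ∈ K → (∀ x ∈ K, AnalyticAt ℂ F (x, w₀) ∧ AnalyticAt ℂ G (x, w₀)) →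
  (∀ᶠ q : ℝ × ℝ in 𝓝 (x₀, w₀), F (q.1, q.2) = G (q.1, q.2)) →
  ∀ x ∈ K, F =ᶠ[𝓝 (x, (w₀ : ℂ))] G

/-- the functional equations along a leaf -/
def Spec_LF2F : Prop := ∀ (h : ℝ → ℝ) (ε : ℝ) (ψ δ : ℝ × ℝ → ℝ) (r c w₀ T : ℝ) (θ H Q : ℂ → ℂ)
  (Y : ℂ × ℂ → ℂ), Gm.NF h ε ψ δ → Cur r c θ H Q → Agr h ψ θ H → 0 < w₀ → w₀ < ε →
  Lf2 θ ψ r w₀ T Y → Lf2F θ H w₀ T Y

/-- the maximal continuation along a leaf -/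
def Spec_SUP2 : Prop := ∀ (h : ℝ → ℝ) (ε : ℝ) (ψ δ : ℝ × ℝ → ℝ) (r c w₀ T₀ : ℝ) (θ H Q : ℂ → ℂ)
  (Y₀ : ℂ × ℂ → ℂ), Gm.NF h ε ψ δ → Cur r c θ H Q → Agr h ψ θ H → 0 < w₀ → w₀ < ε →
  Lf2 θ ψ r w₀ T₀ Y₀ →
  ∃ (T : ℝ) (Y : ℂ × ℂ → ℂ), Lf2 θ ψ r w₀ T Y ∧ ∀ T' Y', T < T' → ¬ Lf2 θ ψ r w₀ T' Y'

/-- the real Wronskian identity and the signs on a small real leaf -/
def Spec_WR : Prop := ∀ (h : ℝ → ℝ) (ε : ℝ) (ψ δ : ℝ × ℝ → ℝ), Gm.NF h ε ψ δ →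
  ∃ n₀ : ℕ, ∀ n : ℕ, n₀ ≤ n → (1 : ℝ) / n < ε ∧
    (∀ x : ℝ, 0 < deriv (fun s => ψ (s, 1 / n)) x ∧
      0 < deriv (fun s => ψ (s, 1 / n) + δ (s, 1 / n)) x ∧ δ (x, 1 / n) < Real.pi / 2) ∧
    ∃ C₀ : ℝ, C₀ ≠ 0 ∧ ∀ x : ℝ, ∑ j ∈ Finset.range n,
      (((h (ψ (x + j / n, 1 / n)) + deriv (deriv h) (ψ (x + j / n, 1 / n))) *
          Real.sin (δ (x + j / n, 1 / n)) * deriv (fun s => ψ (s, 1 / n)) (x + j / n))⁻¹ +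
        ((h (ψ (x + (j + 1) / n, 1 / n)) + deriv (deriv h) (ψ (x + (j + 1) / n, 1 / n))) *
          Real.sin (δ (x + (j + 1) / n, 1 / n)) *
            deriv (fun s => ψ (s, 1 / n)) (x + (j + 1) / n))⁻¹) /
        deriv (fun s => ψ (s, 1 / n) + δ (s, 1 / n)) (x + j / n) = C₀

/-- the data on an odd rational leaf -/
def Spec_LEAF : Prop := ∀ (h : ℝ → ℝ) (ε : ℝ) (ψ δ : ℝ × ℝ → ℝ) (r c : ℝ) (θ H Q : ℂ → ℂ),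
  Gm.NF h ε ψ δ → Cur r c θ H Q → Agr h ψ θ H →
  ∃ n₀ : ℕ, ∀ n : ℕ, n₀ ≤ n → Odd n → (1 : ℝ) / n < ε ∧ (∀ x : ℝ, δ (x, 1 / n) < Real.pi / 2) ∧
    ∀ (T : ℝ) (Y : ℂ × ℂ → ℂ),
    Lf2 θ ψ r (1 / n) T Y →
    ∃ φ p : ℂ → ℂ, LeafD r c θ H n T (fun x => Y (x, ((1 / n : ℝ) : ℂ))) φ p

/-- propagation of an analytic invariant foliation along a curve of fixed points -/
def Spec_PROPN : Prop := ∀ (M Ψ : ℂ × ℂ → ℂ × ℂ) (Γ : ℂ → ℂ × ℂ) (ρ : ℝ) (n : ℕ), 0 < ρ → 0 < n →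
  AnalyticOnNhd ℂ Γ (ball 0 ρ) → (∀ s ∈ ball (0 : ℂ) ρ, deriv (fun t => (Γ t).1) s ≠ 0) →
  (∀ s ∈ ball (0 : ℂ) ρ, AnalyticAt ℂ M (Γ s) ∧ M (Γ s) = Γ s) →
  (∀ s ∈ ball (0 : ℂ) ρ, s.im < 0 → AnalyticAt ℂ Ψ (s, 0) ∧ Ψ (s, 0) = Γ s ∧
    ∀ᶠ q : ℂ × ℂ in 𝓝 (s, 0), M (Ψ q) = Ψ (q.1 + n * q.2, q.2)) →
  ∃ (s₀ ρ' : ℝ) (Ψ' : ℂ × ℂ → ℂ × ℂ), 0 < ρ' ∧ ball (s₀ : ℂ) ρ' ⊆ ball 0 ρ ∧
    AnalyticOnNhd ℂ Ψ' (ball (s₀ : ℂ) ρ' ×ˢ ball 0 ρ') ∧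
    ∀ s ∈ ball (s₀ : ℂ) ρ', s.im < 0 → Ψ' =ᶠ[𝓝 (s, 0)] Ψ

/-- a regular point of the leaf gives a bidisc -/
def Spec_PROPY : Prop := ∀ (r c T : ℝ) (θ H Q φ p : ℂ → ℂ) (n : ℕ) (Y : ℂ × ℂ → ℂ) (x₀ : ℂ),
  Cur r c θ H Q → LeafD r c θ H n T (fun x => Y (x, ((1 / n : ℝ) : ℂ))) φ p →
  (∀ x ∈ Strip T, AnalyticAt ℂ Y (x, ((1 / n : ℝ) : ℂ))) → Lf2F θ H (1 / n) T Y → x₀.im = T →
  RegAt r n T (fun x => Y (x, ((1 / n : ℝ) : ℂ))) x₀ →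
  ∃ (x₁ : ℂ) (ρ : ℝ) (F₀ F₁ : ℂ × ℂ → ℂ), x₁.im = T ∧ 0 < ρ ∧
    AnalyticOnNhd ℂ F₀ (ball x₁ ρ ×ˢ ball ((1 / n : ℝ) : ℂ) ρ) ∧
    AnalyticOnNhd ℂ F₁ (ball x₁ ρ ×ˢ ball ((1 / n : ℝ) : ℂ) ρ) ∧
    MapsTo F₀ (ball x₁ ρ ×ˢ ball ((1 / n : ℝ) : ℂ) ρ) (Strip r) ∧
    MapsTo F₁ (ball x₁ ρ ×ˢ ball ((1 / n : ℝ) : ℂ) ρ) (Strip r) ∧
    ∀ x ∈ ball x₁ ρ ∩ Strip T, F₀ =ᶠ[𝓝 (x, ((1 / n : ℝ) : ℂ))] Y ∧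
      F₁ =ᶠ[𝓝 (x, ((1 / n : ℝ) : ℂ))] fun q => Y (q.1 + q.2, q.2)

/-- the bidisc gives a tube for the lines -/
def Spec_TUBE : Prop := ∀ (h : ℝ → ℝ) (ε : ℝ) (ψ δ : ℝ × ℝ → ℝ) (r c w₀ T ρ : ℝ) (θ H Q : ℂ → ℂ)
  (Y F₀ F₁ : ℂ × ℂ → ℂ) (x₁ : ℂ), Gm.NF h ε ψ δ → Cur r c θ H Q → Agr h ψ θ H → 0 < w₀ →
  w₀ < ε → Lf2 θ ψ r w₀ T Y → x₁.im = T → 0 < ρ →
  AnalyticOnNhd ℂ F₀ (ball x₁ ρ ×ˢ ball (w₀ : ℂ) ρ) →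
  AnalyticOnNhd ℂ F₁ (ball x₁ ρ ×ˢ ball (w₀ : ℂ) ρ) →
  MapsTo F₀ (ball x₁ ρ ×ˢ ball (w₀ : ℂ) ρ) (Strip r) →
  MapsTo F₁ (ball x₁ ρ ×ˢ ball (w₀ : ℂ) ρ) (Strip r) →
  (∀ x ∈ ball x₁ ρ ∩ Strip T, F₀ =ᶠ[𝓝 (x, (w₀ : ℂ))] Y ∧
    F₁ =ᶠ[𝓝 (x, (w₀ : ℂ))] fun q => Y (q.1 + q.2, q.2)) →
  ∃ x₀ d T' η : ℝ, 0 < d ∧ T < T' ∧ 0 < η ∧ η ≤ w₀ ∧ w₀ + η ≤ ε ∧
    TubeW (Gm.la ψ δ) x₀ d T' w₀ η ∧ TubeW (Gm.lb h ψ δ) x₀ d T' w₀ η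

/-- the theorem T3 around an arbitrary real leaf -/
def Spec_UW : Prop := ∀ (h : ℝ → ℝ) (ε : ℝ) (ψ δ : ℝ × ℝ → ℝ) (x₀ d T w₀ η : ℝ),
  Gm.NF h ε ψ δ → 0 < d → 0 < T → 0 < η → |w₀| + η ≤ ε →
  TubeW (Gm.la ψ δ) x₀ d T w₀ η → TubeW (Gm.lb h ψ δ) x₀ d T w₀ η →
  ∃ Z : Set ℝ, Z.Countable ∧ ∀ w ∉ Z, |w - w₀| < η →
    ∃ a b : ℂ → ℂ, MeromorphicOn a (U.St T) ∧ MeromorphicOn b (U.St T) ∧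
      ∀ x : ℝ, a x = Gm.la ψ δ (x, w) ∧ b x = Gm.lb h ψ δ (x, w)

/-- a meromorphic curve on the table lifts to the strip with natural boundary -/
def Spec_NATB : Prop := ∀ (r c T : ℝ) (θ H Q Z W : ℂ → ℂ) (y : ℝ → ℝ), Cur r c θ H Q →
  NatB r θ → 0 < T → MeromorphicOn Z (U.St T) → MeromorphicOn W (U.St T) →
  (∀ x, AnalyticAt ℝ y x) → (∀ x, y (x + 1) = y x + 1) →
  (∀ x : ℝ, Z x * deriv θ (y x) = fZ θ H (y x) ∧ W x * deriv θ (y x) = fW θ H (y x)) →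
  ∃ F : ℂ → ℂ, DifferentiableOn ℂ F (Strip T) ∧ MapsTo F (Strip T) (Strip r) ∧
    ∀ x : ℝ, F x = (y x : ℝ)

/-- two constants: from real leaves to a neighbourhood of the leaf -/
def Spec_TWO : Prop := ∀ (r w₀ T η : ℝ) (Y : ℂ × ℂ → ℂ) (Z : Set ℝ), 0 < T → 0 < η →
  Z.Countable → (∀ x : ℝ, AnalyticAt ℂ Y (x, w₀)) →
  (∀ x : ℝ, ∀ᶠ q : ℂ × ℂ in 𝓝 ((x : ℂ), (w₀ : ℂ)), Y (q.1 + 1, q.2) = Y q + 1) →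
  (∀ w ∉ Z, |w - w₀| < η → ∃ F : ℂ → ℂ, DifferentiableOn ℂ F (Strip T) ∧
    MapsTo F (Strip T) (Strip r) ∧ (∀ x : ℝ, (F x).im = 0) ∧ (∀ x ∈ Strip T, F (x + 1) = F x + 1) ∧
    ∀ x : ℝ, 0 ≤ x → x ≤ 1 → F x = Y (x, w)) →
  ∀ T', 0 < T' → T' < T → ∃ Y' : ℂ × ℂ → ℂ, (∀ x ∈ Strip T', AnalyticAt ℂ Y' (x, w₀)) ∧
    (∀ x ∈ Strip T', Y' (x, w₀) ∈ Strip r) ∧ ∀ x : ℝ, Y' =ᶠ[𝓝 ((x : ℂ), (w₀ : ℂ))] Y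

/-- a maximal odd leaf has no regular point -/
def Spec_NOREG : Prop := ∀ (h : ℝ → ℝ) (ε : ℝ) (ψ δ : ℝ × ℝ → ℝ) (r c T : ℝ)
  (θ H Q φ p : ℂ → ℂ) (n : ℕ) (Y : ℂ × ℂ → ℂ), Gm.NF h ε ψ δ → Cur r c θ H Q → Agr h ψ θ H →
  NatB r θ → (1 : ℝ) / n < ε → (∀ x : ℝ, δ (x, 1 / n) < Real.pi / 2) →
  Lf2 θ ψ r (1 / n) T Y →
  (∀ T' Y', T < T' → ¬ Lf2 θ ψ r (1 / n) T' Y') →
  LeafD r c θ H n T (fun x => Y (x, ((1 / n : ℝ) : ℂ))) φ p →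
  NoReg r n T (fun x => Y (x, ((1 / n : ℝ) : ℂ)))

/-- the core of the critical case -/
def Spec_CORE : Prop := ∀ (r c T : ℝ) (θ H Q Y φ p : ℂ → ℂ) (n : ℕ), Cur r c θ H Q →
  Crit r θ Q → NoCalm r θ Q → LeafD r c θ H n T Y φ p → NoReg r n T Y → False

/-- the critical case -/
def Spec_CR : Prop := ∀ (h : ℝ → ℝ) (ε : ℝ) (ψ δ : ℝ × ℝ → ℝ) (r c : ℝ) (θ H Q : ℂ → ℂ),
  Gm.NF h ε ψ δ → Cur r c θ H Q → Agr h ψ θ H → NatB r θ → Crit r θ Q → False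

/-- the supercritical case -/
def Spec_AD : Prop := ∀ (h : ℝ → ℝ) (ε : ℝ) (ψ δ : ℝ × ℝ → ℝ) (r c : ℝ) (θ H Q : ℂ → ℂ),
  Gm.NF h ε ψ δ → Cur r c θ H Q → Agr h ψ θ H → NatB r θ → ¬ Crit r θ Q → False

/-- the entire case -/
def Spec_N1 : Prop := ∀ (c κ : ℝ) (θ H Q : ℂ → ℂ) (Y : ℂ × ℂ → ℂ),
  (∀ r, 0 < r → Cur r c θ H Q) → Sol0 θ H κ Y → ∀ y, deriv θ y = 2 * Real.pi

/-- constant speed gives a disc -/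
def Spec_DISC : Prop := ∀ (h p : ℝ → ℝ) (c : ℝ), IsTable h → Laz h p c →
  (∀ x, deriv p x = 2 * Real.pi) → H407.IsEllipse h

/-- the trichotomy -/
def Spec_TRI : Prop := ∀ h : ℝ → ℝ, IsTable h → H402.IntBd h → H407.IsEllipse h ∨
  ∃ (ε c : ℝ) (ψ δ : ℝ × ℝ → ℝ) (θ H Q : ℂ → ℂ), Gm.NF h ε ψ δ ∧ Laz h (fun x => ψ (x, 0)) c ∧
    Agr h ψ θ H ∧ ((∀ r, 0 < r → Cur r c θ H Q) ∨ ∃ r, Cur r c θ H Q ∧ NatB r θ)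

end Vale.Agent.P097Top
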