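import Vale.Agent.P097Top.Defs
import Vale.Agent.P097T.EndAll
import Vale.Agent.P097T.EndLaz
import Vale.Agent.P097T.EndLink

/-!
# P097Top: the trichotomy and the assemblies
-/

set_option linter.all false

noncomputable section

namespace Vale.Agent.P097Top

open Filter Topology Set Metric Complex Vale.Agent.P097 Vale.Agent.P097T EB EA

theorem Cur.congr {r c : ℝ} {θ H Q H' Q' : ℂ → ℂ} (C : Cur r c θ H Q)
    (e : EqOn H' H (Strip r)) (f : EqOn Q' Q (Strip r)) : Cur r c θ H' Q' := by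
  have k : ∀ y ∈ Strip r, H' =ᶠ[𝓝 y] H := fun y m =>
    e.eventuallyEq_of_mem ((strip_open r).mem_nhds m)
  have s : ∀ y ∈ Strip r, y + 1 ∈ Strip r := fun y m => by simpa [Strip] using m
  refine ⟨C.rpos, C.cpos, C.dθ, C.dH.congr e, C.dQ.congr f, C.perθ, fun y m => ?_,
    fun y m => ?_, fun y m => ?_, C.reθ, fun x => ?_, C.pos⟩
  · rw [e (s y m), e m, C.perH y m]
  · rw [f m, C.ode y m]
  · rw [(k y m).deriv.deriv_eq, (k y m).deriv_eq, e m, C.laz y m]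
  · rw [e (real_mem C.rpos x), C.reH]

theorem glue_cur {c : ℝ} {θ : ℂ → ℂ} {a : ℝ → ℝ}
    (k : ∀ r, 0 < r → ∃ H Q : ℂ → ℂ, Cur r c θ H Q ∧ ∀ x : ℝ, H x = (a x : ℝ)) :
    ∃ H Q : ℂ → ℂ, (∀ r, 0 < r → Cur r c θ H Q) ∧ ∀ x : ℝ, H x = (a x : ℝ) := by
  choose! H Q C e using k
  have p : ∀ y : ℂ, 0 < |y.im| + 1 := fun y => by positivity
  have m : ∀ y : ℂ, y ∈ Strip (|y.im| + 1) := fun y => show |y.im| < _ by linarith
  refine ⟨fun y => H (|y.im| + 1) y, fun y => Q (|y.im| + 1) y, fun r r0 =>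
    (C r r0).congr (fun y hy => ?_) (fun y hy => ?_), fun x => e _ (p x) x⟩
  · exact H500.strip_eq (lt_min (p y) r0)
      ((C _ (p y)).dH.mono (Glue.smono (min_le_left _ _)))
      ((C r r0).dH.mono (Glue.smono (min_le_right _ _)))
      (fun x => (e _ (p y) x).trans (e r r0 x).symm) y (lt_min (m y) hy)
  · refine H500.strip_eq (lt_min (p y) r0)
      ((C _ (p y)).dQ.mono (Glue.smono (min_le_left _ _)))
      ((C r r0).dQ.mono (Glue.smono (min_le_right _ _))) (fun x => ?_) y (lt_min (m y) hy)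
    have g : deriv θ x ≠ 0 := fun g => by simpa [g] using (C r r0).pos x
    exact mul_right_cancel₀ g (((C _ (p y)).ode x (real_mem (p y) x)).symm.trans
      ((C r r0).ode x (real_mem r0 x)))

theorem hol_conj {p : ℝ → ℝ} {θ : ℂ → ℂ} {r ρ : ℝ} {y₀ : ℂ}
    (E : HolExt p θ (Strip r ∪ ball y₀ ρ)) :
    HolExt p (starRingEnd ℂ ∘ θ ∘ starRingEnd ℂ) (Strip r ∪ ball (starRingEnd ℂ y₀) ρ) := by
  refine ⟨fun y m => ?_, fun x => by simp [E.eq]⟩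
  have m' : starRingEnd ℂ y ∈ Strip r ∪ ball y₀ ρ := m.imp (fun m => by simpa [Strip] using m)
    fun m => by
      rw [mem_ball, dist_eq_norm] at m ⊢
      rwa [← norm_conj, map_sub, conj_conj]
  have d := (E.hol.differentiableAt (((strip_open r).union isOpen_ball).mem_nhds m')).conj_conj
  rw [conj_conj] at d
  exact d.differentiableWithinAt

theorem tri (T3 : P097T.Spec_T3) (NF : Spec_NF) (CUR : Spec_CUR) : Spec_TRI := by
  intro h hT hI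
  by_cases k : H407.IsEllipse h
  · exact Or.inl k
  right
  obtain ⟨ε, η, Φ, J, N⟩ := nform hI
  obtain ⟨c, hL⟩ := laz h ε η Φ J hT N
  by_cases u : ∀ r, 0 < r → ∃ Z W, MerExt h (fun x => (Φ (x, 0)).1) Z W (Strip r)
  · obtain ⟨θ, E⟩ := glue.2 _ fun r r0 => by
      obtain ⟨Z, W, F⟩ := u r r0
      exact (n0 h _ c r Z W hT hI hL r0 F).resolve_left k
    obtain ⟨H, Q, C, e⟩ := glue_cur (c := c) (θ := θ) (a := fun x => h (Φ (x, 0)).1)
      fun r r0 => by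
        obtain ⟨Z, W, F⟩ := u r r0
        exact CUR h _ c r Z W θ hT hI hL r0 F (hol_mono E (subset_univ _))
    exact ⟨ε, c, _, _, θ, H, Q, NF h ε η Φ J hT N, hL, fun x => ⟨E.eq x, e x⟩, Or.inl C⟩
  · push Not at u
    obtain ⟨r, r0, u⟩ := u
    have st : ¬ ∀ R, 0 < R → R ≤ r → (∃ Z W, MerExt h (fun x => (Φ (x, 0)).1) Z W (Strip R)) →
        ∃ s, R < s ∧ ∃ Z W, MerExt h (fun x => (Φ (x, 0)).1) Z W (Strip s) := fun st => by
      obtain ⟨s, s1, -, Z, W, F⟩ := radii (r := r)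
        (Q := fun s => ∃ Z W, MerExt h (fun x => (Φ (x, 0)).1) Z W (Strip s))
        (fun s t m ⟨Z, W, F⟩ => ⟨Z, W, mer_mono F (Glue.smono m)⟩)
        (by
          obtain ⟨s, Z, W, m⟩ := ini h _ c hT hL
          exact ⟨s, m.1, Z, W, m.2⟩)
        (fun R R0 => glue.1 h _ c R hT hL R0) st
      exact u Z W (mer_mono F (Glue.smono s1.le))
    push Not at st
    obtain ⟨R, R0, -, ⟨Z, W, F⟩, mx⟩ := st
    obtain ⟨θ, E⟩ := (n0 h _ c R Z W hT hI hL R0 F).resolve_left k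
    obtain ⟨H, Q, C, e⟩ := CUR h _ c R Z W θ hT hI hL R0 F E
    have up : ∀ (y₀ : ℂ) (ρ : ℝ) (χ : ℂ → ℂ), y₀.im = R → 0 < ρ →
        ¬ HolExt (fun x => (Φ (x, 0)).1) χ (Strip R ∪ ball y₀ ρ) := fun y₀ ρ χ m ρ0 G => by
      obtain ⟨Z', W', ρ', y₁, n1, n2, F'⟩ := link h _ c R ρ Z W χ y₀ hT hL R0 ρ0 m F G
      obtain ⟨s, Z₂, W₂, n3⟩ := (T3 h ε η Φ J Z' W' R ρ' y₁ hT hI N R0 n1 n2 F').resolve_left k
      exact mx s n3.1 Z₂ W₂ n3.2
    refine ⟨ε, c, _, _, θ, H, Q, NF h ε η Φ J hT N, hL, fun x => ⟨E.eq x, e x⟩,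
      Or.inr ⟨R, C, fun y₀ ρ χ m ρ0 d q => ?_⟩⟩
    have G : HolExt (fun x => (Φ (x, 0)).1) χ (Strip R ∪ ball y₀ ρ) :=
      ⟨d, fun x => (q (real_mem R0 x)).trans (E.eq x)⟩
    rcases (abs_eq R0.le).1 m with m | m
    · exact up y₀ ρ χ m ρ0 G
    · exact up _ ρ _ (by simp [m]) ρ0 (hol_conj G)

/-- a small real leaf has a first strip -/
theorem lf2_of {θ H : ℂ → ℂ} {ψ : ℝ × ℝ → ℝ} {r κ w : ℝ} {Y : ℂ × ℂ → ℂ} (S : Sol0 θ H κ Y)
    (k : 2 * κ ≤ r) (e : ∀ x w : ℝ, |w| < κ → θ (Y (x, w)) = (ψ (x, w) : ℝ)) (m : |w| < κ) :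
    Lf2 θ ψ r w κ Y := by
  have b : (w : ℂ) ∈ ball (0 : ℂ) κ := by simpa using m
  refine ⟨S.pos, fun x n => S.an _ ⟨n, b⟩, fun x n => ?_, fun x => ?_⟩
  · have h1 := (abs_im_le_norm _).trans (S.bd (x, w) ⟨n, b⟩)
    have h2 : |x.im| < κ := n
    simp only [sub_im, norm_real, Real.norm_eq_abs] at h1
    have h3 := abs_sub_abs_le_abs_sub (Y (x, w)).im x.im
    show |(Y (x, w)).im| < r
    linarith
  · have : ∀ᶠ q : ℝ × ℝ in 𝓝 (x, w), |q.2| < κ :=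
      (continuous_abs.comp continuous_snd).continuousAt.eventually_lt continuousAt_const m
    filter_upwards [this] with q n using ⟨S.re q.1 q.2 n, e q.1 q.2 n⟩

theorem cr (Y0 : Spec_Y0) (NC : Spec_NOCALM) (SUP : Spec_SUP2) (LEAF : Spec_LEAF)
    (NR : Spec_NOREG) (CORE : Spec_CORE) : Spec_CR := by
  intro h ε ψ δ r c θ H Q N C A B K
  obtain ⟨κ, Y₀, S, k1, k2, e⟩ := Y0 h ε ψ δ r c θ H Q N C A
  obtain ⟨n₀, L⟩ := LEAF h ε ψ δ r c θ H Q N C A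
  obtain ⟨m, hm⟩ := exists_nat_one_div_lt S.pos
  set n : ℕ := 2 * (n₀ + m) + 1 with hn
  have n0 : (0 : ℝ) < 1 / n := by positivity
  have n1 : (1 : ℝ) / n < κ := lt_of_le_of_lt
    (one_div_le_one_div_of_le (by positivity) (by rw [hn]; push_cast; nlinarith [
      (Nat.cast_nonneg n₀ : (0 : ℝ) ≤ n₀), (Nat.cast_nonneg m : (0 : ℝ) ≤ m)])) hm
  obtain ⟨l1, l2, l3⟩ := L n (by omega) ⟨n₀ + m, hn⟩
  obtain ⟨T, Y, F, mx⟩ := SUP h ε ψ δ r c (1 / n) κ θ H Q Y₀ N C A n0 l1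
    (lf2_of S k2 e (by rwa [abs_of_pos n0]))
  obtain ⟨φ, p, D⟩ := l3 T Y F
  exact CORE r c T θ H Q _ φ p n C K (NC r c κ θ H Q Y₀ C S k2 K B) D
    (NR h ε ψ δ r c T θ H Q φ p n Y N C A B l1 l2 F mx D)

theorem ent (Y0 : Spec_Y0) (N1 : Spec_N1) (DISC : Spec_DISC) {h : ℝ → ℝ} {ε c : ℝ}
    {ψ δ : ℝ × ℝ → ℝ} {θ H Q : ℂ → ℂ} (N : Gm.NF h ε ψ δ) (L : Laz h (fun x => ψ (x, 0)) c)
    (A : Agr h ψ θ H) (C : ∀ r, 0 < r → Cur r c θ H Q) : H407.IsEllipse h := by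
  obtain ⟨κ, Y, S, -⟩ := Y0 h ε ψ δ 1 c θ H Q N (C 1 one_pos) A
  refine DISC h _ c N.tab L fun x => ?_
  have d := der L (⟨(C 1 one_pos).dθ, fun x => (A x).1⟩ : HolExt _ θ (Strip 1)) (strip_open 1)
    (real_mem one_pos x)
  rw [N1 c κ θ H Q Y C S] at d
  exact_mod_cast d.symm

/-- the full theorem from the blocks -/
theorem full (TRI : Spec_TRI) (CR : Spec_CR) (AD : Spec_AD) (Y0 : Spec_Y0) (N1 : Spec_N1)
    (DISC : Spec_DISC) {h : ℝ → ℝ} (hT : IsTable h) (hI : H402.IntBd h) : H407.IsEllipse h := by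
  rcases TRI h hT hI with k | ⟨ε, c, ψ, δ, θ, H, Q, N, L, A, C | ⟨r, C, B⟩⟩
  · exact k
  · exact ent Y0 N1 DISC N L A C
  · by_cases K : Crit r θ Q
    · exact (CR h ε ψ δ r c θ H Q N C A B K).elim
    · exact (AD h ε ψ δ r c θ H Q N C A B K).elim

end Vale.Agent.P097Top
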