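import Vale.Agent.P097Top.Tri
import Vale.Agent.P097T.EndGlue

/-!
# P097Top: the class of a counterexample
-/

set_option linter.all false

noncomputable section

namespace Vale.Agent.P097Top

open Filter Topology Set Metric Complex Vale.Agent.P097 Vale.Agent.P097T EB EA

/-- The critical growth bound written with `θ` alone. -/
def Tame (r : ℝ) (θ : ℂ → ℂ) : Prop :=
  ∃ C : ℝ, ∀ y ∈ Strip r, ‖deriv θ y‖ * dp r y ≤ C ∧
    ‖deriv (deriv (deriv θ)) y‖ * dp r y ^ 2 ≤ C * ‖deriv θ y‖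

theorem crit_of {r c : ℝ} {θ H Q : ℂ → ℂ} (C : Cur r c θ H Q) (K : Tame r θ) : Crit r θ Q := by
  obtain ⟨B, hB⟩ := K
  have a : ∀ y ∈ Strip r, deriv θ y ≠ 0 → ‖Q y‖ * dp r y ^ 2 ≤ B := fun y m g => by
    have := (hB y m).2
    rw [C.ode y m, norm_mul, mul_right_comm] at this
    exact le_of_mul_le_mul_right this (norm_pos_iff.2 g)
  refine ⟨B, fun y m => ⟨(hB y m).1, ?_⟩⟩
  by_cases g : deriv θ y = 0
  · have n := (strip_open r).mem_nhds m
    have g2 : deriv (deriv θ) y ≠ 0 := fun g2 => by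
      have := C.laz y m
      rw [g, g2] at this
      have c0 : (c : ℂ) = 0 := by rw [← this]; ring
      exact C.cpos.ne' (by exact_mod_cast c0)
    have d : HasDerivAt (deriv θ) (deriv (deriv θ) y) y :=
      ((C.dθ.deriv (strip_open r)).differentiableAt n).hasDerivAt
    have e : ∀ᶠ z in 𝓝[≠] y, ‖Q z‖ * dp r z ^ 2 ≤ B := by
      filter_upwards [d.eventually_ne g2 (c := 0), mem_nhdsWithin_of_mem_nhds n] with z h1 h2
      exact a z h2 h1
    have t : ContinuousAt (fun z => ‖Q z‖ * dp r z ^ 2) y :=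
      (C.dQ.differentiableAt n).continuousAt.norm.mul
        (((continuous_const.sub (continuous_abs.comp continuous_im)).pow 2).continuousAt)
    exact le_of_tendsto (t.tendsto.mono_left nhdsWithin_le_nhds) e
  · exact a y m g

theorem cls (TRI : Spec_TRI) (CR : Spec_CR) (Y0 : Spec_Y0) (N1 : Spec_N1) (DISC : Spec_DISC)
    {h p : ℝ → ℝ} {c : ℝ} (hT : IsTable h) (hI : H402.IntBd h) (L : Laz h p c)
    (k : ¬ H407.IsEllipse h) :
    ∃ (r : ℝ) (θ : ℂ → ℂ), 0 < r ∧ HolExt p θ (Strip r) ∧ NatB r θ ∧ ¬ Tame r θ := by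
  rcases TRI h hT hI with k' | ⟨ε, c', ψ, δ, θ, H, Q, N, L', A, C | ⟨r, C, B⟩⟩
  · exact (k k').elim
  · exact (k (ent Y0 N1 DISC N L' A C)).elim
  obtain ⟨a, ha⟩ := lazu h _ p c' c hT L' L
  have s : ∀ (b : ℝ) (y : ℂ), y ∈ Strip r → y + b ∈ Strip r := fun b y m => by
    simpa [Strip] using m
  refine ⟨r, fun y => θ (y + a), C.rpos, ⟨?_, fun x => ?_⟩, fun y₀ ρ χ m ρ0 d e => ?_, ?_⟩
  · exact C.dθ.comp (differentiableOn_id.add_const _) (s a)
  · rw [ha, ← (A (x + a)).1, ofReal_add]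
  · refine B (y₀ + a) ρ (fun y => χ (y + (-a : ℝ))) (by simpa using m) ρ0
      (d.comp (differentiableOn_id.add_const _) fun y hy => hy.imp (s _ y) fun hy => ?_)
      fun y hy => ?_
    · rw [mem_ball, dist_eq_norm] at hy ⊢
      convert hy using 2
      push_cast
      ring
    · show χ (y + (-a : ℝ)) = θ y
      rw [e (s _ y hy)]
      show θ (y + (-a : ℝ) + a) = θ y
      congr 1
      push_cast
      ring
  · rintro ⟨B', hB⟩
    refine CR h ε ψ δ r c' θ H Q N C A B (crit_of C ⟨B', fun y m => ?_⟩)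
    have := hB _ (s (-a) y m)
    have e1 : ∀ f : ℂ → ℂ, deriv (fun y => f (y + a)) = fun y => deriv f (y + a) := fun f =>
      funext fun y => deriv_comp_add_const f _ y
    have e2 : y + (-a : ℝ) + a = y := by push_cast; ring
    have e3 : dp r (y + (-a : ℝ)) = dp r y := by simp [dp]
    simpa only [e1, e2, e3] using this

end Vale.Agent.P097Top
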