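import Vale.Agent.P097Top.Leaf

/-!
# P097Top: a maximal odd leaf has no regular point (row NOREG)
-/

set_option linter.all false

noncomputable section

namespace Vale.Agent.P097Top

open Filter Topology Set Metric Complex Vale.Agent.P097 Vale.Agent.P097T
open scoped ComplexConjugate ContDiff

namespace NoR

theorem conj_mem {T : ℝ} {z : ℂ} (hz : z ∈ Strip T) : conj z ∈ Strip T := by
  simpa [Strip] using hz

theorem dconj {U : Set ℂ} (hU : IsOpen U) {F : ℂ → ℂ} (hF : DifferentiableOn ℂ F U) {z : ℂ}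
    (hz : conj z ∈ U) : DifferentiableAt ℂ (fun z => conj (F (conj z))) z := by
  have := (hF.differentiableAt (hU.mem_nhds hz)).conj_conj
  rw [conj_conj] at this
  exact this

/-- reflection of a function which is real on the real line -/
theorem refl {T : ℝ} (hT : 0 < T) {y : ℂ → ℂ} (hy : DifferentiableOn ℂ y (Strip T))
    (hre : ∀ x : ℝ, (y x).im = 0) : ∀ z ∈ Strip T, conj (y (conj z)) = y z :=
  Leaf.ident hT
    (fun z hz => (dconj (Leaf.isOpen_strip T) hy (conj_mem hz)).differentiableWithinAt) hy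
    fun x => by rw [conj_ofReal, conj_eq_iff_im.2 (hre x)]

theorem regAt_conj {r T : ℝ} {n : ℕ} (hT : 0 < T) {y : ℂ → ℂ}
    (hy : DifferentiableOn ℂ y (Strip T)) (hre : ∀ x : ℝ, (y x).im = 0) {x₀ : ℂ}
    (h : RegAt r n T y x₀) : RegAt r n T y (conj x₀) := by
  obtain ⟨ρ, F, hρ, h⟩ := h
  have hb : ∀ z ∈ ball (conj x₀) ρ, conj z ∈ ball x₀ ρ := by
    intro z hz
    rw [mem_ball] at hz ⊢
    rw [← dist_conj_conj, conj_conj]
    exact hz
  refine ⟨ρ, fun j z => conj (F j (conj z)), hρ, fun j hj => ⟨?_, ?_, ?_⟩⟩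
  · exact fun z hz => (dconj isOpen_ball (h j hj).1 (hb z hz)).differentiableWithinAt
  · exact fun z hz => conj_mem ((h j hj).2.1 (hb z hz))
  · intro z hz
    have e := (h j hj).2.2 ⟨hb z hz.1, conj_mem hz.2⟩
    have m : z + j / n ∈ Strip T := by simpa [Strip, Leaf.im_div] using hz.2
    show conj (F j (conj z)) = y (z + j / n)
    rw [e, ← refl hT hy hre _ m]
    simp

/-- the inverse of the normal angle on the real line -/
theorem inv {r c : ℝ} {θ H Q : ℂ → ℂ} (C : Cur r c θ H Q) :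
    ∃ G : ℝ → ℝ, (∀ t, AnalyticAt ℝ G t) ∧ (∀ t, θ (G t) = t) ∧
      ∀ t, G (t + 2 * Real.pi) = G t + 1 := by
  have an : ∀ s : ℝ, AnalyticAt ℂ θ s := fun s =>
    C.dθ.analyticOnNhd (Leaf.isOpen_strip r) _ (Leaf.real_mem C.rpos s)
  let g : ℝ → ℝ := fun s => (θ s).re
  have hg : ∀ s : ℝ, HasDerivAt g (deriv θ s).re s := fun s =>
    (an s).differentiableAt.hasDerivAt.real_of_complex
  have ag : ∀ s, AnalyticAt ℝ g s := fun s =>
    (reCLM.analyticAt _).comp (((an s).restrictScalars (𝕜 := ℝ)).comp (ofRealCLM.analyticAt s))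
  have mono : StrictMono g := strictMono_of_deriv_pos fun s => by
    rw [(hg s).deriv]
    exact C.pos s
  have per : ∀ s, g (s + 1) = g s + 2 * Real.pi := by
    intro s
    have := congrArg re (C.perθ s (Leaf.real_mem C.rpos s))
    simpa [g] using this
  have pk : ∀ k : ℤ, g k = g 0 + 2 * Real.pi * k := by
    have hp : Function.Periodic (fun s => g s - 2 * Real.pi * s) 1 := fun s => by
      simp only [per]
      ring
    intro k
    have := hp.int_mul k 0
    simp only [mul_one, zero_add, mul_zero, sub_zero] at this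
    linarith
  have cont : Continuous g := continuous_iff_continuousAt.2 fun s => (hg s).continuousAt
  have surj : Function.Surjective g := by
    intro t
    have pi0 : 0 < 2 * Real.pi := Real.two_pi_pos
    refine intermediate_value_univ (⌊(t - g 0) / (2 * Real.pi)⌋ : ℝ)
      (⌈(t - g 0) / (2 * Real.pi)⌉ : ℝ) cont ⟨?_, ?_⟩
    · rw [pk]
      have := (le_div_iff₀ pi0).1 (Int.floor_le ((t - g 0) / (2 * Real.pi)))
      linarith
    · rw [pk]
      have := (div_le_iff₀ pi0).1 (Int.le_ceil ((t - g 0) / (2 * Real.pi)))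
      linarith
  let e : ℝ ≃ₜ ℝ := (mono.orderIsoOfSurjective g surj).toHomeomorph
  have he : (e : ℝ → ℝ) = g := rfl
  have h1 : ContDiff ℝ ω (e.symm : ℝ → ℝ) :=
    e.contDiff_symm_deriv (f' := fun s : ℝ => (deriv θ s).re) (fun s => (C.pos s).ne') hg
      (contDiff_omega_iff_analyticOnNhd.2 fun s _ => ag s)
  have h2 : ∀ t, g (e.symm t) = t := fun t => e.apply_symm_apply t
  refine ⟨e.symm, fun t => contDiff_omega_iff_analyticOnNhd.1 h1 t (mem_univ t), fun t => ?_,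
    fun t => mono.injective ?_⟩
  · exact Complex.ext (h2 t) (by rw [C.reθ, ofReal_im])
  · rw [per, h2, h2]

theorem mer_shift {T : ℝ} {a : ℂ → ℂ} (ha : MeromorphicOn a (U.St T)) (s : ℝ) :
    MeromorphicOn (fun z => a (z + s)) (U.St T) := fun z hz =>
  MeromorphicAt.comp_analyticAt (f := a) (g := fun z => z + (s : ℂ))
    (ha _ (by simpa [U.St] using hz)) (analyticAt_id.add analyticAt_const)

/-- the leaf `w` lifts to the strip -/
theorem lift (hRL : Spec_RL) (hN : Spec_NATB) {h : ℝ → ℝ} {ε : ℝ} {ψ δ : ℝ × ℝ → ℝ} {r c : ℝ}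
    {θ H Q : ℂ → ℂ} (N : Gm.NF h ε ψ δ) (C : Cur r c θ H Q) (A : Agr h ψ θ H) (hB : NatB r θ)
    {w T : ℝ} (w0 : 0 < w) (w1 : w < ε) (hT : 0 < T) (hδ : ∀ x, δ (x, w) ≠ Real.pi / 2)
    {a b : ℂ → ℂ} (ha : MeromorphicOn a (U.St T)) (hb : MeromorphicOn b (U.St T))
    (hab : ∀ x : ℝ, a x = Gm.la ψ δ (x, w) ∧ b x = Gm.lb h ψ δ (x, w)) :
    ∃ F : ℂ → ℂ, DifferentiableOn ℂ F (Strip T) ∧ MapsTo F (Strip T) (Strip r) ∧
      (∀ x : ℝ, (F x).im = 0) ∧ (∀ x ∈ Strip T, F (x + 1) = F x + 1) ∧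
      ∀ x : ℝ, θ (F x) = (ψ (x, w) : ℝ) := by
  obtain ⟨G, aG, hG, pG⟩ := inv C
  have hw : ∀ x : ℝ, (x, w) ∈ Gm.Lam ε := fun x => by
    show |w| < ε
    rwa [abs_of_pos w0]
  let y : ℝ → ℝ := fun x => G (ψ (x, w))
  have hy : ∀ x, θ (y x) = (ψ (x, w) : ℝ) := fun x => hG _
  have ay : ∀ x, AnalyticAt ℝ y x := fun x => (aG _).comp
    (AnalyticAt.comp_of_eq (g := ψ) (f := fun s : ℝ => (s, w)) (N.aψ _ (hw x))
      (analyticAt_id.prod analyticAt_const) rfl)
  have py : ∀ x, y (x + 1) = y x + 1 := fun x => by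
    show G (ψ (x + 1, w)) = G (ψ (x, w)) + 1
    rw [(N.per _ (hw x)).1, pG]
  let W : ℂ → ℂ := fun z => (b (z + (w / 2 : ℝ)) - b (z + (-(w / 2) : ℝ))) /
    (a (z + (-(w / 2) : ℝ)) - a (z + (w / 2 : ℝ)))
  let Z : ℂ → ℂ := fun z => a (z + (w / 2 : ℝ)) * W z + b (z + (w / 2 : ℝ))
  have mW : MeromorphicOn W (U.St T) :=
    ((mer_shift hb _).sub (mer_shift hb _)).div ((mer_shift ha _).sub (mer_shift ha _))
  have mZ : MeromorphicOn Z (U.St T) := ((mer_shift ha _).mul mW).add (mer_shift hb _)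
  obtain ⟨F, dF, mF, eF⟩ := hN r c T θ H Q Z W y C hB hT mZ mW ay py fun x => by
    obtain ⟨-, R⟩ := hRL h ε ψ δ r c θ H Q N C A
    obtain ⟨-, -, e1, -, -⟩ := R x w _ _ _ w0 w1 (hy _) (hy _) (hy _)
    obtain ⟨-, -, -, e2, ne⟩ := R (x - w) w _ _ _ w0 w1 (hy _) (hy _) (hy _)
    have ne := ne (hδ _)
    rw [sub_add_cancel, show x - w + w / 2 = x + -(w / 2) by ring] at e2 ne
    rw [← (hab _).1, ← (hab _).2] at e1 e2
    rw [← (hab _).1, ← (hab _).1] at ne
    rw [ofReal_add] at e1 e2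
    rw [ofReal_add, ofReal_add] at ne
    have hW : W x * deriv θ (y x) = fW θ H (y x) := by
      simp only [W]
      rw [div_mul_eq_mul_div, div_eq_iff (sub_ne_zero.2 ne)]
      linear_combination e2 - e1
    refine ⟨?_, hW⟩
    simp only [Z]
    rw [e1, ← hW]
    ring
  refine ⟨F, dF, mF, fun x => by rw [eF, ofReal_im], ?_, fun x => by rw [eF, hy]⟩
  refine Leaf.ident hT (Leaf.dadd dF one_im) (dF.add_const 1) fun x => ?_
  show F (x + 1) = F x + 1
  rw [← ofReal_one, ← ofReal_add, eF, eF, py, ofReal_add]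

end NoR

open NoR

theorem noreg (hRL : Spec_RL) (_ : Spec_GERM) (hL : Spec_LF2F) (hP : Spec_PROPY)
    (hTu : Spec_TUBE) (hU : Spec_UW) (hN : Spec_NATB) (hTw : Spec_TWO) : Spec_NOREG := by
  intro h ε ψ δ r c T θ H Q φ p n Y N C A hB hε hδ L hmax D
  have w0 : (0 : ℝ) < 1 / n := by
    have : (0 : ℝ) < n := by exact_mod_cast (by linarith [D.three] : 0 < n)
    positivity
  have up : ∀ x₀ : ℂ, x₀.im = T → ¬ RegAt r n T (fun x => Y (x, ((1 / n : ℝ) : ℂ))) x₀ := by
    intro x₀ hx hR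
    have LF := hL h ε ψ δ r c (1 / n) T θ H Q Y N C A w0 hε L
    obtain ⟨x₁, ρ, F₀, F₁, hx₁, hρ, a0, a1, m0, m1, hF⟩ :=
      hP r c T θ H Q φ p n Y x₀ C D L.an LF hx hR
    obtain ⟨x₂, d, T', η, hd, hT', hη, η1, η2, ta, tb⟩ :=
      hTu h ε ψ δ r c (1 / n) T ρ θ H Q Y F₀ F₁ x₁ N C A w0 hε L hx₁ hρ a0 a1 m0 m1 hF
    have T0 : 0 < T' := L.pos.trans hT'
    obtain ⟨Z, hZ, hab⟩ := hU h ε ψ δ x₂ d T' (1 / n) η N hd T0 hη
      (by rwa [abs_of_pos w0]) ta tb
    have ev : ∀ᶠ w : ℝ in 𝓝 (1 / n), ∀ x ∈ Icc (0 : ℝ) 1, δ (x, w) < Real.pi / 2 ∧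
        (Y (x, w)).im = 0 ∧ θ (Y (x, w)) = (ψ (x, w) : ℝ) := by
      refine isCompact_Icc.eventually_forall_of_forall_eventually fun x _ => ?_
      have c1 : ContinuousAt δ (x, 1 / n) :=
        (N.aδ _ (show |(1 / n : ℝ)| < ε by rwa [abs_of_pos w0])).continuousAt
      exact (continuous_swap.tendsto ((1 / n : ℝ), x)).eventually
        ((c1.eventually (gt_mem_nhds (hδ x))).and (L.re x))
    obtain ⟨η', hη', ev⟩ := Metric.eventually_nhds_iff.1 ev
    obtain ⟨Y', aY, mY, eY⟩ := hTw r (1 / n) T' (min η η') Y Z T0 (lt_min hη hη') hZ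
      (fun x => L.an _ (Leaf.real_mem L.pos x))
      (fun x => (LF _ (Leaf.real_mem L.pos x)).mono fun q hq => hq.1)
      (fun w hw hw' => by
        have b1 := abs_lt.1 (hw'.trans_le (min_le_left _ _))
        have e := ev (y := w) (hw'.trans_le (min_le_right _ _))
        have w1 : 0 < w := by linarith [b1.1]
        have w2 : w < ε := by linarith [b1.2]
        obtain ⟨a, b, ha, hb, hab⟩ := hab w hw (hw'.trans_le (min_le_left _ _))
        have pδ : Function.Periodic (fun x => δ (x, w)) 1 := fun x =>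
          (N.per (x, w) (show |w| < ε by rwa [abs_of_pos w1])).2
        obtain ⟨F, dF, mF, rF, pF, eF⟩ := lift hRL hN N C A hB w1 w2 T0 (fun x => by
          obtain ⟨s, hs, es⟩ := pδ.exists_mem_Ico₀ one_pos x
          exact (es.trans_lt (e s (Ico_subset_Icc_self hs)).1).ne) ha hb hab
        refine ⟨F, dF, mF, rF, pF, fun x x0 x1 => ?_⟩
        obtain ⟨-, e1, e2⟩ := e x ⟨x0, x1⟩
        have f1 : F x = ((F x).re : ℝ) := Complex.ext rfl (by rw [rF, ofReal_im])
        have f2 : Y (x, w) = ((Y (x, w)).re : ℝ) := Complex.ext rfl (by rw [e1, ofReal_im])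
        rw [f1, f2, (hRL h ε ψ δ r c θ H Q N C A).1 (F x).re (Y (x, w)).re
          (by rw [← f1, ← f2, eF, e2])])
      ((T + T') / 2) (by linarith [L.pos]) (by linarith)
    refine hmax ((T + T') / 2) Y' (by linarith) ⟨by linarith [L.pos], aY, mY, fun x => ?_⟩
    have t : Tendsto (fun q : ℝ × ℝ => ((q.1 : ℂ), (q.2 : ℂ))) (𝓝 (x, 1 / n))
        (𝓝 ((x : ℂ), ((1 / n : ℝ) : ℂ))) :=
      ((continuous_ofReal.comp continuous_fst).prodMk
        (continuous_ofReal.comp continuous_snd)).tendsto (x, 1 / n)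
    filter_upwards [t.eventually (eY x), L.re x] with q h1 h2
    rw [h1]
    exact h2
  intro x₀ hx hR
  rcases abs_eq (le_of_lt L.pos) |>.1 hx with h1 | h1
  · exact up x₀ h1 hR
  · exact up (conj x₀) (by rw [conj_im, h1, neg_neg])
      (regAt_conj L.pos D.dY (fun x => (D.re x).1) hR)

end Vale.Agent.P097Top
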