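import Vale.Agent.P097Top.Lit
import Vale.Agent.P097E.N1
import Vale.Agent.P097E.PolyDefs

/-!
# P097Top: the class theorem with literal objects, entire case closed
-/

set_option linter.all false

namespace Vale.Agent.P097Top

open Vale.Agent.P097 Vale.Agent.P097T

/-- the data of a counterexample -/
theorem base {h : ℝ → ℝ} (hT : IsTable h) (hI : H402.IntBd h) (k : ¬ H407.IsEllipse h) :
    ∃ (ε c r : ℝ) (ψ δ : ℝ × ℝ → ℝ) (θ H Q : ℂ → ℂ), Gm.NF h ε ψ δ ∧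
      Laz h (fun x => ψ (x, 0)) c ∧ Agr h ψ θ H ∧ Cur r c θ H Q ∧ NatB r θ := by
  rcases tri' h hT hI with k' | ⟨ε, c, ψ, δ, θ, H, Q, N, L, A, C | ⟨r, C, B⟩⟩
  · exact (k k').elim
  · exact (k (ent (y0 rl) P097E.n1 disc N L A C)).elim
  · exact ⟨ε, c, r, ψ, δ, θ, H, Q, N, L, A, C, B⟩

theorem natb_lit {h : ℝ → ℝ} {ψ : ℝ × ℝ → ℝ} {r c : ℝ} {θ H Q : ℂ → ℂ} (A : Agr h ψ θ H)
    (C : Cur r c θ H Q) (B : NatB r θ) (y₀ : ℂ) (ρ : ℝ) (χ : ℂ → ℂ) (a : |y₀.im| = r) (b : 0 < ρ)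
    (d : DifferentiableOn ℂ χ ({y | |y.im| < r} ∪ Metric.ball y₀ ρ))
    (e : ∀ x : ℝ, χ x = (ψ (x, 0) : ℝ)) : False :=
  B y₀ ρ χ a b d (H500.strip_eq C.rpos (d.mono Set.subset_union_left) C.dθ
    fun x => (e x).trans (A x).1.symm)

open Vale.Agent.P097B.Arc

theorem lit2 (POLY : P097E.Spec_POLY) : ∃ k : ℕ, ∀ (Ω : Set ℂ) (L : ℝ) (Γ : ℝ → ℂ),
    Table Ω L Γ → Filled L Γ → IsEllipse Ω ∨
    ∃ (p : ℝ → ℝ) (c R : ℝ) (P : ℂ → ℂ), (∀ x, AnalyticAt ℝ p x) ∧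
      (∀ x, p (x + 1) = p x + 2 * Real.pi) ∧ (∀ x, 0 < deriv p x) ∧
      (∀ x, (supp Ω (p x) + deriv (deriv (supp Ω)) (p x)) * deriv p x ^ 3 = c) ∧
      0 < R ∧ DifferentiableOn ℂ P {y | |y.im| < R} ∧ (∀ x : ℝ, P x = p x) ∧
      (∀ (y₀ : ℂ) (r : ℝ) (P' : ℂ → ℂ), |y₀.im| = R → 0 < r →
        DifferentiableOn ℂ P' ({y | |y.im| < R} ∪ Metric.ball y₀ r) → ¬ ∀ x : ℝ, P' x = p x) ∧
      (∃ C : ℝ, ∀ y : ℂ, |y.im| < R → ‖deriv P y‖ * (R - |y.im|) ^ k ≤ C ∧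
        ‖deriv (deriv (deriv P)) y‖ * (R - |y.im|) ^ (2 * k) ≤ C * ‖deriv P y‖) ∧
      ¬ ∃ C : ℝ, ∀ y : ℂ, |y.im| < R → ‖deriv P y‖ * (R - |y.im|) ≤ C ∧
        ‖deriv (deriv (deriv P)) y‖ * (R - |y.im|) ^ 2 ≤ C * ‖deriv P y‖ := by
  obtain ⟨k, hk⟩ := POLY
  refine ⟨k, fun Ω L Γ T F => or_iff_not_imp_left.2 fun n => ?_⟩
  obtain ⟨hT, hI⟩ := intBd T F
  obtain ⟨ε, c, r, ψ, δ, θ, H, Q, N, hL, A, C, B⟩ := base hT hI fun m => n ((dict T).2.2.2 m)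
  obtain ⟨κ, Y, S, -, k2, -⟩ := y0 rl _ ε ψ δ r c θ H Q N C A
  obtain ⟨D, hD⟩ := hk r c κ θ H Q Y C S k2
  refine ⟨_, c, r, θ, hL.an, hL.per, hL.pos, hL.eq, C.rpos, C.dθ, fun x => (A x).1,
    natb_lit A C B, ⟨D, fun y m => ⟨(hD y m).1, ?_⟩⟩,
    fun K => cr' _ ε ψ δ r c θ H Q N C A B (crit_of C K)⟩
  rw [C.ode y m, norm_mul, mul_right_comm]
  exact mul_le_mul_of_nonneg_right (hD y m).2 (norm_nonneg _)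

end Vale.Agent.P097Top
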