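import Vale.Agent.P097Top.Defs
import Vale.Agent.P097C.Spec

/-!
# P097Top: the core of the critical case in the language of the top file
-/

set_option linter.all false

noncomputable section

namespace Vale.Agent.P097Top

open Filter Topology Set Metric Complex Vale.Agent.P097 Vale.Agent.P097T

theorem st_open' (r : ℝ) : IsOpen (Strip r) :=
  isOpen_lt (continuous_abs.comp continuous_im) continuous_const

theorem im_deriv {f : ℂ → ℂ} {r : ℝ} (r0 : 0 < r) (d : DifferentiableOn ℂ f (Strip r))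
    (e : ∀ x : ℝ, (f x).im = 0) (x : ℝ) : (deriv f x).im = 0 := by
  have m : (x : ℂ) ∈ Strip r := by simpa [Strip] using r0
  have h1 := (d.differentiableAt ((st_open' r).mem_nhds m)).hasDerivAt.comp_ofReal
  have h2 := imCLM.hasFDerivAt.comp_hasDerivAt x h1
  have h3 : HasDerivAt (fun y : ℝ => (0 : ℝ)) (deriv f x).im x := by
    refine h2.congr_of_eventuallyEq (.of_forall fun y => ?_)
    simp [e y]
  exact h3.unique (hasDerivAt_const x 0)

theorem dd_le {r : ℝ} {y : ℂ} (m : y ∈ Strip r) :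
    0 < dp r y ∧ P097C.dd r y ≤ 2 * r * dp r y ∧ r * dp r y ≤ P097C.dd r y := by
  have h1 : |y.im| < r := m
  have h2 := abs_nonneg y.im
  have h3 := sq_abs y.im
  unfold dp P097C.dd
  refine ⟨by linarith, by nlinarith, by nlinarith⟩

theorem core_top (K : P097C.Spec_CORE) : Spec_CORE := by
  intro r c T θ H Q Y φ p n C ⟨B, hB⟩ ⟨e, d, e0, d0, hN⟩ D R
  have o := st_open' r
  have r0 := C.rpos
  have B0 : 0 ≤ B := le_trans (mul_nonneg (norm_nonneg _) (dd_le (r := r) (y := 0)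
    (by simpa [Strip] using r0)).1.le) (hB 0 (by simpa [Strip] using r0)).1
  refine K r T c ((2 * r + 4 * r ^ 2) * B) θ H (deriv θ) Q Y φ p n
    ⟨r0, C.cpos, C.dθ.analyticOnNhd o, C.dH.analyticOnNhd o, (C.dθ.analyticOnNhd o).deriv,
      C.dQ.analyticOnNhd o, fun _ _ => rfl, C.ode, C.laz, fun y m => ?_, fun y m => ?_, C.perθ,
      C.perH, C.reθ, fun t => ⟨im_deriv r0 C.dθ C.reθ t, C.pos t⟩⟩
    ⟨e / 2, r * d, by positivity, by positivity, fun y₀ m k a => ?_⟩
    ⟨D.odd, D.pos, D.dY.analyticOnNhd (st_open' T), D.dφ.analyticOnNhd (st_open' T),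
      D.dp.analyticOnNhd (st_open' T), D.mem, D.perY, D.perφ, D.perp, D.th, D.pc, D.ps,
      fun t => (D.re t).1, fun t => ⟨im_deriv D.pos D.dY (fun x => (D.re x).1) t, (D.sgn t).1⟩,
      fun t => ⟨im_deriv D.pos D.dφ (fun x => (D.re x).2.1) t, (D.sgn t).2.1⟩, fun t => ?_, D.wr,
      fun x₀ σ Z m σ0 k => R x₀ m ⟨σ, Z, σ0, k⟩⟩
  · obtain ⟨a1, a2, -⟩ := dd_le m
    have h1 := (hB y m).1
    have h2 := mul_le_mul_of_nonneg_left a2 (norm_nonneg (deriv θ y))
    nlinarith [mul_nonneg (sq_nonneg r) B0]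
  · obtain ⟨a1, a2, a3⟩ := dd_le m
    have h1 := (hB y m).2
    have h0 : 0 ≤ P097C.dd r y := le_trans (by positivity) a3
    have h2 := mul_le_mul_of_nonneg_left (pow_le_pow_left₀ h0 a2 2) (norm_nonneg (Q y))
    have h3 := mul_le_mul_of_nonneg_left h1 (sq_nonneg r)
    nlinarith [mul_nonneg r0.le B0]
  · obtain ⟨a1, -, a3⟩ := dd_le (show y₀ ∈ Strip r from m)
    obtain ⟨y, n1, n2⟩ := hN y₀ m (lt_of_mul_lt_mul_left (a3.trans_lt k) r0.le)
    obtain ⟨b1, b2⟩ := a y n1
    unfold dp at n2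
    rcases n2 with n2 | n2 <;> linarith
  · have h1 : (de n φ t).im = 0 := by
      have := (D.re (t - 1 / n)).2.1
      push_cast at this
      rw [de, div_ofNat_im, sub_im, (D.re t).2.1, this]
      simp
    have h2 : de n φ t = ((de n φ t).re : ℝ) := Complex.ext (by simp) (by simp [h1])
    show P097C.PR (Complex.sin (de n φ t))
    rw [h2, ← ofReal_sin]
    exact ⟨ofReal_im _, by
      rw [ofReal_re]
      exact Real.sin_pos_of_pos_of_lt_pi (D.sgn t).2.2.1
        (by linarith [(D.sgn t).2.2.2, Real.pi_pos])⟩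

end Vale.Agent.P097Top
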