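import Vale.Agent.P097Top.Defs
import Vale.Agent.P097T.EndBase
import Vale.Agent.P097T.EndLink
import Vale.Agent.P097T.Picard

/-! # P097Top: the support function is holomorphic where the normal angle is -/

set_option linter.all false

noncomputable section

namespace Vale.Agent.P097Top

open Filter Topology Set Metric Complex Vale.Agent.P097 Vale.Agent.P097A Vale.Agent.P097T EB

namespace CurH

theorem of_deriv {f : ℂ → ℂ} {y : ℂ} (h : 0 ≤ meromorphicOrderAt (deriv f) y) :
    0 ≤ meromorphicOrderAt f y := by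
  by_contra k
  push Not at k
  obtain ⟨n, hn⟩ := WithTop.ne_top_iff_exists.1 k.ne_top
  rw [← hn] at k
  have n0 : n < 0 := by exact_mod_cast k
  rw [meromorphicOrderAt_deriv_eq_sub_one (Int.cast_ne_zero.2 n0.ne) hn.symm] at h
  have : (0 : ℤ) ≤ n - 1 := by exact_mod_cast h
  omega

theorem simple {g Q : ℂ → ℂ} {y : ℂ} (hg : AnalyticAt ℂ g y) (hQ : AnalyticAt ℂ Q y)
    (h0 : ∀ᶠ z in 𝓝[≠] y, g z ≠ 0) (e : deriv (deriv g) =ᶠ[𝓝[≠] y] Q * g) :
    ∃ k : ℤ, meromorphicOrderAt g y = k ∧ 0 ≤ k ∧ k ≤ 1 := by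
  obtain ⟨k, hk⟩ := WithTop.ne_top_iff_exists.1 (show meromorphicOrderAt g y ≠ ⊤ from fun t => by
    obtain ⟨z, a, b⟩ := (h0.and (meromorphicOrderAt_eq_top_iff.1 t)).exists
    exact a b)
  have k0 : 0 ≤ k := by
    have := hg.meromorphicOrderAt_nonneg
    rw [← hk] at this
    exact_mod_cast this
  refine ⟨k, hk.symm, k0, ?_⟩
  by_contra k1
  have a1 := meromorphicOrderAt_deriv_eq_sub_one (Int.cast_ne_zero.2 (by omega : k ≠ 0)) hk.symm
  have a2 := meromorphicOrderAt_deriv_eq_sub_one (Int.cast_ne_zero.2 (by omega : k - 1 ≠ 0)) a1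
  rw [meromorphicOrderAt_congr e, meromorphicOrderAt_mul hQ.meromorphicAt hg.meromorphicAt,
    ← hk] at a2
  have a3 := add_le_add_left hQ.meromorphicOrderAt_nonneg (k : WithTop ℤ)
  rw [a2, zero_add] at a3
  have : k ≤ k - 1 - 1 := by exact_mod_cast a3
  omega

theorem mul_nonneg' {g Z u : ℂ → ℂ} {y : ℂ} {k : ℤ} (hg : AnalyticAt ℂ g y)
    (hZ : MeromorphicAt Z y) (hu : AnalyticAt ℂ u y) (hk : meromorphicOrderAt g y = k) (k1 : k ≤ 1)
    (e : deriv Z * g ^ 2 =ᶠ[𝓝[≠] y] u) : 0 ≤ meromorphicOrderAt (g * Z) y := by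
  rw [meromorphicOrderAt_mul hg.meromorphicAt hZ]
  rcases le_or_gt 0 (meromorphicOrderAt Z y) with a | a
  · exact add_nonneg hg.meromorphicOrderAt_nonneg a
  · obtain ⟨n, hn⟩ := WithTop.ne_top_iff_exists.1 a.ne_top
    rw [← hn] at a
    have n0 : n < 0 := by exact_mod_cast a
    have b := hu.meromorphicOrderAt_nonneg
    rw [← meromorphicOrderAt_congr e, meromorphicOrderAt_mul hZ.deriv (hg.pow 2).meromorphicAt,
      meromorphicOrderAt_pow hg.meromorphicAt,
      meromorphicOrderAt_deriv_eq_sub_one (Int.cast_ne_zero.2 n0.ne) hn.symm, hk] at b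
    have b' : (0 : ℤ) ≤ n - 1 + 2 * k := by
      rw [← WithTop.coe_le_coe, WithTop.coe_add, WithTop.coe_mul]
      exact b
    rw [hk, ← hn]
    exact_mod_cast (by omega : (0 : ℤ) ≤ k + n)

theorem gg_eq {Z W θ : ℂ → ℂ} {c z : ℂ} (c0 : c ≠ 0)
    (h : ∀ᶠ w in 𝓝 z, AnalyticAt ℂ θ w ∧ deriv θ w ≠ 0 ∧
      deriv Z w = c * I * exp (θ w * I) / deriv θ w ^ 2 ∧
      deriv W w = -(c * I * exp (-(θ w * I))) / deriv θ w ^ 2) :
    GG Z W z = -(2 * deriv θ z ^ 2 + deriv (deriv (deriv θ)) z / deriv θ z) ^ 3 / (2 * c ^ 2) := by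
  have h1 : ∀ᶠ w in 𝓝 z, om Z W w = 2 * I * deriv θ w := by
    filter_upwards [h.eventually_nhds] with w hw
    obtain ⟨a, g0, e1, e2⟩ := hw.self_of_nhds
    have d0 := a.differentiableAt.hasDerivAt
    have d1 := a.deriv.differentiableAt.hasDerivAt
    have k1 : deriv (deriv Z) w = _ := ((((d0.mul_const I).cexp.const_mul (c * I)).div (d1.pow 2)
      (pow_ne_zero 2 g0)).congr_of_eventuallyEq (hw.mono fun v hv => hv.2.2.1)).deriv
    have k2 : deriv (deriv W) w = _ := ((((d0.mul_const I).neg.cexp.const_mul (c * I)).neg.div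
      (d1.pow 2) (pow_ne_zero 2 g0)).congr_of_eventuallyEq (hw.mono fun v hv => hv.2.2.2)).deriv
    have n1 := exp_ne_zero (θ w * I)
    have n2 := exp_ne_zero (-(θ w * I))
    have n3 := I_ne_zero
    simp only [om, k1, k2, e1, e2, Pi.pow_apply, Pi.neg_apply]
    field_simp
    push_cast
    ring
  have h2 : ∀ᶠ w in 𝓝 z, KK Z W w = -4 * deriv θ w ^ 6 / c ^ 2 := by
    filter_upwards [h, h1] with w hw k
    obtain ⟨a, g0, e1, e2⟩ := hw
    have n1 := exp_ne_zero (θ w * I)
    have n3 := I_ne_zero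
    simp only [KK, k, e1, e2, exp_neg]
    field_simp
    ring
  have h3 : ∀ᶠ w in 𝓝 z, ell Z W w = -I * deriv (deriv θ) w / deriv θ w ^ 2 := by
    filter_upwards [h, h1, h2.eventually_nhds] with w hw k1 k2
    obtain ⟨a, g0, -, -⟩ := hw
    have d1 := a.deriv.differentiableAt.hasDerivAt
    have k3 : deriv (KK Z W) w = _ :=
      ((((d1.pow 6).const_mul (-4)).div_const (c ^ 2)).congr_of_eventuallyEq k2).deriv
    have n3 := I_ne_zero
    simp only [ell, k1, k2.self_of_nhds, k3]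
    field_simp
    push_cast
    linear_combination (6 * deriv θ w ^ 5 * deriv (deriv θ) w) * I_mul_I
  obtain ⟨a, g0, -, -⟩ := h.self_of_nhds
  have d1 := a.deriv.differentiableAt.hasDerivAt
  have d2 := a.deriv.deriv.differentiableAt.hasDerivAt
  have k4 : deriv (ell Z W) z = _ :=
    (((d2.const_mul (-I)).div (d1.pow 2) (pow_ne_zero 2 g0)).congr_of_eventuallyEq h3).deriv
  have n3 := I_ne_zero
  have k5 : 1 - deriv (ell Z W) z / om Z W z - ell Z W z ^ 2 =
      1 + deriv (deriv (deriv θ)) z / (2 * deriv θ z ^ 3) := by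
    simp only [k4, h1.self_of_nhds, h3.self_of_nhds, Pi.pow_apply]
    field_simp
    push_cast
    linear_combination (-2 * deriv θ z * deriv (deriv θ) z ^ 2) * I_mul_I
  rw [GG, k5, h2.self_of_nhds]
  field_simp
  ring

end CurH

open CurH in
theorem cur : Spec_CUR := by
  intro h p c r Z W θ hT hI hL r0 E hθ
  have oV := strip_open r
  have hV := (strip_convex r).isPreconnected
  have c0 : (c : ℂ) ≠ 0 := ofReal_ne_zero.2 (c_pos hT hL).ne'
  have aθ : AnalyticOnNhd ℂ θ (Strip r) := hθ.hol.analyticOnNhd oV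
  have xθ : ∀ x : ℝ, Ell.Ext θ p x := fun x =>
    ⟨aθ x (real_mem r0 x), hL.an x, .of_forall hθ.eq⟩
  have dθ : ∀ x : ℝ, deriv θ x = (deriv p x : ℝ) := fun x => (xθ x).deriv.eq.self_of_nhds
  have g0 : ∀ y ∈ Strip r, ∀ᶠ w in 𝓝[≠] y, deriv θ w ≠ 0 := fun y hy =>
    (aθ.deriv y hy).eventually_eq_zero_or_eventually_ne_zero.resolve_left fun k => by
      have := aθ.deriv.eqOn_zero_of_preconnected_of_eventuallyEq_zero hV hy k (real_mem r0 0)
      rw [dθ] at this
      exact (hL.pos 0).ne' (ofReal_eq_zero.1 this)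
  have db := fun x => (Link.d_bdry hT (p x)).scomp x (hL.an x).differentiableAt.hasDerivAt
  have ec := fun x => congrArg (fun t : ℝ => (t : ℂ)) (hL.eq x)
  have aN : AnalyticOnNhd ℂ (fun w => c * I * exp (θ w * I)) (Strip r) := fun z hz => by
    have := aθ z hz; fun_prop
  have aM : AnalyticOnNhd ℂ (fun w => -(c * I * exp (-(θ w * I)))) (Strip r) := fun z hz => by
    have := aθ z hz; fun_prop
  have eZ : ∀ y ∈ Strip r, ∀ᶠ w in 𝓝[≠] y,
      deriv Z w * deriv θ w ^ 2 - c * I * exp (θ w * I) = 0 := fun y hy =>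
    Link.rel (q := fun w => deriv θ w ^ 2) r0 E.mZ (fun z hz => (aθ.deriv z hz).pow 2) aN E.eZ db
      (fun x => by
        have := ec x
        rw [dθ, hθ.eq, real_smul]
        push_cast at this ⊢
        linear_combination I * exp (p x * I) * this) hy
  have eW : ∀ y ∈ Strip r, ∀ᶠ w in 𝓝[≠] y,
      deriv W w * deriv θ w ^ 2 - -(c * I * exp (-(θ w * I))) = 0 := fun y hy =>
    Link.rel (q := fun w => deriv θ w ^ 2) r0 E.mW (fun z hz => (aθ.deriv z hz).pow 2) aM E.eW
      (fun x => (db x).star) (fun x => by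
        have := ec x
        rw [dθ, hθ.eq, real_smul]
        simp only [star_def, map_mul, conj_ofReal, conj_I, ← exp_conj, mul_neg]
        push_cast at this ⊢
        linear_combination -I * exp (-(p x * I)) * this) hy
  have P : ∀ y ∈ Strip r, ∀ᶠ w in 𝓝[≠] y, AnalyticAt ℂ θ w ∧ deriv θ w ≠ 0 ∧
      deriv Z w = c * I * exp (θ w * I) / deriv θ w ^ 2 ∧
      deriv W w = -(c * I * exp (-(θ w * I))) / deriv θ w ^ 2 := fun y hy => by
    filter_upwards [g0 y hy, eZ y hy, eW y hy,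
      nhdsWithin_le_nhds (aθ y hy).eventually_analyticAt] with w a1 a2 a3 a4
    exact ⟨a4, a1, (eq_div_iff (pow_ne_zero 2 a1)).2 (sub_eq_zero.1 a2),
      (eq_div_iff (pow_ne_zero 2 a1)).2 (sub_eq_zero.1 a3)⟩
  have hR := ev_reg hT hL E hV (real_mem r0)
  have R0 := fun x => real_pt hT hL E (real_mem r0 x)
  have hS := spread oV hV (fun y hy => (hR y hy).mono fun _ m => m.1) (real_mem r0 0)
    (R0 0).1 ((R0 0).2.1 hI)
  have mq : MeromorphicOn (fun z => deriv (deriv (deriv θ)) z / deriv θ z) (Strip r) :=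
    fun y hy => (aθ y hy).deriv.deriv.deriv.meromorphicAt.div (aθ y hy).deriv.meromorphicAt
  obtain ⟨Q, aQ, eQ⟩ := fill mq fun y hy => by
    obtain ⟨k1, k2, k3⟩ := shift (E.mZ y hy) (E.mW y hy)
      (((hR y hy).and (hS y hy)).mono fun _ m => ⟨m.1.1, m.2⟩)
    obtain ⟨C, hC⟩ := place' _ _ k1 k2 (k3.mono fun _ m => m.1)
    have b : ∀ᶠ z in 𝓝 y, ‖2 * deriv θ z ^ 2‖ < ‖2 * deriv θ y ^ 2‖ + 1 :=
      (continuousAt_const.mul ((aθ y hy).deriv.continuousAt.pow 2)).norm.eventually_lt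
        continuousAt_const (by simp)
    refine order_nonneg_of_bdd (C := max 1 (C * ‖2 * (c : ℂ) ^ 2‖) + (‖2 * deriv θ y ^ 2‖ + 1)) ?_
    filter_upwards [(tend_sub y).eventually (hC.and k3), evn (P y hy), nhdsWithin_le_nhds b]
      with z m1 m2 m3
    have a := m1.1
    rw [m1.2.2.1, add_sub_cancel, gg_eq c0 m2, norm_div, norm_neg, norm_pow,
      div_le_iff₀ (norm_pos_iff.2 (mul_ne_zero two_ne_zero (pow_ne_zero 2 c0)))] at a
    set u := 2 * deriv θ z ^ 2 + deriv (deriv (deriv θ)) z / deriv θ z with hu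
    have a2 : ‖u‖ ≤ max 1 (C * ‖2 * (c : ℂ) ^ 2‖) := by
      rcases le_total ‖u‖ 1 with k | k
      · exact k.trans (le_max_left _ _)
      · exact ((le_self_pow₀ k three_ne_zero).trans a).trans (le_max_right _ _)
    have a3 := norm_sub_le u (2 * deriv θ z ^ 2)
    rw [hu, add_sub_cancel_left, ← hu] at a3
    linarith
  have ode' : ∀ y ∈ Strip r, deriv (deriv (deriv θ)) =ᶠ[𝓝[≠] y] Q * deriv θ := fun y hy => by
    filter_upwards [eQ y hy, g0 y hy] with z a1 a2
    rw [Pi.mul_apply, a1, div_mul_cancel₀ _ a2]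
  let H₀ : ℂ → ℂ := fun z => (Z z * exp (-(θ z * I)) + W z * exp (θ z * I)) / 2
  have mH : MeromorphicOn H₀ (Strip r) := fun y hy => by
    have a1 := E.mZ y hy
    have a2 := E.mW y hy
    have a3 : AnalyticAt ℂ (fun z => exp (-(θ z * I))) y := by have := aθ y hy; fun_prop
    have a4 : AnalyticAt ℂ (fun z => exp (θ z * I)) y := by have := aθ y hy; fun_prop
    exact ((a1.mul a3.meromorphicAt).add (a2.mul a4.meromorphicAt)).div
      (MeromorphicAt.const 2 y)
  obtain ⟨H, aH, eH⟩ := fill mH fun y hy => by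
    obtain ⟨k, k1, -, k3⟩ := simple (aθ y hy).deriv (aQ y hy) (g0 y hy) (ode' y hy)
    obtain ⟨A, aA, eA⟩ := ((aθ y hy).deriv.meromorphicAt.mul
      (E.mZ y hy)).meromorphicOrderAt_nonneg_iff.1 (mul_nonneg' (aθ y hy).deriv (E.mZ y hy)
        (aN y hy) k1 k3 ((eZ y hy).mono fun z m => sub_eq_zero.1 m))
    obtain ⟨B, aB, eB⟩ := ((aθ y hy).deriv.meromorphicAt.mul
      (E.mW y hy)).meromorphicOrderAt_nonneg_iff.1 (mul_nonneg' (aθ y hy).deriv (E.mW y hy)
        (aM y hy) k1 k3 ((eW y hy).mono fun z m => sub_eq_zero.1 m))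
    refine of_deriv ((mH y hy).deriv.meromorphicOrderAt_nonneg_iff.2
      ⟨fun z => I * (B z * exp (θ z * I) - A z * exp (-(θ z * I))) / 2, by
        have := aθ y hy; fun_prop, ?_⟩)
    filter_upwards [P y hy, hR y hy, eA, eB] with z m1 m2 m3 m4
    obtain ⟨a, g1, e1, e2⟩ := m1
    have d0 := a.differentiableAt.hasDerivAt
    have k := (((m2.1.anZ.differentiableAt.hasDerivAt.mul (d0.mul_const I).neg.cexp).add
      (m2.1.anW.differentiableAt.hasDerivAt.mul (d0.mul_const I).cexp)).div_const 2).deriv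
    refine Eq.trans k ?_
    have n1 := exp_ne_zero (θ z * I)
    simp only [← m3, ← m4, e1, e2, Pi.mul_apply, Pi.neg_apply, exp_neg]
    field_simp
    ring
  have vH : ∀ x : ℝ, H x = (h (p x) : ℝ) := by
    intro x
    have a : ContinuousAt H₀ x := by
      have a1 := (R0 x).1.anZ.continuousAt
      have a2 := (R0 x).1.anW.continuousAt
      have a3 := (aθ x (real_mem r0 x)).continuousAt
      simp only [H₀]
      fun_prop
    rw [tendsto_nhds_unique_of_eventuallyEq
      ((aH x (real_mem r0 x)).continuousAt.tendsto.mono_left nhdsWithin_le_nhds)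
      (a.tendsto.mono_left nhdsWithin_le_nhds) (eH x (real_mem r0 x))]
    have n1 := exp_ne_zero ((p x : ℂ) * I)
    simp only [H₀, E.eZ, E.eW, hθ.eq, bdry, map_mul, map_add, conj_ofReal, conj_I, ← exp_conj,
      mul_neg, exp_neg]
    field_simp
    ring
  have xH : ∀ x : ℝ, Ell.Ext H (fun t => h (p t)) x := fun x =>
    ⟨aH x (real_mem r0 x), (hT.1 _).comp (hL.an x), .of_forall vH⟩
  have sh : ∀ y ∈ Strip r, y + 1 ∈ Strip r := fun y hy => by simpa [Strip] using hy
  refine ⟨H, Q, ⟨r0, c_pos hT hL, hθ.hol, aH.differentiableOn, aQ.differentiableOn, ?_, ?_,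
    fun y hy => ?_, ?_, fun x => by rw [hθ.eq, ofReal_im], fun x => by rw [vH, ofReal_im],
    fun x => by rw [dθ, ofReal_re]; exact hL.pos x⟩, vH⟩
  · exact an_id (f := fun y => θ (y + 1)) (g := fun y => θ y + 2 * Real.pi)
      (fun y hy => (aθ _ (sh y hy)).comp (f := fun y => y + 1) (by fun_prop))
      (fun y hy => (aθ y hy).add analyticAt_const) hV (real_mem r0 0) (.of_forall fun t => by
        have := hθ.eq (t + 1)
        rw [hL.per] at this
        simpa [hθ.eq] using this)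
  · exact an_id (f := fun y => H (y + 1))
      (fun y hy => (aH _ (sh y hy)).comp (f := fun y => y + 1) (by fun_prop)) aH hV
      (real_mem r0 0) (.of_forall fun t => by
        have := vH (t + 1)
        rw [hL.per, hT.2.1] at this
        simpa [vH] using this)
  · exact tendsto_nhds_unique_of_eventuallyEq
      ((aθ y hy).deriv.deriv.deriv.continuousAt.tendsto.mono_left nhdsWithin_le_nhds)
      (((aQ y hy).mul (aθ y hy).deriv).continuousAt.tendsto.mono_left nhdsWithin_le_nhds)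
      (ode' y hy)
  · refine an_id (f := fun y => deriv (deriv H) y * deriv θ y - deriv H y * deriv (deriv θ) y +
      H y * deriv θ y ^ 3) (g := fun _ => (c : ℂ)) (fun y hy =>
        (((aH y hy).deriv.deriv.mul (aθ y hy).deriv).sub
          ((aH y hy).deriv.mul (aθ y hy).deriv.deriv)).add ((aH y hy).mul ((aθ y hy).deriv.pow 3)))
      analyticOnNhd_const hV (real_mem r0 0) (.of_forall fun t => ?_)
    have d1 : deriv (fun t => h (p t)) = fun t => deriv h (p t) * deriv p t := funext fun t =>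
      ((hT.1 _).differentiableAt.hasDerivAt.comp t (hL.an t).differentiableAt.hasDerivAt).deriv
    have d2 : deriv (fun t => deriv h (p t) * deriv p t) t = _ :=
      (((hT.1 _).deriv.differentiableAt.hasDerivAt.comp t
        (hL.an t).differentiableAt.hasDerivAt).mul (hL.an t).deriv.differentiableAt.hasDerivAt).deriv
    have := ec t
    simp only [(xH t).deriv.deriv.eq.self_of_nhds, (xH t).deriv.eq.self_of_nhds,
      (xθ t).deriv.deriv.eq.self_of_nhds, dθ, vH, d1, d2, Function.comp_apply]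
    push_cast at this ⊢
    linear_combination this

end Vale.Agent.P097Top
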