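import Vale.Agent.P097Top.Defs

/-!
# P097Top: germs along a connected set, the functional equations along a leaf (row 604)
-/

set_option linter.all false

noncomputable section

namespace Vale.Agent.P097Top

open Filter Topology Set Metric Complex Vale.Agent.P097 Vale.Agent.P097T

namespace Germ

/-- one variable: vanishing on a real segment -/
theorem one {f : ℂ → ℂ} {x₀ ρ : ℝ} (hρ : 0 < ρ) (hf : AnalyticOnNhd ℂ f (ball (x₀ : ℂ) ρ))
    (h : ∀ x : ℝ, |x - x₀| < ρ → f x = 0) : ∀ z ∈ ball (x₀ : ℂ) ρ, f z = 0 := by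
  refine hf.eqOn_zero_of_preconnected_of_frequently_eq_zero (convex_ball _ _).isPreconnected
    (mem_ball_self hρ) ?_
  have t : Tendsto (fun x : ℝ => (x : ℂ)) (𝓝[≠] x₀) (𝓝[≠] (x₀ : ℂ)) :=
    tendsto_nhdsWithin_of_tendsto_nhds_of_eventually_within _
      ((continuous_ofReal.tendsto x₀).mono_left nhdsWithin_le_nhds)
      (eventually_mem_nhdsWithin.mono fun x hx e => hx (ofReal_injective e))
  refine t.frequently (Eventually.frequently ?_)
  filter_upwards [nhdsWithin_le_nhds (ball_mem_nhds x₀ hρ)] with x hx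
  exact h x (by simpa [Real.dist_eq] using hx)

/-- two variables: vanishing at the real points near a real point -/
theorem two {D : ℂ × ℂ → ℂ} {x₀ w₀ : ℝ} (hD : AnalyticAt ℂ D (x₀, w₀))
    (h : ∀ᶠ q : ℝ × ℝ in 𝓝 (x₀, w₀), D (q.1, q.2) = 0) :
    ∀ᶠ p in 𝓝 ((x₀ : ℂ), (w₀ : ℂ)), D p = 0 := by
  obtain ⟨r₁, r1, h1⟩ := Metric.eventually_nhds_iff_ball.1 hD.eventually_analyticAt
  obtain ⟨r₂, r2, h2⟩ := Metric.eventually_nhds_iff_ball.1 h
  have r0 : 0 < min r₁ r₂ := lt_min r1 r2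
  have hA : ∀ z ∈ ball (x₀ : ℂ) (min r₁ r₂), ∀ v ∈ ball (w₀ : ℂ) (min r₁ r₂),
      AnalyticAt ℂ D (z, v) := fun z hz v hv => h1 _ (by
    rw [← ball_prod_same]
    exact ⟨ball_subset_ball (min_le_left _ _) hz, ball_subset_ball (min_le_left _ _) hv⟩)
  have s1 : ∀ w : ℝ, |w - w₀| < min r₁ r₂ → ∀ z ∈ ball (x₀ : ℂ) (min r₁ r₂), D (z, w) = 0 := by
    intro w hw
    have hw' : (w : ℂ) ∈ ball (w₀ : ℂ) (min r₁ r₂) := by
      rw [mem_ball, dist_eq_norm, ← ofReal_sub, norm_real]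
      exact hw
    refine one (f := fun z => D (z, w)) r0 (fun z hz => ?_) fun x hx => ?_
    · exact AnalyticAt.comp_of_eq (g := D) (f := fun z : ℂ => (z, (w : ℂ))) (hA z hz _ hw')
        (analyticAt_id.prod analyticAt_const) rfl
    · refine h2 (x, w) ?_
      rw [← ball_prod_same]
      exact ⟨hx.trans_le (min_le_right _ _), hw.trans_le (min_le_right _ _)⟩
  filter_upwards [ball_mem_nhds _ r0] with p hp
  rw [← ball_prod_same] at hp
  refine one (f := fun v => D (p.1, v)) r0 (fun v hv => ?_) (fun w hw => s1 w hw _ hp.1) _ hp.2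
  exact AnalyticAt.comp_of_eq (g := D) (f := fun v : ℂ => (p.1, v)) (hA _ hp.1 v hv)
    (analyticAt_const.prod analyticAt_id) rfl

theorem st_open (r : ℝ) : IsOpen (Strip r) :=
  isOpen_lt (continuous_abs.comp continuous_im) continuous_const

theorem st_conn (r : ℝ) : IsPreconnected (Strip r) := by
  have : Strip r = {y : ℂ | -r < y.im} ∩ {y : ℂ | y.im < r} := by
    ext y
    simp [Strip, abs_lt]
  rw [this]
  exact ((convex_halfSpace_im_gt _).inter (convex_halfSpace_im_lt _)).isPreconnected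

theorem st_add {r : ℝ} {x : ℂ} (hx : x ∈ Strip r) (a : ℝ) : x + a ∈ Strip r := by
  simpa [Strip] using hx

/-- the law of analytic maps is analytic -/
theorem an_law {r : ℝ} {θ H : ℂ → ℂ} (dθ : DifferentiableOn ℂ θ (Strip r))
    (dH : DifferentiableOn ℂ H (Strip r)) {u y v : ℂ × ℂ → ℂ} {p : ℂ × ℂ}
    (hu : AnalyticAt ℂ u p) (hy : AnalyticAt ℂ y p) (hv : AnalyticAt ℂ v p) (mu : u p ∈ Strip r)
    (my : y p ∈ Strip r) (mv : v p ∈ Strip r) :
    AnalyticAt ℂ (fun q => law θ H (u q) (y q) (v q)) p := by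
  have aθ := dθ.analyticOnNhd (st_open r)
  have aH := dH.analyticOnNhd (st_open r)
  have c : ∀ {f : ℂ → ℂ} {g : ℂ × ℂ → ℂ}, AnalyticOnNhd ℂ f (Strip r) → AnalyticAt ℂ g p →
      g p ∈ Strip r → AnalyticAt ℂ (fun q => f (g q)) p := fun hf hg hm => (hf _ hm).comp hg
  have ha : ∀ {z : ℂ × ℂ → ℂ}, AnalyticAt ℂ z p → z p ∈ Strip r →
      AnalyticAt ℂ (fun q => aa θ H (y q) (z q)) p := fun hz mz =>
    ((((c aθ.deriv hz mz).mul (c aH hz mz)).mul
      (analyticAt_cos.comp ((c aθ hz mz).sub (c aθ hy my)))).sub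
      ((c aH.deriv hz mz).mul (analyticAt_sin.comp ((c aθ hz mz).sub (c aθ hy my))))).sub
      ((c aθ.deriv hz mz).mul (c aH hy my))
  have hb : ∀ {z : ℂ × ℂ → ℂ}, AnalyticAt ℂ z p → z p ∈ Strip r →
      AnalyticAt ℂ (fun q => bb θ H (y q) (z q)) p := fun hz mz =>
    ((c aθ.deriv hy my).mul ((((c aθ.deriv hz mz).mul (c aH hz mz)).mul
      (analyticAt_sin.comp ((c aθ hz mz).sub (c aθ hy my)))).add
      ((c aH.deriv hz mz).mul (analyticAt_cos.comp ((c aθ hz mz).sub (c aθ hy my)))))).sub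
      ((c aθ.deriv hz mz).mul (c aH.deriv hy my))
  exact ((ha hu mu).mul (hb hv mv)).add ((ha hv mv).mul (hb hu mu))

end Germ

theorem germ : Spec_GERM := by
  intro F G K w₀ x₀ hK h0 han hre
  have hopen : IsOpen {x : ℂ | F =ᶠ[𝓝 (x, (w₀ : ℂ))] G} := by
    rw [isOpen_iff_mem_nhds]
    intro x hx
    have t : Tendsto (fun x : ℂ => (x, (w₀ : ℂ))) (𝓝 x) (𝓝 (x, (w₀ : ℂ))) :=
      (continuous_id.prodMk continuous_const).tendsto x
    exact t.eventually (eventually_eventually_nhds.2 hx)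
  refine hK.subset_of_closure_inter_subset hopen ⟨x₀, h0, ?_⟩ ?_
  · have := Germ.two (D := fun p => F p - G p) ((han _ h0).1.sub (han _ h0).2)
      (hre.mono fun q hq => sub_eq_zero.2 hq)
    exact this.mono fun p hp => sub_eq_zero.1 hp
  · rintro x ⟨hx, hxK⟩
    obtain ⟨ρ, r0, hρ⟩ := Metric.eventually_nhds_iff_ball.1
      ((han x hxK).1.eventually_analyticAt.and (han x hxK).2.eventually_analyticAt)
    obtain ⟨x', hx', hd⟩ := Metric.mem_closure_iff.1 hx ρ r0
    have hm : (x', (w₀ : ℂ)) ∈ ball (x, (w₀ : ℂ)) ρ := by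
      rw [← ball_prod_same]
      exact ⟨mem_ball'.2 hd, mem_ball_self r0⟩
    have := AnalyticOnNhd.eqOn_of_preconnected_of_eventuallyEq (fun p hp => (hρ p hp).1)
      (fun p hp => (hρ p hp).2) (convex_ball _ _).isPreconnected hm hx'
    filter_upwards [ball_mem_nhds _ r0] with p hp using this hp

theorem lf2f (hRL : Spec_RL) (hG : Spec_GERM) : Spec_LF2F := by
  intro h ε ψ δ r c w₀ T θ H Q Y N C A w0 w1 L
  obtain ⟨inj, rl⟩ := hRL h ε ψ δ r c θ H Q N C A
  have h0 : ((0 : ℝ) : ℂ) ∈ Strip T := by simpa [Strip] using L.pos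
  -- analyticity of the shifted maps
  have sh : ∀ (a b : ℝ), ∀ x ∈ Strip T,
      AnalyticAt ℂ (fun q : ℂ × ℂ => Y (q.1 + a + b * q.2, q.2)) (x, w₀) ∧
        Y (x + a + b * w₀, w₀) ∈ Strip r := by
    intro a b x hx
    have hm : x + a + b * w₀ ∈ Strip T := by
      have := Germ.st_add hx (a + b * w₀)
      rwa [ofReal_add, ofReal_mul, ← add_assoc] at this
    exact ⟨AnalyticAt.comp_of_eq (g := Y) (f := fun q : ℂ × ℂ => (q.1 + a + b * q.2, q.2))
      (L.an _ hm) (((analyticAt_fst.add analyticAt_const).add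
        (analyticAt_const.mul analyticAt_snd)).prod analyticAt_snd) rfl, L.mem _ hm⟩
  -- real values of the shifted maps
  have re : ∀ (a b : ℝ), ∀ᶠ q : ℝ × ℝ in 𝓝 (0, w₀), ∃ u : ℝ,
      Y (q.1 + a + b * q.2, q.2) = u ∧ θ u = (ψ (q.1 + a + b * q.2, q.2) : ℝ) := by
    intro a b
    have t : Tendsto (fun q : ℝ × ℝ => ((q.1 + a + b * q.2, q.2) : ℝ × ℝ)) (𝓝 (0, w₀))
        (𝓝 (0 + a + b * w₀, w₀)) :=
      (show Continuous (fun q : ℝ × ℝ => ((q.1 + a + b * q.2, q.2) : ℝ × ℝ)) by fun_prop).tendsto _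
    filter_upwards [t.eventually (L.re _)] with q hq
    have e : Y (q.1 + a + b * q.2, q.2) = ((Y (q.1 + a + b * q.2, q.2)).re : ℝ) := by
      refine Complex.ext (by simp) ?_
      have := hq.1
      simpa using this
    refine ⟨_, e, ?_⟩
    rw [← e]
    have := hq.2
    simpa using this
  have hw : ∀ᶠ q : ℝ × ℝ in 𝓝 (0, w₀), 0 < q.2 ∧ q.2 < ε :=
    (continuous_snd.tendsto ((0, w₀) : ℝ × ℝ)).eventually (Ioo_mem_nhds w0 w1)
  have g1 := hG (fun q => Y (q.1 + 1, q.2)) (fun q => Y q + 1) (Strip T) w₀ 0 (Germ.st_conn T) h0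
    (fun x hx => ⟨by simpa using (sh 1 0 x hx).1, (L.an x hx).add analyticAt_const⟩) (by
      filter_upwards [re 1 0, re 0 0, hw] with q ⟨a, a1, a2⟩ ⟨b, b1, b2⟩ hq
      simp only [ofReal_one, ofReal_zero, zero_mul, add_zero] at a1 a2 b1 b2
      have hL : q ∈ Gm.Lam ε := by
        show |q.2| < ε
        rw [abs_of_pos hq.1]
        exact hq.2
      have e : a = b + 1 := by
        refine inj _ _ ?_
        rw [a2, ofReal_add, ofReal_one, C.perθ b (by simpa [Strip] using C.rpos), b2,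
          (N.per q hL).1]
        simp
      show Y (q.1 + 1, q.2) = Y (q.1, q.2) + 1
      rw [a1, b1, e, ofReal_add, ofReal_one])
  have g2 := hG (fun q => law θ H (Y (q.1 - q.2, q.2)) (Y q) (Y (q.1 + q.2, q.2))) (fun _ => 0)
    (Strip T) w₀ 0 (Germ.st_conn T) h0
    (fun x hx => ⟨Germ.an_law C.dθ C.dH (u := fun q => Y (q.1 - q.2, q.2)) (y := Y)
      (v := fun q => Y (q.1 + q.2, q.2))
      (by simpa [sub_eq_add_neg] using (sh 0 (-1) x hx).1) (L.an x hx)
      (by simpa using (sh 0 1 x hx).1) (by simpa [sub_eq_add_neg] using (sh 0 (-1) x hx).2)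
      (L.mem x hx) (by simpa using (sh 0 1 x hx).2), analyticAt_const⟩) (by
      filter_upwards [re 0 (-1), re 0 0, re 0 1, hw] with q ⟨u, u1, u2⟩ ⟨y, y1, y2⟩ ⟨v, v1, v2⟩ hq
      simp only [ofReal_one, ofReal_zero, ofReal_neg, zero_mul, add_zero, neg_mul, one_mul,
        ← sub_eq_add_neg] at u1 u2 y1 y2 v1 v2
      show law θ H (Y (q.1 - q.2, q.2)) (Y (q.1, q.2)) (Y (q.1 + q.2, q.2)) = 0
      rw [u1, y1, v1]
      exact (rl q.1 q.2 u y v hq.1 hq.2 u2 y2 v2).1)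
  intro x hx
  exact (g1 x hx).and (g2 x hx)

end Vale.Agent.P097Top
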