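import Vale.Agent.P097Top.Defs

/-!
# P097Top: the data on an odd rational leaf (row LEAF)
-/

set_option linter.all false

noncomputable section

namespace Vale.Agent.P097Top

open Filter Topology Set Metric Complex Vale.Agent.P097 Vale.Agent.P097T

namespace Leaf

theorem isOpen_strip (T : ℝ) : IsOpen (Strip T) :=
  isOpen_lt (f := fun z : ℂ => |z.im|) (by fun_prop) continuous_const

theorem convex_strip (T : ℝ) : Convex ℝ (Strip T) := by
  have : Strip T = Complex.imLm ⁻¹' Ioo (-T) T := by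
    ext z
    simp [Strip, abs_lt]
  rw [this]
  exact (convex_Ioo _ _).linear_preimage _

theorem real_mem {T : ℝ} (hT : 0 < T) (x : ℝ) : (x : ℂ) ∈ Strip T := by simpa [Strip] using hT

theorem dadd {T : ℝ} {G : ℂ → ℂ} (hG : DifferentiableOn ℂ G (Strip T)) {s : ℂ} (hs : s.im = 0) :
    DifferentiableOn ℂ (fun z => G (z + s)) (Strip T) :=
  hG.comp (differentiableOn_id.add_const s) fun z hz => by simpa [Strip, hs] using hz

theorem dsub {T : ℝ} {G : ℂ → ℂ} (hG : DifferentiableOn ℂ G (Strip T)) {s : ℂ} (hs : s.im = 0) :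
    DifferentiableOn ℂ (fun z => G (z - s)) (Strip T) :=
  hG.comp (differentiableOn_id.sub_const s) fun z hz => by simpa [Strip, hs] using hz

/-- the identity theorem on a strip -/
theorem ident {T : ℝ} (hT : 0 < T) {F G : ℂ → ℂ} (hF : DifferentiableOn ℂ F (Strip T))
    (hG : DifferentiableOn ℂ G (Strip T)) (h : ∀ x : ℝ, F x = G x) : ∀ z ∈ Strip T, F z = G z := by
  refine (hF.analyticOnNhd (isOpen_strip T)).eqOn_of_preconnected_of_frequently_eq
    (hG.analyticOnNhd (isOpen_strip T)) (convex_strip T).isPreconnected (real_mem hT 0) ?_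
  have t : Tendsto ofReal (𝓝[≠] 0) (𝓝[≠] ((0 : ℝ) : ℂ)) :=
    tendsto_nhdsWithin_iff.2 ⟨(continuous_ofReal.tendsto 0).mono_left nhdsWithin_le_nhds,
      eventually_mem_nhdsWithin.mono fun w hw => ofReal_injective.ne hw⟩
  exact t.frequently (Eventually.frequently (Eventually.of_forall h))

theorem der_real {F : ℂ → ℂ} {f : ℝ → ℝ} {x d : ℝ} (hF : DifferentiableAt ℂ F x)
    (hf : HasDerivAt f d x) (e : ∀ s : ℝ, F s = f s) : deriv F x = d :=
  hF.hasDerivAt.comp_ofReal.unique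
    (hf.ofReal_comp.congr_of_eventuallyEq (Eventually.of_forall e))

theorem im_div (j n : ℕ) : ((j : ℂ) / n).im = 0 := by
  rw [show (j : ℂ) / n = ((j / n : ℝ) : ℂ) by push_cast; rfl, ofReal_im]

theorem im_inv (n : ℕ) : (1 / (n : ℂ)).im = 0 := by simpa using im_div 1 n

/-- solution of the equation `f x + f (x - 1 / n) = 2 G x` for odd `n` -/
theorem ext_alt {T : ℝ} {n : ℕ} (hn : Odd n) {G : ℂ → ℂ} (hG : DifferentiableOn ℂ G (Strip T))
    {f : ℝ → ℝ} {k : ℝ} (hk : ∀ x, f (x + 1) = f x + k)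
    (hf : ∀ x : ℝ, (f x : ℂ) + f (x - 1 / n) = 2 * G x) :
    ∃ F : ℂ → ℂ, DifferentiableOn ℂ F (Strip T) ∧ ∀ x : ℝ, F x = f x := by
  refine ⟨fun z => k / 2 + ∑ j ∈ Finset.range n, (-1) ^ j * G (z - j / n),
    (DifferentiableOn.fun_sum fun j _ => (dsub hG (im_div j n)).const_mul _).const_add _,
    fun x => ?_⟩
  have key : ∀ m : ℕ, 2 * ∑ j ∈ Finset.range m, (-1) ^ j * G (x - j / n) =
      f x - (-1) ^ m * f (x - m / n) := by
    intro m
    induction m with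
    | zero => simp
    | succ m ih =>
      have h1 := hf (x - m / n)
      rw [show x - m / n - 1 / n = x - ((m + 1 : ℕ) : ℝ) / n by push_cast; ring,
        show ((x - m / n : ℝ) : ℂ) = x - m / n by push_cast; rfl] at h1
      rw [Finset.sum_range_succ, mul_add, ih, pow_succ]
      linear_combination (-(-1) ^ m) * h1
  have h2 := key n
  have n0 : (n : ℝ) ≠ 0 := Nat.cast_ne_zero.2 hn.pos.ne'
  have h3 := hk (x - 1)
  rw [sub_add_cancel] at h3
  rw [div_self n0, hn.neg_one_pow, show f (x - 1) = f x - k by linarith] at h2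
  push_cast at h2
  show (k : ℂ) / 2 + ∑ j ∈ Finset.range n, (-1) ^ j * G (x - j / n) = f x
  linear_combination h2 / 2

/-- the chord, seen from both ends -/
theorem chord {h : ℝ → ℝ} {a d a' d' : ℝ} (s : Step h a d a' d') :
    h a * Real.cos d + deriv h a * Real.sin d = h a' * Real.cos d' - deriv h a' * Real.sin d' := by
  obtain ⟨-, -, -, -, e1, l, -, e2⟩ := s
  have x1 : exp (a * I) = exp (((a + d : ℝ) : ℂ) * I) * exp (((-d : ℝ) : ℂ) * I) := by
    rw [← exp_add]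
    congr 1
    push_cast
    ring
  have x2 : exp (a' * I) = exp (((a + d : ℝ) : ℂ) * I) * exp (d' * I) := by
    rw [← exp_add, e1]
    congr 1
    push_cast
    ring
  have e3 : ((h a' : ℂ) + ((deriv h a' : ℝ) : ℂ) * I) * exp (d' * I) =
      ((h a : ℂ) + ((deriv h a : ℝ) : ℂ) * I) * exp (((-d : ℝ) : ℂ) * I) + l * I := by
    apply mul_left_cancel₀ (exp_ne_zero (((a + d : ℝ) : ℂ) * I))
    rw [bdry, bdry, x1, x2] at e2
    linear_combination e2
  have e4 := congrArg re e3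
  simp only [mul_re, add_re, add_im, mul_im, ofReal_re, ofReal_im, I_re, I_im,
    exp_ofReal_mul_I_re, exp_ofReal_mul_I_im, Real.cos_neg, Real.sin_neg] at e4
  linarith

/-- the derivatives of the table at the real points -/
theorem real_der {h : ℝ → ℝ} {ε : ℝ} {ψ δ : ℝ × ℝ → ℝ} {r c : ℝ} {θ H Q : ℂ → ℂ}
    (N : Gm.NF h ε ψ δ) (C : Cur r c θ H Q) (A : Agr h ψ θ H) (u : ℝ) :
    ∃ g : ℝ, 0 < g ∧ deriv θ u = g ∧ deriv H u = (deriv h (ψ (u, 0)) * g : ℝ) ∧
      (h (ψ (u, 0)) + deriv (deriv h) (ψ (u, 0))) * g ^ 3 = c := by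
  have at' : ∀ x : ℝ, AnalyticAt ℝ (fun s : ℝ => ψ (s, 0)) x := fun x =>
    (N.aψ (x, 0) (by simpa [Gm.Lam] using N.pos)).comp_of_eq (f := fun s : ℝ => (s, (0 : ℝ)))
      (analyticAt_id.prod analyticAt_const) rfl
  set t : ℝ → ℝ := fun s => ψ (s, 0) with ht
  have aθ := C.dθ.analyticOnNhd (isOpen_strip r)
  have aH := C.dH.analyticOnNhd (isOpen_strip r)
  have m := real_mem C.rpos
  have e1 : ∀ x : ℝ, deriv θ x = (deriv t x : ℝ) := fun x =>
    der_real (aθ _ (m x)).differentiableAt (at' x).differentiableAt.hasDerivAt fun s => (A s).1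
  have e2 : deriv (deriv θ) u = (deriv (deriv t) u : ℝ) :=
    der_real (aθ _ (m u)).deriv.differentiableAt (at' u).deriv.differentiableAt.hasDerivAt e1
  have e3 : ∀ x : ℝ, deriv H x = (deriv h (t x) * deriv t x : ℝ) := fun x =>
    der_real (f := fun s => h (t s)) (aH _ (m x)).differentiableAt
      ((N.tab.1 _).differentiableAt.hasDerivAt.comp x (at' x).differentiableAt.hasDerivAt)
      fun s => (A s).2
  have e4 : deriv (deriv H) u = (deriv (deriv h) (t u) * deriv t u * deriv t u +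
      deriv h (t u) * deriv (deriv t) u : ℝ) :=
    der_real (f := fun s => deriv h (t s) * deriv t s) (aH _ (m u)).deriv.differentiableAt
      (((N.tab.1 _).deriv.differentiableAt.hasDerivAt.comp u
        (at' u).differentiableAt.hasDerivAt).mul (at' u).deriv.differentiableAt.hasDerivAt) e3
  have hp := C.pos u
  rw [e1, ofReal_re] at hp
  refine ⟨deriv t u, hp, e1 u, e3 u, ?_⟩
  have hl := C.laz u (m u)
  rw [e1, e2, e3, e4, (A u).2] at hl
  apply ofReal_injective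
  push_cast at hl ⊢
  linear_combination hl

end Leaf

open Leaf in
theorem leaf (_ : Spec_RL) (hL : Spec_LF2F) (hW : Spec_WR) : Spec_LEAF := by
  intro h ε ψ δ r c θ H Q N C A
  obtain ⟨n₀, hn₀⟩ := hW h ε ψ δ N
  refine ⟨max n₀ 3, fun n hn hodd => ?_⟩
  obtain ⟨hε, hs, C₀, C0, hC⟩ := hn₀ n (le_of_max_le_left hn)
  refine ⟨hε, fun x => (hs x).2.2, fun T Y F => ?_⟩
  have n0 : (0 : ℝ) < n := Nat.cast_pos.2 hodd.pos
  have w0 : (0 : ℝ) < 1 / n := one_div_pos.2 n0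
  have hF := hL h ε ψ δ r c (1 / n) T θ H Q Y N C A w0 hε F
  have hT := F.pos
  have lam : ∀ x : ℝ, (x, (1 : ℝ) / n) ∈ Gm.Lam ε := fun x => by
    show |(1 : ℝ) / n| < ε
    rwa [abs_of_pos w0]
  have aa : ∀ x : ℝ, AnalyticAt ℝ (fun s : ℝ => ψ (s, 1 / n)) x := fun x =>
    (N.aψ _ (lam x)).comp_of_eq (f := fun s : ℝ => (s, (1 : ℝ) / n))
      (analyticAt_id.prod analyticAt_const) rfl
  have ad : ∀ x : ℝ, AnalyticAt ℝ (fun s : ℝ => δ (s, 1 / n)) x := fun x =>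
    (N.aδ _ (lam x)).comp_of_eq (f := fun s : ℝ => (s, (1 : ℝ) / n))
      (analyticAt_id.prod analyticAt_const) rfl
  have st : ∀ x : ℝ, Step h (ψ (x - 1 / n, 1 / n)) (δ (x - 1 / n, 1 / n)) (ψ (x, 1 / n))
      (δ (x, 1 / n)) := fun x => by
    have := N.step (x - 1 / n) (1 / n) w0 hε
    rwa [sub_add_cancel] at this
  obtain ⟨y, hy⟩ : ∃ y : ℂ → ℂ, y = fun x => Y (x, ((1 / n : ℝ) : ℂ)) := ⟨_, rfl⟩
  rw [← hy]
  have dy : DifferentiableOn ℂ y (Strip T) := fun x hx => by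
    rw [hy]
    exact ((F.an x hx).comp_of_eq (f := fun z : ℂ => (z, ((1 / n : ℝ) : ℂ)))
      (analyticAt_id.prod analyticAt_const) rfl).differentiableAt.differentiableWithinAt
  have my : MapsTo y (Strip T) (Strip r) := fun x hx => by rw [hy]; exact F.mem x hx
  have ry : ∀ x : ℝ, (y x).im = 0 ∧ θ (y x) = (ψ (x, 1 / n) : ℝ) := fun x => by
    rw [hy]
    exact (F.re x).self_of_nhds
  have key : ∀ x : ℝ, ∃ g : ℝ, 0 < g ∧ H (y x) = (h (ψ (x, 1 / n)) : ℝ) ∧ deriv θ (y x) = g ∧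
      deriv H (y x) = (deriv h (ψ (x, 1 / n)) * g : ℝ) ∧
      (h (ψ (x, 1 / n)) + deriv (deriv h) (ψ (x, 1 / n))) * g ^ 3 = c := fun x => by
    have e : y x = ((y x).re : ℂ) := Complex.ext (by simp) (by rw [(ry x).1, ofReal_im])
    have e1 : ψ ((y x).re, 0) = ψ (x, 1 / n) := by
      apply ofReal_injective
      rw [← (A _).1, ← e, (ry x).2]
    obtain ⟨g, g0, g1, g2, g3⟩ := real_der N C A (y x).re
    have g4 := (A (y x).re).2
    rw [← e] at g1 g2 g4
    rw [e1] at g2 g3 g4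
    exact ⟨g, g0, g4, g1, g2, g3⟩
  have dθy : DifferentiableOn ℂ (fun z => θ (y z)) (Strip T) := C.dθ.comp dy my
  have dHy : DifferentiableOn ℂ (fun z => H (y z)) (Strip T) := C.dH.comp dy my
  have dθy' : DifferentiableOn ℂ (fun z => deriv θ (y z)) (Strip T) :=
    (C.dθ.deriv (isOpen_strip r)).comp dy my
  have dHy' : DifferentiableOn ℂ (fun z => deriv H (y z)) (Strip T) :=
    (C.dH.deriv (isOpen_strip r)).comp dy my
  have cs : ∀ x : ℝ, (x : ℂ) - 1 / n = ((x - 1 / n : ℝ) : ℂ) := fun x => by push_cast; rfl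
  have c1 : ∀ x : ℝ, (x : ℂ) + 1 = ((x + 1 : ℝ) : ℂ) := fun x => by push_cast; rfl
  have pφ : ∀ x : ℝ, ψ (x + 1, 1 / n) + δ (x + 1, 1 / n) =
      ψ (x, 1 / n) + δ (x, 1 / n) + 2 * Real.pi := fun x => by
    obtain ⟨k1, k2⟩ := N.per _ (lam x)
    rw [k1, k2]
    ring
  have tφ : ∀ x : ℝ, ((ψ (x, 1 / n) + δ (x, 1 / n) : ℝ) : ℂ) +
      (ψ (x - 1 / n, 1 / n) + δ (x - 1 / n, 1 / n) : ℝ) = 2 * θ (y x) := fun x => by
    have k := (st x).2.2.2.2.1
    rw [(ry x).2, ← ofReal_add, show ψ (x, 1 / n) + δ (x, 1 / n) +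
      (ψ (x - 1 / n, 1 / n) + δ (x - 1 / n, 1 / n)) = 2 * ψ (x, 1 / n) by linarith]
    push_cast
    rfl
  obtain ⟨φ, dφ, eφ⟩ := ext_alt (f := fun x => ψ (x, 1 / n) + δ (x, 1 / n)) hodd dθy pφ tφ
  have ede : ∀ x : ℝ, de n φ x = (δ (x, 1 / n) : ℝ) := fun x => by
    have k := (st x).2.2.2.2.1
    rw [de, cs, eφ, eφ, ← ofReal_sub, show ψ (x, 1 / n) + δ (x, 1 / n) -
      (ψ (x - 1 / n, 1 / n) + δ (x - 1 / n, 1 / n)) = 2 * δ (x, 1 / n) by linarith]
    push_cast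
    ring
  have dde : DifferentiableOn ℂ (de n φ) (Strip T) :=
    (dφ.sub (dsub dφ (im_inv n))).div_const 2
  obtain ⟨P, hP⟩ : ∃ P : ℝ → ℝ, P = fun x => h (ψ (x, 1 / n)) * Real.cos (δ (x, 1 / n)) +
    deriv h (ψ (x, 1 / n)) * Real.sin (δ (x, 1 / n)) := ⟨_, rfl⟩
  have P1 : ∀ x : ℝ, P x = h (ψ (x, 1 / n)) * Real.cos (δ (x, 1 / n)) +
    deriv h (ψ (x, 1 / n)) * Real.sin (δ (x, 1 / n)) := fun x => by rw [hP]
  have P2 : ∀ x : ℝ, P (x - 1 / n) = h (ψ (x, 1 / n)) * Real.cos (δ (x, 1 / n)) -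
    deriv h (ψ (x, 1 / n)) * Real.sin (δ (x, 1 / n)) := fun x => by rw [P1, chord (st x)]
  have pP : ∀ x : ℝ, P (x + 1) = P x + 0 := fun x => by
    obtain ⟨k1, k2⟩ := N.per _ (lam x)
    have k3 : ∀ s, deriv h (s + 2 * Real.pi) = deriv h s := fun s => by
      rw [← deriv_comp_add_const, funext N.tab.2.1]
    rw [P1, P1, add_zero, k1, k2, N.tab.2.1, k3]
  have tP : ∀ x : ℝ, (P x : ℂ) + P (x - 1 / n) = 2 * (H (y x) * cos (de n φ x)) := fun x => by
    obtain ⟨g, -, g1, -⟩ := key x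
    rw [P2, P1, ede, g1]
    push_cast
    ring
  obtain ⟨p, dp', ep⟩ := ext_alt hodd (dHy.mul dde.ccos) pP tP
  have dφr : ∀ x : ℝ, deriv φ x = (deriv (fun s => ψ (s, 1 / n) + δ (s, 1 / n)) x : ℝ) := fun x =>
    der_real (dφ.differentiableAt ((isOpen_strip T).mem_nhds (real_mem hT x)))
      ((aa x).add (ad x)).differentiableAt.hasDerivAt eφ
  have dyr : ∀ x : ℝ, deriv θ (y x) * deriv y x = (deriv (fun s => ψ (s, 1 / n)) x : ℝ) := fun x => by
    have k1 := dy.differentiableAt ((isOpen_strip T).mem_nhds (real_mem hT x))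
    have k2 := C.dθ.differentiableAt ((isOpen_strip r).mem_nhds (my (real_mem hT x)))
    rw [← deriv_comp _ k2 k1]
    exact der_real (k2.comp _ k1) (aa x).differentiableAt.hasDerivAt fun s => (ry s).2
  have esg : ∀ x : ℝ, sg c θ n y φ x = (((h (ψ (x, 1 / n)) + deriv (deriv h) (ψ (x, 1 / n))) *
      Real.sin (δ (x, 1 / n)) * deriv (fun s => ψ (s, 1 / n)) x : ℝ) : ℂ) := fun x => by
    obtain ⟨g, g0, -, g1, -, g3⟩ := key x
    have k := dyr x
    have g0' : (g : ℂ) ≠ 0 := ofReal_ne_zero.2 g0.ne'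
    rw [g1] at k
    rw [sg, ede, g1, ← g3, div_eq_iff (pow_ne_zero 2 g0')]
    rw [ofReal_mul _ (deriv _ _), ← k]
    push_cast
    ring
  refine ⟨φ, p, hodd, le_of_max_le_right hn, hT, dy, dφ, dp', my, fun x hx => ?_, ?_, ?_, ?_, ?_, ?_,
    fun x => ⟨(ry x).1, by rw [eφ, ofReal_im], by rw [ep, ofReal_im]⟩, fun x => ?_,
    C₀, ofReal_ne_zero.2 C0, fun x => ?_⟩
  · rw [hy]
    exact (hF x hx).self_of_nhds.1
  · refine ident hT (dadd dφ one_im) (dφ.add_const _) fun x => ?_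
    rw [c1, eφ, eφ, pφ]
    push_cast
    rfl
  · refine ident hT (dadd dp' one_im) dp' fun x => ?_
    rw [c1, ep, ep, pP, add_zero]
  · refine ident hT (dφ.add (dsub dφ (im_inv n))) (dθy.const_mul 2) fun x => ?_
    show φ x + φ (x - 1 / n) = 2 * θ (y x)
    rw [cs, eφ, eφ, tφ]
  · refine ident hT (dp'.add (dsub dp' (im_inv n))) ((dHy.const_mul 2).mul dde.ccos) fun x => ?_
    show p x + p (x - 1 / n) = 2 * H (y x) * cos (de n φ x)
    rw [cs, ep, ep, tP, mul_assoc]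
  · refine ident hT ((dp'.sub (dsub dp' (im_inv n))).mul dθy') ((dHy'.const_mul 2).mul dde.csin)
      fun x => ?_
    show (p x - p (x - 1 / n)) * deriv θ (y x) = 2 * deriv H (y x) * sin (de n φ x)
    obtain ⟨g, -, -, g1, g2, -⟩ := key x
    rw [cs, ep, ep, P2, P1, ede, g1, g2]
    push_cast
    ring
  · obtain ⟨g, g0, -, g1, -⟩ := key x
    have k := dyr x
    have g0' : (g : ℂ) ≠ 0 := ofReal_ne_zero.2 g0.ne'
    rw [g1] at k
    have k1 : deriv y x = ((deriv (fun s => ψ (s, 1 / n)) x / g : ℝ) : ℂ) := by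
      rw [ofReal_div, ← k, mul_div_cancel_left₀ _ g0']
    rw [k1, dφr, ede, ofReal_re, ofReal_re, ofReal_re]
    exact ⟨div_pos (hs x).1 g0, (hs x).2.1, (st x).2.2.1, (hs x).2.2⟩
  · rw [← hC x, ofReal_sum]
    refine Finset.sum_congr rfl fun j _ => ?_
    rw [show (x : ℂ) + j / n = ((x + j / n : ℝ) : ℂ) by push_cast; rfl,
      show (x : ℂ) + (j + 1) / n = ((x + (j + 1) / n : ℝ) : ℂ) by push_cast; rfl, esg, esg, dφr,
      ofReal_div, ofReal_add, ofReal_inv, ofReal_inv]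

end Vale.Agent.P097Top
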