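import Vale.Agent.P097Top.Defs
import Vale.Agent.P097A.Bern

/-!
# P097Top: propagation of an invariant foliation along a curve of fixed points (row PROPN)
-/

set_option linter.all false

noncomputable section

namespace Vale.Agent.P097Top

open Filter Topology Set Metric Complex

namespace PropN

/-- the displacement of a point -/
def N (M : ℂ × ℂ → ℂ × ℂ) (p : ℂ × ℂ) : ℂ × ℂ := M p - p

lemma orbit (M : ℂ × ℂ → ℂ × ℂ) (p₀ : ℂ × ℂ) (R C L d : ℝ) (hC : 0 < C) (hd : 0 < d)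
    (hL1 : 4 * L ≤ R) (hL2 : 4 * C * L ≤ 1) (hR : 0 < R)
    (hM : ∀ p ∈ ball p₀ R, AnalyticAt ℂ M p ∧ ‖N M (M p) - N M p‖ ≤ C * ‖N M p‖ ^ 2)
    (p : ℂ × ℂ) (h1 : ‖p - p₀‖ ≤ R / 4) (h2 : ‖N M p‖ ≤ d) (k : ℕ) (hk : d * k ≤ L) :
    ‖M^[k] p - p₀‖ ≤ R / 4 + 2 * (d * k) ∧ ‖N M (M^[k] p)‖ ≤ d + 4 * C * d * (d * k) ∧
      AnalyticAt ℂ (M^[k]) p := by
  induction k with
  | zero =>
    refine ⟨by simpa using h1, by simpa using h2, ?_⟩
    simp only [Function.iterate_zero]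
    exact analyticAt_id
  | succ k ih =>
    have hk' : d * k ≤ L := by
      push_cast at hk
      nlinarith
    obtain ⟨i1, i2, i3⟩ := ih hk'
    rw [Function.iterate_succ']
    simp only [Function.comp_apply]
    set q := M^[k] p with hq
    have hN : ‖N M q‖ ≤ 2 * d := by
      have : 4 * C * d * (d * k) ≤ 4 * C * d * L := by gcongr
      nlinarith
    have m1 : q ∈ ball p₀ R := by
      rw [mem_ball, dist_eq_norm]; linarith
    obtain ⟨k1, k2⟩ := hM q m1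
    refine ⟨?_, ?_, k1.comp i3⟩
    · calc ‖M q - p₀‖ = ‖(q - p₀) + N M q‖ := by congr 1; simp only [N]; abel
        _ ≤ ‖q - p₀‖ + ‖N M q‖ := norm_add_le _ _
        _ ≤ _ := by push_cast; linarith
    · have k3 : C * ‖N M q‖ ^ 2 ≤ C * (2 * d) ^ 2 := by gcongr
      calc ‖N M (M q)‖ = ‖(N M (M q) - N M q) + N M q‖ := by congr 1; abel
        _ ≤ ‖N M (M q) - N M q‖ + ‖N M q‖ := norm_add_le _ _
        _ ≤ C * (2 * d) ^ 2 + (d + 4 * C * d * (d * k)) := by linarith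
        _ = _ := by push_cast; ring

/-- the extension theorem for maps of the plane -/
lemma ext2 (G : ℂ × ℂ → ℂ × ℂ) (B r S : ℝ) (hG : AnalyticAt ℂ G 0) (hr : 0 < r) (hS : 0 < S)
    (h : ∀ s : ℝ, 0 ≤ s → s ≤ S → ∃ g : ℂ → ℂ × ℂ, DifferentiableOn ℂ g (ball 0 r) ∧
      (∀ v ∈ ball (0 : ℂ) r, ‖g v‖ ≤ B) ∧ ∀ᶠ v in 𝓝 (0 : ℂ), g v = G ((s : ℂ) * v, v)) :
    ∃ H : ℂ × ℂ → ℂ × ℂ, AnalyticOnNhd ℂ H (ball 0 (S * r / 14) ×ˢ ball 0 (r / 14)) ∧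
      ∀ᶠ p in 𝓝 (0 : ℂ × ℂ), H p = G p := by
  obtain ⟨H1, a1, -, e1⟩ := P097A.ext (fun p => (G p).1) B r S (analyticAt_fst.comp hG) hr hS
    fun s s0 s1 => by
      obtain ⟨g, g1, g2, g3⟩ := h s s0 s1
      exact ⟨fun v => (g v).1, g1.fst, fun v hv => (norm_fst_le _).trans (g2 v hv),
        g3.mono fun v hv => congrArg Prod.fst hv⟩
  obtain ⟨H2, a2, -, e2⟩ := P097A.ext (fun p => (G p).2) B r S (analyticAt_snd.comp hG) hr hS
    fun s s0 s1 => by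
      obtain ⟨g, g1, g2, g3⟩ := h s s0 s1
      exact ⟨fun v => (g v).2, g1.snd, fun v hv => (norm_snd_le _).trans (g2 v hv),
        g3.mono fun v hv => congrArg Prod.snd hv⟩
  refine ⟨fun p => (H1 p, H2 p), a1.prod a2, ?_⟩
  filter_upwards [e1, e2] with p h1 h2
  rw [h1, h2]

lemma tl (s c : ℂ) : Tendsto (fun v : ℂ => ((s + c * v, v) : ℂ × ℂ)) (𝓝 0) (𝓝 (s, 0)) :=
  Continuous.tendsto' (by fun_prop) _ _ (by simp)

lemma iter_germ (M Ψ : ℂ × ℂ → ℂ × ℂ) (s : ℂ) (n : ℕ)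
    (h : ∀ᶠ q : ℂ × ℂ in 𝓝 (s, 0), M (Ψ q) = Ψ (q.1 + n * q.2, q.2)) (c : ℂ) (k : ℕ) :
    ∀ᶠ v in 𝓝 (0 : ℂ), M^[k] (Ψ (s + c * v, v)) = Ψ (s + (c + n * k) * v, v) := by
  induction k with
  | zero => simp
  | succ k ih =>
    filter_upwards [ih, (tl s (c + n * k)).eventually h] with v h1 h2
    rw [Function.iterate_succ_apply', h1, h2]
    congr 2
    push_cast
    ring

lemma core (M : ℂ × ℂ → ℂ × ℂ) (p₀ : ℂ × ℂ) (R C K : ℝ) (n : ℕ) (hR : 0 < R) (hC : 0 < C)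
    (hK : 0 ≤ K) (hn : 0 < n)
    (hM : ∀ p ∈ ball p₀ R, AnalyticAt ℂ M p ∧ ‖N M (M p) - N M p‖ ≤ C * ‖N M p‖ ^ 2) :
    ∃ δ : ℝ, 0 < δ ∧ ∀ (Ψ : ℂ × ℂ → ℂ × ℂ) (s : ℂ), AnalyticAt ℂ Ψ (s, 0) →
      ‖Ψ (s, 0) - p₀‖ < R / 4 → ‖fderiv ℂ Ψ (s, 0) (1, 0)‖ ≤ K →
      (∀ᶠ q : ℂ × ℂ in 𝓝 (s, 0), M (Ψ q) = Ψ (q.1 + n * q.2, q.2)) →
      ∃ (r : ℝ) (H : ℂ × ℂ → ℂ × ℂ), 0 < r ∧ AnalyticOnNhd ℂ H (ball s δ ×ˢ ball 0 r) ∧
        H =ᶠ[𝓝 (s, 0)] Ψ := by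
  set L : ℝ := min (R / 4) (1 / (4 * C)) with hLdef
  have hL0 : 0 < L := lt_min (by positivity) (by positivity)
  have hL1 : 4 * L ≤ R := by
    have := min_le_left (R / 4) (1 / (4 * C))
    linarith
  have hL2 : 4 * C * L ≤ 1 := by
    have := min_le_right (R / 4) (1 / (4 * C))
    rw [← hLdef, le_div_iff₀ (by positivity)] at this
    linarith
  have hn' : (0 : ℝ) < n := Nat.cast_pos.mpr hn
  refine ⟨L / (K + 1) / 14, by positivity, fun Ψ s ha hp hd he => ?_⟩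
  have hst := (ha.hasStrictFDerivAt.isLittleO).bound (c := 1) one_pos
  have tt : Tendsto (fun q : ℂ × ℂ => (((q.1 + n * q.2, q.2), q) : (ℂ × ℂ) × ℂ × ℂ)) (𝓝 (s, 0))
      (𝓝 ((s, 0), (s, 0))) := Continuous.tendsto' (by fun_prop) _ _ (by simp)
  have hcl : ∀ᶠ q in 𝓝 ((s, 0) : ℂ × ℂ), ‖Ψ q - p₀‖ < R / 4 :=
    (ha.continuousAt.sub continuousAt_const).norm.eventually (gt_mem_nhds hp)
  have hN : ∀ᶠ q in 𝓝 ((s, 0) : ℂ × ℂ), ‖N M (Ψ q)‖ ≤ (K + 1) * n * ‖q.2‖ := by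
    filter_upwards [tt.eventually hst, he] with q h1 h2
    have e1 : ((q.1 + n * q.2, q.2) : ℂ × ℂ) - q = (n * q.2) • ((1, 0) : ℂ × ℂ) := by
      ext <;> simp
    have e2 : ‖((1, 0) : ℂ × ℂ)‖ = 1 := by simp [Prod.norm_def]
    simp only [e1, map_smul, one_mul, norm_smul, e2, mul_one, norm_mul, Complex.norm_natCast] at h1
    rw [N, h2]
    have e3 : ‖((n : ℂ) * q.2) • fderiv ℂ Ψ (s, 0) (1, 0)‖ ≤ n * ‖q.2‖ * K := by
      rw [norm_smul, norm_mul, Complex.norm_natCast]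
      gcongr
    have e4 := norm_le_norm_add_norm_sub' (Ψ (q.1 + n * q.2, q.2) - Ψ q)
      (((n : ℂ) * q.2) • fderiv ℂ Ψ (s, 0) (1, 0))
    nlinarith
  obtain ⟨r₁, hr₁, hb⟩ := Metric.eventually_nhds_iff_ball.mp
    (hcl.and (hN.and ha.eventually_analyticAt))
  set r : ℝ := r₁ / (n + 1) with hrdef
  have hr : 0 < r := by positivity
  have hrr : r * (n + 1) = r₁ := by rw [hrdef]; field_simp
  have tr : AnalyticAt ℂ (fun p : ℂ × ℂ => p + (s, 0)) 0 := by fun_prop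
  have hG : AnalyticAt ℂ (fun p : ℂ × ℂ => Ψ (p + (s, 0))) 0 :=
    AnalyticAt.comp_of_eq (g := Ψ) ha tr (by simp)
  obtain ⟨H, hHa, hHe⟩ := ext2 (fun p => Ψ (p + (s, 0))) (‖p₀‖ + R) r (L / (K + 1) / r) hG hr
    (by positivity) (by
    intro t ht0 htS
    set k : ℕ := ⌊t / n⌋₊ with hk
    set σ : ℝ := t - n * k with hσ
    have hk1 : (k : ℝ) * n ≤ t := by
      have := Nat.floor_le (show 0 ≤ t / n by positivity)
      rwa [le_div_iff₀ hn'] at this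
    have hσ0 : 0 ≤ σ := by linarith
    have hσ1 : σ ≤ n := by
      have := Nat.lt_floor_add_one (t / n)
      rw [div_lt_iff₀ hn'] at this
      linarith
    have hkL : (K + 1) * n * r * k ≤ L := by
      rw [le_div_iff₀ hr, le_div_iff₀ (by positivity)] at htS
      have : (k : ℝ) * n * (r * (K + 1)) ≤ t * (r * (K + 1)) := by gcongr
      nlinarith
    have key : ∀ v ∈ ball (0 : ℂ) r, ‖M^[k] (Ψ (s + σ * v, v))‖ ≤ ‖p₀‖ + R ∧
        DifferentiableAt ℂ (fun v => M^[k] (Ψ (s + σ * v, v))) v := by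
      intro v hv
      rw [mem_ball_zero_iff] at hv
      obtain ⟨b1, b2, b3⟩ := hb (s + σ * v, v) (by
        rw [mem_ball, Prod.dist_eq, max_lt_iff, dist_eq_norm, dist_eq_norm]
        simp only [add_sub_cancel_left, sub_zero, norm_mul, Complex.norm_real, Real.norm_eq_abs,
          abs_of_nonneg hσ0]
        constructor <;> nlinarith [norm_nonneg v])
      obtain ⟨o1, -, o3⟩ := orbit M p₀ R C L ((K + 1) * n * r) hC (by positivity) hL1 hL2 hR hM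
        (Ψ (s + σ * v, v)) b1.le (b2.trans (by gcongr)) k hkL
      refine ⟨?_, ?_⟩
      · have := norm_le_norm_add_norm_sub' (M^[k] (Ψ (s + σ * v, v))) p₀
        linarith
      · have l : DifferentiableAt ℂ (fun v : ℂ => ((s + σ * v, v) : ℂ × ℂ)) v := by fun_prop
        exact o3.differentiableAt.comp v (DifferentiableAt.comp (g := Ψ) v b3.differentiableAt l)
    refine ⟨fun v => M^[k] (Ψ (s + σ * v, v)), fun v hv => (key v hv).2.differentiableWithinAt,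
      fun v hv => (key v hv).1, ?_⟩
    filter_upwards [iter_germ M Ψ s n he σ k] with v hv
    rw [hv]
    congr 1
    ext
    · simp only [hσ, Prod.fst_add]
      push_cast
      ring
    · simp)
  have eL : L / (K + 1) / r * r / 14 = L / (K + 1) / 14 := by field_simp
  rw [eL] at hHa
  refine ⟨r / 14, fun q => H (q - (s, 0)), by positivity, fun q hq => ?_, ?_⟩
  · have l : AnalyticAt ℂ (fun q : ℂ × ℂ => q - (s, 0)) q := by fun_prop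
    refine AnalyticAt.comp (g := H) (hHa _ ⟨?_, ?_⟩) l
    · simpa [dist_eq_norm] using hq.1
    · simpa using hq.2
  · have t0 : Tendsto (fun q : ℂ × ℂ => q - (s, 0)) (𝓝 (s, 0)) (𝓝 0) :=
      Continuous.tendsto' (by fun_prop) _ _ (by simp)
    filter_upwards [t0.eventually hHe] with q hq
    rw [hq, sub_add_cancel]

lemma tb (s : ℂ) : Tendsto (fun q : ℂ × ℂ => ((q.1, 0) : ℂ × ℂ)) (𝓝 (s, 0)) (𝓝 (s, 0)) :=
  Continuous.tendsto' (by fun_prop) _ _ rfl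

/-- vanishing to first order on the axis -/
lemma ord1 {F : ℂ × ℂ → ℂ × ℂ} {s : ℂ} (hF : AnalyticAt ℂ F (s, 0))
    (h0 : ∀ᶠ t in 𝓝 s, F (t, 0) = 0) {ε : ℝ} (hε : 0 < ε) :
    ∀ᶠ q in 𝓝 ((s, 0) : ℂ × ℂ), ‖F q - q.2 • fderiv ℂ F (s, 0) (0, 1)‖ ≤ ε * ‖q.2‖ := by
  have hst := (hF.hasStrictFDerivAt.isLittleO).bound hε
  have tt : Tendsto (fun q : ℂ × ℂ => ((q, (q.1, 0)) : (ℂ × ℂ) × ℂ × ℂ)) (𝓝 (s, 0))
      (𝓝 ((s, 0), (s, 0))) := Continuous.tendsto' (by fun_prop) _ _ rfl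
  have t1 : Tendsto (fun q : ℂ × ℂ => q.1) (𝓝 (s, 0)) (𝓝 s) := continuous_fst.tendsto _
  filter_upwards [tt.eventually hst, t1.eventually h0] with q h1 h2
  have e1 : q - ((q.1, 0) : ℂ × ℂ) = q.2 • ((0, 1) : ℂ × ℂ) := by ext <;> simp
  have e2 : ‖((0, 1) : ℂ × ℂ)‖ = 1 := by simp [Prod.norm_def]
  simpa only [e1, h2, sub_zero, map_smul, norm_smul, e2, mul_one] using h1

/-- vanishing to second order on the axis -/
lemma ord2 {F : ℂ × ℂ → ℂ × ℂ} {s : ℂ} (hF : AnalyticAt ℂ F (s, 0))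
    (h0 : ∀ᶠ t in 𝓝 s, F (t, 0) = 0) (h1 : ∀ᶠ t in 𝓝 s, fderiv ℂ F (t, 0) (0, 1) = 0) :
    ∃ C : ℝ, 0 < C ∧ ∀ᶠ q in 𝓝 ((s, 0) : ℂ × ℂ), ‖F q‖ ≤ C * ‖q.2‖ ^ 2 := by
  have hG : AnalyticAt ℂ (fun q => fderiv ℂ F q (0, 1)) (s, 0) :=
    (ContinuousLinearMap.apply ℂ (ℂ × ℂ) ((0, 1) : ℂ × ℂ)).analyticAt _ |>.comp hF.fderiv
  set w := fderiv ℂ (fun q => fderiv ℂ F q (0, 1)) (s, 0) (0, 1) with hw
  have t1 : Tendsto (fun q : ℂ × ℂ => q.1) (𝓝 (s, 0)) (𝓝 s) := continuous_fst.tendsto _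
  obtain ⟨r, hr, hb⟩ := Metric.eventually_nhds_iff_ball.mp
    ((ord1 hG h1 one_pos).and (hF.eventually_analyticAt.and (t1.eventually h0)))
  refine ⟨‖w‖ + 1, by positivity, ?_⟩
  filter_upwards [ball_mem_nhds _ hr] with q hq
  have hm : ∀ t ∈ closedBall (0 : ℂ) ‖q.2‖, ((q.1, t) : ℂ × ℂ) ∈ ball ((s, 0) : ℂ × ℂ) r := by
    intro t ht
    rw [← ball_prod_same] at hq ⊢
    refine ⟨hq.1, ?_⟩
    have := hq.2
    rw [mem_ball_zero_iff] at this ⊢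
    exact (mem_closedBall_zero_iff.mp ht).trans_lt this
  have hmv := (convex_closedBall (0 : ℂ) ‖q.2‖).norm_image_sub_le_of_norm_hasDerivWithin_le
    (f := fun t => F (q.1, t)) (f' := fun t => fderiv ℂ F (q.1, t) (0, 1))
    (C := (‖w‖ + 1) * ‖q.2‖) (x := 0) (y := q.2)
    (fun t ht => ((hb _ (hm t ht)).2.1.differentiableAt.hasFDerivAt.comp_hasDerivAt t
      ((hasDerivAt_const t q.1).prodMk (hasDerivAt_id t))).hasDerivWithinAt)
    (fun t ht => by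
      have k1 := (hb _ (hm t ht)).1
      have k2 := norm_le_norm_add_norm_sub' (fderiv ℂ F (q.1, t) (0, 1)) (t • w)
      have k3 := mem_closedBall_zero_iff.mp ht
      rw [norm_smul] at k2
      simp only [one_mul] at k1
      nlinarith [norm_nonneg w])
    (mem_closedBall_self (norm_nonneg _)) (mem_closedBall_zero_iff.mpr le_rfl)
  have k4 := (hb _ hq).2.2
  simp only [k4, sub_zero] at hmv
  calc ‖F q‖ ≤ (‖w‖ + 1) * ‖q.2‖ * ‖q.2‖ := hmv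
    _ = _ := by ring

lemma dfst {Γ : ℂ → ℂ × ℂ} {s : ℂ} (hΓ : AnalyticAt ℂ Γ s) :
    deriv (fun t => (Γ t).1) s = (deriv Γ s).1 :=
  ((ContinuousLinearMap.fst ℂ ℂ ℂ).hasFDerivAt.comp_hasDerivAt s
    hΓ.differentiableAt.hasDerivAt).deriv

/-- the second difference of an orbit is quadratically small near the curve -/
lemma quad {M : ℂ × ℂ → ℂ × ℂ} {Γ : ℂ → ℂ × ℂ} {s : ℂ} (hΓ : AnalyticAt ℂ Γ s)
    (hd : deriv (fun t => (Γ t).1) s ≠ 0) (hM : AnalyticAt ℂ M (Γ s))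
    (hf : ∀ᶠ t in 𝓝 s, M (Γ t) = Γ t) (hw : fderiv ℂ (N M) (Γ s) (0, 1) ≠ 0)
    (hz : ∀ᶠ t in 𝓝 s, fderiv ℂ (N M) (Γ t) (fderiv ℂ (N M) (Γ t) (0, 1)) = 0) :
    ∃ C : ℝ, 0 < C ∧ ∀ᶠ p in 𝓝 (Γ s), ‖N M (M p) - N M p‖ ≤ C * ‖N M p‖ ^ 2 := by
  set Φ : ℂ × ℂ → ℂ × ℂ := fun q => Γ q.1 + (0, q.2) with hΦ
  have Φ0 : ∀ t, Φ (t, 0) = Γ t := fun t => by simp [hΦ]
  have Φa : ∀ t, AnalyticAt ℂ Γ t → AnalyticAt ℂ Φ (t, 0) := fun t ht =>
    (AnalyticAt.comp (g := Γ) (f := Prod.fst) ht analyticAt_fst).add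
      (analyticAt_const.prod analyticAt_snd)
  have Φd : ∀ t, AnalyticAt ℂ Γ t → ∀ a b, fderiv ℂ Φ (t, 0) (a, b) = a • deriv Γ t + (0, b) := by
    intro t ht a b
    have k1 : HasFDerivAt (fun q : ℂ × ℂ => Γ q.1) _ (t, 0) :=
      HasFDerivAt.comp (g := Γ) (f := Prod.fst) (t, 0) ht.differentiableAt.hasDerivAt.hasFDerivAt
        hasFDerivAt_fst
    have k2 : HasFDerivAt (fun q : ℂ × ℂ => (((0 : ℂ), q.2) : ℂ × ℂ)) _ (t, 0) :=
      (hasFDerivAt_const (0 : ℂ) _).prodMk (hasFDerivAt_snd (𝕜 := ℂ))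
    have k3 : HasFDerivAt Φ _ (t, 0) := k1.add k2
    rw [k3.fderiv]
    simp
  have Na : ∀ p, AnalyticAt ℂ M p → AnalyticAt ℂ (N M) p := fun p hp => hp.sub analyticAt_id
  have hMe : ∀ᶠ t in 𝓝 s, AnalyticAt ℂ M (Γ t) := hΓ.continuousAt.eventually hM.eventually_analyticAt
  have hfs := hf.self_of_nhds
  have a1 : ∀ t, AnalyticAt ℂ Γ t → AnalyticAt ℂ M (Γ t) → AnalyticAt ℂ (fun q => N M (Φ q)) (t, 0) :=
    fun t h1 h2 => AnalyticAt.comp_of_eq (g := N M) (Na _ h2) (Φa t h1) (Φ0 t)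
  have a2 : ∀ t, AnalyticAt ℂ Γ t → AnalyticAt ℂ M (Γ t) → AnalyticAt ℂ (fun q => M (Φ q)) (t, 0) :=
    fun t h1 h2 => AnalyticAt.comp_of_eq (g := M) h2 (Φa t h1) (Φ0 t)
  have d1 : ∀ t, AnalyticAt ℂ Γ t → ∀ G : ℂ × ℂ → ℂ × ℂ, AnalyticAt ℂ G (Γ t) →
      fderiv ℂ (fun q => G (Φ q)) (t, 0) (0, 1) = fderiv ℂ G (Γ t) (0, 1) := by
    intro t h1 G h2
    rw [fderiv_comp' _ (by rw [Φ0]; exact h2.differentiableAt) (Φa t h1).differentiableAt,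
      ContinuousLinearMap.comp_apply, Φd t h1, Φ0]
    simp
  obtain ⟨C, hC, hq⟩ := ord2 (F := fun q => N M (M (Φ q)) - N M (Φ q)) (s := s)
    ((AnalyticAt.comp_of_eq (g := N M) (Na _ hM) (a2 s hΓ hM) (by rw [Φ0, hfs])).sub (a1 s hΓ hM))
    (hf.mono fun t ht => by rw [Φ0, ht, sub_self]) (by
      filter_upwards [hf, hz, hMe, hΓ.eventually_analyticAt] with t h1 h2 h3 h4
      have h5 : AnalyticAt ℂ (N M) (M (Γ t)) := by rw [h1]; exact Na _ h3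
      have h6 : AnalyticAt ℂ (fun p => N M (M p)) (Γ t) := AnalyticAt.comp (g := N M) h5 h3
      rw [d1 t h4 (fun p => N M (M p) - N M p) (h6.sub (Na _ h3)),
        fderiv_fun_sub h6.differentiableAt (Na _ h3).differentiableAt, fderiv_comp' _ h5.differentiableAt h3.differentiableAt, h1,
        ContinuousLinearMap.sub_apply, ContinuousLinearMap.comp_apply, ← map_sub, ← h2]
      congr 1
      rw [show N M = fun p => M p - p from rfl,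
        fderiv_fun_sub h3.differentiableAt differentiableAt_fun_id]
      simp)
  set w := fderiv ℂ (N M) (Γ s) (0, 1) with hwd
  have hw0 : 0 < ‖w‖ := norm_pos_iff.mpr hw
  have hl := ord1 (a1 s hΓ hM) (hf.mono fun t ht => by rw [Φ0, N, ht, sub_self])
    (show 0 < ‖w‖ / 2 by positivity)
  rw [d1 s hΓ _ (Na _ hM), ← hwd] at hl
  have hmap : map Φ (𝓝 (s, 0)) = 𝓝 (Φ (s, 0)) := by
    refine (Φa s hΓ).hasStrictFDerivAt.map_nhds_eq_of_surj (LinearMap.range_eq_top.mpr fun y => ?_)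
    rw [dfst hΓ] at hd
    refine ⟨(y.1 / (deriv Γ s).1, y.2 - y.1 / (deriv Γ s).1 * (deriv Γ s).2), ?_⟩
    erw [Φd s hΓ]
    ext
    · simp [hd]
    · simp
  refine ⟨C * (2 / ‖w‖) ^ 2, by positivity, ?_⟩
  rw [← Φ0, ← hmap, eventually_map]
  filter_upwards [hq, hl] with q h1 h2
  have k2 := norm_le_norm_add_norm_sub (N M (Φ q)) (q.2 • w)
  rw [norm_smul] at k2
  have k3 : ‖q.2‖ ≤ 2 / ‖w‖ * ‖N M (Φ q)‖ := by
    rw [div_mul_eq_mul_div, le_div_iff₀ hw0]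
    linarith
  calc _ ≤ C * ‖q.2‖ ^ 2 := h1
    _ ≤ C * (2 / ‖w‖ * ‖N M (Φ q)‖) ^ 2 := by gcongr
    _ = _ := by ring

lemma dline {Ψ : ℂ × ℂ → ℂ × ℂ} {Γ : ℂ → ℂ × ℂ} {s : ℂ} (ha : AnalyticAt ℂ Ψ (s, 0))
    (h0 : ∀ᶠ t in 𝓝 s, Ψ (t, 0) = Γ t) : fderiv ℂ Ψ (s, 0) (1, 0) = deriv Γ s := by
  have k := (ha.differentiableAt.hasFDerivAt.comp_hasDerivAt s
    ((hasDerivAt_id s).prodMk (hasDerivAt_const s (0 : ℂ)))).deriv
  rw [← k]
  exact EventuallyEq.deriv_eq h0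

/-- the linear part of the map at a point of the curve which carries a leaf -/
lemma lin {M Ψ : ℂ × ℂ → ℂ × ℂ} {Γ : ℂ → ℂ × ℂ} {s : ℂ} {n : ℕ} (hn : 0 < n)
    (hΓ : AnalyticAt ℂ Γ s) (hd : deriv (fun t => (Γ t).1) s ≠ 0) (hM : AnalyticAt ℂ M (Γ s))
    (hf : ∀ᶠ t in 𝓝 s, M (Γ t) = Γ t) (ha : AnalyticAt ℂ Ψ (s, 0))
    (h0 : ∀ᶠ t in 𝓝 s, Ψ (t, 0) = Γ t)
    (he : ∀ᶠ q : ℂ × ℂ in 𝓝 (s, 0), M (Ψ q) = Ψ (q.1 + n * q.2, q.2)) :
    fderiv ℂ (N M) (Γ s) (0, 1) ≠ 0 ∧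
      fderiv ℂ (N M) (Γ s) (fderiv ℂ (N M) (Γ s) (0, 1)) = 0 := by
  have hN : AnalyticAt ℂ (N M) (Γ s) := hM.sub analyticAt_id
  set D := fderiv ℂ (N M) (Γ s) with hD
  rw [dfst hΓ] at hd
  set γ := deriv Γ s with hγ
  have e0 := h0.self_of_nhds
  have k1 : D γ = 0 := by
    have k := (hN.differentiableAt.hasFDerivAt.comp_hasDerivAt s
      hΓ.differentiableAt.hasDerivAt).deriv
    rw [← k, EventuallyEq.deriv_eq (f := fun _ => (0 : ℂ × ℂ))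
      (hf.mono fun t ht => by simp [N, ht]), deriv_const]
  set ψ := fderiv ℂ Ψ (s, 0) with hψ
  have k2 : D (ψ (0, 1)) = (n : ℂ) • γ := by
    have l1 : HasDerivAt (fun u : ℂ => ((s, u) : ℂ × ℂ)) (0, 1) 0 :=
      (hasDerivAt_const 0 s).prodMk (hasDerivAt_id 0)
    have l2 : HasDerivAt (fun u : ℂ => ((s + n * u, u) : ℂ × ℂ)) (n, 1) 0 :=
      (by simpa using ((hasDerivAt_id (0 : ℂ)).const_mul (n : ℂ)).const_add s :
        HasDerivAt (fun u : ℂ => s + n * u) n 0).prodMk (hasDerivAt_id 0)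
    have p1 : HasDerivAt (fun u : ℂ => Ψ (s, u)) (ψ (0, 1)) 0 :=
      ha.differentiableAt.hasFDerivAt.comp_hasDerivAt 0 l1
    have p2 : HasDerivAt (fun u : ℂ => Ψ (s + n * u, u)) (ψ (n, 1)) 0 :=
      HasFDerivAt.comp_hasDerivAt_of_eq 0 ha.differentiableAt.hasFDerivAt l2 (by simp)
    have p3 : HasDerivAt (fun u : ℂ => N M (Ψ (s, u))) (D (ψ (0, 1))) 0 :=
      HasFDerivAt.comp_hasDerivAt_of_eq 0 hN.differentiableAt.hasFDerivAt p1 e0.symm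
    have p4 := (p2.sub p1).congr_of_eventuallyEq (f₁ := fun u : ℂ => N M (Ψ (s, u))) (by
      filter_upwards [l1.continuousAt.tendsto.eventually he] with u hu
      simp only [N, hu, Pi.sub_apply])
    rw [p3.unique p4, ← map_sub, hγ, ← dline ha h0, ← map_smul]
    congr 1
    ext <;> simp
  have k3 : ψ (0, 1) = ((ψ (0, 1)).1 / γ.1) • γ +
      ((ψ (0, 1)).2 - (ψ (0, 1)).1 / γ.1 * γ.2) • ((0, 1) : ℂ × ℂ) := by
    ext
    · simp [hd]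
    · simp
  set b := (ψ (0, 1)).2 - (ψ (0, 1)).1 / γ.1 * γ.2 with hb
  rw [k3, map_add, map_smul, map_smul, k1, smul_zero, zero_add] at k2
  have k4 : (n : ℂ) • γ ≠ 0 :=
    smul_ne_zero (Nat.cast_ne_zero.mpr hn.ne') fun h => hd (by rw [h]; rfl)
  have k5 : b ≠ 0 := fun h => k4 (by rw [← k2, h, zero_smul])
  refine ⟨fun h => k4 (by rw [← k2, h, smul_zero]), ?_⟩
  have k6 := congrArg D k2
  rw [map_smul, map_smul, k1, smul_zero] at k6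
  exact (smul_eq_zero.mp k6).resolve_left k5

end PropN

open PropN in
theorem propn : Spec_PROPN := by
  intro M Ψ Γ ρ n hρ hn hΓ hd hM hΨ
  have op : IsOpen {s : ℂ | s ∈ ball (0 : ℂ) ρ ∧ s.im < 0} :=
    isOpen_ball.inter (isOpen_lt continuous_im continuous_const)
  have hf : ∀ s ∈ ball (0 : ℂ) ρ, ∀ᶠ t in 𝓝 s, M (Γ t) = Γ t := fun s hs =>
    (isOpen_ball.eventually_mem hs).mono fun t ht => (hM t ht).2
  have h0 : ∀ s ∈ ball (0 : ℂ) ρ, s.im < 0 → ∀ᶠ t in 𝓝 s, Ψ (t, 0) = Γ t := fun s hs hi =>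
    (op.eventually_mem ⟨hs, hi⟩).mono fun t ht => (hΨ t ht.1 ht.2).2.1
  have hl := fun s hs hi => lin hn (hΓ s hs) (hd s hs) (hM s hs).1 (hf s hs) (hΨ s hs hi).1
    (h0 s hs hi) (hΨ s hs hi).2.2
  have hD : AnalyticOnNhd ℂ (fun s => fderiv ℂ (N M) (Γ s)) (ball 0 ρ) := fun s hs =>
    AnalyticAt.comp (g := fderiv ℂ (N M)) ((hM s hs).1.sub analyticAt_id).fderiv (hΓ s hs)
  have app : ∀ f : ℂ → ℂ × ℂ, AnalyticOnNhd ℂ f (ball 0 ρ) →
      AnalyticOnNhd ℂ (fun s => fderiv ℂ (N M) (Γ s) (f s)) (ball 0 ρ) := fun f h s hs =>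
    ((ContinuousLinearMap.apply ℂ (ℂ × ℂ) (E := ℂ × ℂ)).analyticAt_bilinear _).comp₂ (h s hs)
      (hD s hs)
  have hw := app (fun _ => (0, 1)) analyticOnNhd_const
  have z1 : ((-(ρ / 2) : ℝ) : ℂ) * I ∈ {s : ℂ | s ∈ ball (0 : ℂ) ρ ∧ s.im < 0} := by
    refine ⟨?_, by simpa using hρ⟩
    rw [mem_ball_zero_iff, norm_mul, norm_I, mul_one, norm_real, norm_neg, Real.norm_of_nonneg
      (by positivity)]
    linarith
  have hz := (app _ hw).eqOn_zero_of_preconnected_of_eventuallyEq_zero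
    (convex_ball _ _).isPreconnected z1.1
    ((op.eventually_mem z1).mono fun t ht => (hl t ht.1 ht.2).2)
  obtain ⟨s₀, hs₀, hw₀⟩ : ∃ s₀ : ℝ, (s₀ : ℂ) ∈ ball (0 : ℂ) ρ ∧
      fderiv ℂ (N M) (Γ s₀) (0, 1) ≠ 0 := by
    by_contra hc
    push Not at hc
    refine (hl _ z1.1 z1.2).1 (hw.eqOn_zero_of_preconnected_of_frequently_eq_zero
      (convex_ball _ _).isPreconnected (mem_ball_self hρ) ?_ z1.1)
    have t1 : Tendsto (fun x : ℝ => (x : ℂ)) (𝓝[≠] 0) (𝓝[≠] 0) :=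
      tendsto_nhdsWithin_iff.mpr ⟨(continuous_ofReal.tendsto' 0 0 rfl).mono_left nhdsWithin_le_nhds,
        eventually_mem_nhdsWithin.mono fun x hx => ofReal_ne_zero.mpr hx⟩
    refine t1.frequently (Eventually.frequently ?_)
    exact (t1.eventually (mem_nhdsWithin_of_mem_nhds (ball_mem_nhds _ hρ))).mono fun x hx => hc x hx
  obtain ⟨C, hC, hq⟩ := quad (hΓ _ hs₀) (hd _ hs₀) (hM _ hs₀).1 (hf _ hs₀) hw₀
    ((isOpen_ball.eventually_mem hs₀).mono fun t ht => hz ht)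
  obtain ⟨R, hR, hb⟩ := Metric.eventually_nhds_iff_ball.mp
    ((hM _ hs₀).1.eventually_analyticAt.and hq)
  obtain ⟨δ, hδ, hc⟩ := core M (Γ s₀) R C (‖deriv Γ s₀‖ + 1) n hR hC (by positivity) hn hb
  have c1 : ∀ᶠ s in 𝓝 (s₀ : ℂ), ‖Γ s - Γ s₀‖ < R / 4 :=
    ((hΓ _ hs₀).continuousAt.sub continuousAt_const).norm.eventually
      (gt_mem_nhds (by simpa using hR))
  have c2 : ∀ᶠ s in 𝓝 (s₀ : ℂ), ‖deriv Γ s‖ < ‖deriv Γ s₀‖ + 1 :=
    (hΓ _ hs₀).deriv.continuousAt.norm.eventually (gt_mem_nhds (by simp))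
  obtain ⟨ε, hε, hbε⟩ := Metric.eventually_nhds_iff_ball.mp (c1.and (c2.and
    ((isOpen_ball.eventually_mem hs₀).and (ball_mem_nhds (s₀ : ℂ) (half_pos hδ)))))
  set s : ℂ := s₀ + ((-(ε / 2) : ℝ) : ℂ) * I with hs
  have si : s.im < 0 := by simpa [hs] using hε
  obtain ⟨b1, b2, b3, b4⟩ := hbε s (by
    rw [mem_ball, dist_eq_norm, hs, add_sub_cancel_left, norm_mul, norm_I, mul_one, norm_real,
      norm_neg, Real.norm_of_nonneg (by positivity)]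
    linarith)
  obtain ⟨r, H, hr, hH, hHe⟩ := hc Ψ s (hΨ s b3 si).1 (by rwa [(hΨ s b3 si).2.1])
    (by rw [dline (hΨ s b3 si).1 (h0 s b3 si)]; exact b2.le) (hΨ s b3 si).2.2
  have sub1 : ball (s₀ : ℂ) (min ε r) ⊆ ball 0 ρ := fun t ht =>
    (hbε t (ball_subset_ball (min_le_left _ _) ht)).2.2.1
  have sub2 : ball (s₀ : ℂ) (min ε r) ⊆ ball s δ := fun t ht => by
    have k := (hbε t (ball_subset_ball (min_le_left _ _) ht)).2.2.2
    rw [mem_ball] at *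
    linarith [dist_triangle_right t s s₀]
  refine ⟨s₀, min ε r, H, lt_min hε hr, sub1,
    hH.mono (prod_mono sub2 (ball_subset_ball (min_le_right _ _))), fun t ht hi => ?_⟩
  have cv : IsPreconnected (ball s δ ∩ (ball (0 : ℂ) ρ ∩ {t | t.im < 0})) :=
    ((convex_ball _ _).inter ((convex_ball _ _).inter (convex_halfSpace_im_lt 0))).isPreconnected
  have oA : IsOpen {t : ℂ | H =ᶠ[𝓝 (t, 0)] Ψ} :=
    isOpen_setOf_eventually_nhds.preimage (Continuous.prodMk_left (0 : ℂ))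
  refine cv.subset_of_closure_inter_subset oA ⟨s, ⟨mem_ball_self hδ, b3, si⟩, hHe⟩ ?_
    ⟨sub2 ht, sub1 ht, hi⟩
  rintro x ⟨x1, x2, x3, x4⟩
  obtain ⟨η, hη, hbη⟩ := Metric.eventually_nhds_iff_ball.mp
    ((hH (x, 0) ⟨x2, mem_ball_self hr⟩).eventually_analyticAt.and
      (hΨ x x3 x4).1.eventually_analyticAt)
  obtain ⟨y, y1, y2⟩ := Metric.mem_closure_iff.mp x1 η hη
  have k := AnalyticOnNhd.eqOn_of_preconnected_of_eventuallyEq (fun q hq => (hbη q hq).1)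
    (fun q hq => (hbη q hq).2) (convex_ball _ _).isPreconnected (z₀ := (y, 0))
    (by rw [mem_ball, dist_comm]; simpa using y2) y1
  exact (isOpen_ball.eventually_mem (mem_ball_self hη)).mono fun q hq => k hq

end Vale.Agent.P097Top
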