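import Vale.Agent.P097Top.PropYA
import Vale.Agent.P097A.Step

/-!
# P097Top: a regular point of the leaf gives a bidisc
-/

set_option linter.all false

noncomputable section

namespace Vale.Agent.P097Top

open Filter Topology Set Metric Complex Vale.Agent.P097 Vale.Agent.P097T

namespace PY

/-- The iteration of the local billiard maps. -/
def it (J : ℕ → ℂ × ℂ → ℂ) : ℕ → ℂ × ℂ → ℂ × ℂ
  | 0 => fun z => z
  | j + 1 => fun z => ((it J j z).2, J j (it J j z))

theorem it_eq (J : ℕ → ℂ × ℂ → ℂ) (a : ℕ → ℂ) :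
    ∀ n, (∀ j < n, J j (a j, a (j + 1)) = a (j + 2)) → it J n (a 0, a 1) = (a n, a (n + 1))
  | 0, _ => rfl
  | n + 1, h => by
    simp only [it]
    rw [it_eq J a n fun j hj => h j (by omega), h n (by omega)]

theorem it_an (J : ℕ → ℂ × ℂ → ℂ) (a : ℕ → ℂ) :
    ∀ n, (∀ j < n, J j (a j, a (j + 1)) = a (j + 2)) →
      (∀ j < n, AnalyticAt ℂ (J j) (a j, a (j + 1))) → AnalyticAt ℂ (it J n) (a 0, a 1)
  | 0, _, _ => analyticAt_id
  | n + 1, h, k => by
    have i := it_an J a n (fun j hj => h j (by omega)) fun j hj => k j (by omega)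
    have e := it_eq J a n fun j hj => h j (by omega)
    exact (analyticAt_snd.comp i).prod ((k n (by omega)).comp_of_eq i e)

theorem shift {T : ℝ} {x : ℂ} (hx : x ∈ Strip T) {z : ℂ} (hz : z.im = 0) : x + z ∈ Strip T := by
  simpa [Strip, hz] using hx

theorem pt {T ρ : ℝ} (hT : 0 < T) (hρ : 0 < ρ) {x₀ : ℂ} (h : x₀.im = T) :
    ∃ z, z ∈ ball x₀ ρ ∩ Strip T := by
  have m : 0 < min ρ T := lt_min hρ hT
  have m1 := min_le_left ρ T
  have m2 := min_le_right ρ T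
  refine ⟨x₀ - ((min ρ T / 2 : ℝ) : ℂ) * I, ?_, ?_⟩
  · rw [mem_ball, dist_eq_norm, sub_sub_cancel_left, norm_neg, norm_mul, norm_I, norm_real,
      Real.norm_eq_abs, abs_of_pos (by linarith)]
    linarith
  · simp only [Strip, mem_setOf_eq, sub_im, mul_im, ofReal_re, I_im, ofReal_im, I_re, h, abs_lt]
    constructor <;> linarith

variable {r c T : ℝ} {θ H Q φ p : ℂ → ℂ} {n : ℕ} {y : ℂ → ℂ} {x₀ : ℂ}

/-- all vertices up to the index `n + 1` -/
theorem ext (hl : LeafD r c θ H n T y φ p) (h : RegAt r n T y x₀) :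
    ∃ (ρ : ℝ) (G : ℕ → ℂ → ℂ), 0 < ρ ∧ (∀ j < n + 2, AnalyticOnNhd ℂ (G j) (ball x₀ ρ) ∧
      MapsTo (G j) (ball x₀ ρ) (Strip r) ∧
      EqOn (G j) (fun x => y (x + j / n)) (ball x₀ ρ ∩ Strip T)) ∧
      ∀ x, G n x = G 0 x + 1 ∧ G (n + 1) x = G 1 x + 1 := by
  obtain ⟨ρ, F, hρ, hF⟩ := h
  have h3 := hl.three
  have n0 : (n : ℂ) ≠ 0 := by exact_mod_cast (by omega : n ≠ 0)
  refine ⟨ρ, fun j x => if j < n then F j x else F (j - n) x + 1, hρ, fun j hj => ?_, fun x => ?_⟩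
  · by_cases k : j < n
    · simp only [k, if_true]
      exact ⟨(hF j k).1.analyticOnNhd isOpen_ball, (hF j k).2⟩
    · simp only [k, if_false]
      obtain ⟨a, b, e⟩ := hF (j - n) (by omega)
      refine ⟨(a.analyticOnNhd isOpen_ball).add analyticOnNhd_const,
        fun x hx => shift (b hx) (by simp), fun x hx => ?_⟩
      have := hl.perY (x + ((j - n : ℕ) : ℂ) / n) (shift hx.2 (by
        rw [← ofReal_natCast, ← ofReal_natCast, ← ofReal_div, ofReal_im]))
      simp only [e hx, ← this]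
      congr 1
      rw [Nat.cast_sub (by omega)]
      field_simp
      ring
  · simp [show 0 < n by omega, show 1 < n by omega]

theorem imq (j n : ℕ) : ((j : ℂ) / n).im = 0 := by
  rw [← ofReal_natCast, ← ofReal_natCast, ← ofReal_div, ofReal_im]

/-- a good point on the top line -/
theorem good (hc : Cur r c θ H Q) (hl : LeafD r c θ H n T y φ p) (hx : x₀.im = T)
    (hw : ∀ x ∈ Strip T, law θ H (y (x - 1 / n)) (y x) (y (x + 1 / n)) = 0)
    {ρ : ℝ} {G : ℕ → ℂ → ℂ} (hρ : 0 < ρ)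
    (hG : ∀ j < n + 2, AnalyticOnNhd ℂ (G j) (ball x₀ ρ) ∧ MapsTo (G j) (ball x₀ ρ) (Strip r) ∧
      EqOn (G j) (fun x => y (x + j / n)) (ball x₀ ρ ∩ Strip T)) :
    (∀ j < n, ∀ x ∈ ball x₀ ρ, LF θ H ((G j x, G (j + 1) x), G (j + 2) x) = 0) ∧
    ∃ x₁ ∈ ball x₀ ρ, x₁.im = T ∧ deriv (G 0) x₁ ≠ 0 ∧
      ∀ j < n, DF θ H ((G j x₁, G (j + 1) x₁), G (j + 2) x₁) ≠ 0 := by
  obtain ⟨z, hz⟩ := pt hl.pos hρ hx
  have nz : ball x₀ ρ ∩ Strip T ∈ 𝓝 z := (isOpen_ball.inter (sopen T)).mem_nhds hz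
  have tr : ∀ j < n, ∀ x ∈ ball x₀ ρ,
      AnalyticAt ℂ (fun x => (((G j x, G (j + 1) x), G (j + 2) x) : (ℂ × ℂ) × ℂ)) x :=
    fun j hj x hx => (((hG j (by omega)).1 x hx).prod ((hG (j + 1) (by omega)).1 x hx)).prod
      ((hG (j + 2) (by omega)).1 x hx)
  have e1 : ∀ (x : ℂ) (j : ℕ), x + ((j + 1 : ℕ) : ℂ) / n - 1 / n = x + j / n := fun x j => by
    push_cast; ring
  have e2 : ∀ (x : ℂ) (j : ℕ), x + ((j + 1 : ℕ) : ℂ) / n + 1 / n = x + ((j + 2 : ℕ) : ℂ) / n :=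
    fun x j => by push_cast; ring
  constructor
  · intro j hj
    refine AnalyticOnNhd.eqOn_zero_of_preconnected_of_eventuallyEq_zero
      (f := fun x => LF θ H ((G j x, G (j + 1) x), G (j + 2) x))
      (fun x hx => (an_LF hc ((hG j (by omega)).2.1 hx) ((hG (j + 1) (by omega)).2.1 hx)
        ((hG (j + 2) (by omega)).2.1 hx)).comp (tr j hj x hx))
      (convex_ball _ _).isPreconnected hz.1 ?_
    filter_upwards [nz] with x hx
    have := hw _ (shift hx.2 (imq (j + 1) n))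
    rw [e1, e2] at this
    simp only [LF, (hG j (by omega)).2.2 hx, (hG (j + 1) (by omega)).2.2 hx,
      (hG (j + 2) (by omega)).2.2 hx, this, Pi.zero_apply]
  by_contra hn
  push Not at hn
  set P : ℂ → ℂ := fun x => deriv (G 0) x *
    ∏ j ∈ Finset.range n, DF θ H ((G j x, G (j + 1) x), G (j + 2) x) with hP
  set P' : ℂ → ℂ := fun x => deriv y x * ∏ j ∈ Finset.range n,
    DF θ H ((y (x + j / n), y (x + ((j + 1 : ℕ) : ℂ) / n)), y (x + ((j + 2 : ℕ) : ℂ) / n)) with hP'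
  have aP : AnalyticOnNhd ℂ P (ball x₀ ρ) := fun x hx =>
    ((hG 0 (by omega)).1 x hx).deriv.mul (Finset.analyticAt_fun_prod _ fun j hj => by
      have hj := Finset.mem_range.1 hj
      exact (an_DF hc ((hG j (by omega)).2.1 hx) ((hG (j + 1) (by omega)).2.1 hx)
        ((hG (j + 2) (by omega)).2.1 hx)).comp (tr j hj x hx))
  have ay : ∀ (j : ℕ), ∀ x ∈ Strip T, AnalyticAt ℂ (fun x => y (x + j / n)) x := fun j x hx =>
    (an_of hl.dY (shift hx (imq j n))).comp_of_eq (analyticAt_id.add analyticAt_const) rfl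
  have aP' : AnalyticOnNhd ℂ P' (Strip T) := fun x hx =>
    (an_of hl.dY hx).deriv.mul (Finset.analyticAt_fun_prod _ fun j _ =>
      (an_DF hc (hl.mem _ (shift hx (imq j n))) (hl.mem _ (shift hx (imq (j + 1) n)))
        (hl.mem _ (shift hx (imq (j + 2) n)))).comp
        (((ay j x hx).prod (ay (j + 1) x hx)).prod (ay (j + 2) x hx)))
  have z1 : EqOn P 0 (ball x₀ ρ) := by
    refine aP.eqOn_zero_of_preconnected_of_frequently_eq_zero (convex_ball _ _).isPreconnected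
      (mem_ball_self hρ) ?_
    have tt : Tendsto (fun t : ℝ => x₀ + t) (𝓝[≠] 0) (𝓝[≠] x₀) := by
      refine tendsto_nhdsWithin_iff.2 ⟨?_, ?_⟩
      · have : Continuous fun t : ℝ => x₀ + t := by fun_prop
        exact (by simpa using this.tendsto 0 : Tendsto (fun t : ℝ => x₀ + t) (𝓝 0) (𝓝 x₀)).mono_left
          nhdsWithin_le_nhds
      · filter_upwards [self_mem_nhdsWithin] with t ht
        simpa using ht
    refine tt.frequently (Eventually.frequently ?_)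
    filter_upwards [tt.eventually (mem_nhdsWithin_of_mem_nhds (ball_mem_nhds x₀ hρ))] with t ht
    by_cases d : deriv (G 0) (x₀ + t) = 0
    · simp only [hP, d, zero_mul]
    · obtain ⟨j, hj, e⟩ := hn _ ht (by simp [hx]) d
      simp only [hP]
      rw [Finset.prod_eq_zero (Finset.mem_range.2 hj) e, mul_zero]
  have z2 : EqOn P' 0 (Strip T) := by
    refine aP'.eqOn_zero_of_preconnected_of_eventuallyEq_zero (sconv T).isPreconnected hz.2 ?_
    filter_upwards [nz] with x hx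
    rw [← z1 hx.1]
    simp only [hP, hP']
    congr 1
    · refine EventuallyEq.deriv_eq ?_
      filter_upwards [(isOpen_ball.inter (sopen T)).mem_nhds hx] with u hu
      simpa using ((hG 0 (by omega)).2.2 hu).symm
    · refine Finset.prod_congr rfl fun j hj => ?_
      have hj := Finset.mem_range.1 hj
      simp only [(hG j (by omega)).2.2 hx, (hG (j + 1) (by omega)).2.2 hx,
        (hG (j + 2) (by omega)).2.2 hx]
  have z3 := z2 (rmem hl.pos 0)
  refine mul_ne_zero (fun h => ?_) (Finset.prod_ne_zero_iff.2 fun j _ => ?_) z3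
  · have := (hl.sgn 0).1
    rw [h] at this
    simp at this
  · have e : ((((j + 1 : ℕ) : ℝ) / n : ℝ) : ℂ) = ((0 : ℝ) : ℂ) + ((j + 1 : ℕ) : ℂ) / n := by
      push_cast; ring
    have := DF_ne hc hl (((j + 1 : ℕ) : ℝ) / n) (hw _ (rmem hl.pos _))
    rwa [e, e1, e2] at this

end PY

open PY

theorem propy (PROPN : Spec_PROPN) : Spec_PROPY := by
  intro r c T θ H Q φ p n Y x₀ hc hl hY hF hx hR
  have h3 := hl.three
  have n0 : (n : ℂ) ≠ 0 := by exact_mod_cast (by omega : n ≠ 0)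
  unfold Lf2F at hF
  generalize hw : ((1 / n : ℝ) : ℂ) = w at *
  have hw1 : w = 1 / n := by rw [← hw]; push_cast; rfl
  have wj : ∀ j : ℕ, (j : ℂ) * w = j / n := fun j => by rw [hw1]; ring
  have wn : (n : ℂ) * w = 1 := by rw [hw1]; field_simp
  have wi : w.im = 0 := by rw [← hw, ofReal_im]
  obtain ⟨ρ, G, hρ, hG, pG⟩ := ext hl hR
  obtain ⟨hL, x₁, m₁, i₁, d₁, D₁⟩ := good hc hl hx
    (fun x hx => by simpa only [← hw1] using (hF x hx).self_of_nhds.2) hρ hG
  have : ∀ j : ℕ, ∃ J : ℂ × ℂ → ℂ, j < n → AnalyticAt ℂ J (G j x₁, G (j + 1) x₁) ∧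
      ∀ᶠ v in 𝓝 (((G j x₁, G (j + 1) x₁), G (j + 2) x₁) : (ℂ × ℂ) × ℂ),
        LF θ H v = 0 ↔ J v.1 = v.2 := by
    intro j
    by_cases hj : j < n
    · obtain ⟨J, a, -, b⟩ := P097A.Step.imp (an_LF hc (q := ((G j x₁, G (j + 1) x₁), G (j + 2) x₁))
        ((hG j (by omega)).2.1 m₁) ((hG (j + 1) (by omega)).2.1 m₁)
        ((hG (j + 2) (by omega)).2.1 m₁)) (D₁ j hj)
      rw [hL j hj x₁ m₁] at b
      exact ⟨J, fun _ => ⟨a, b⟩⟩
    · exact ⟨0, fun h => (hj h).elim⟩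
  choose J hJ using this
  have tt : Tendsto (fun s : ℂ => x₁ + s) (𝓝 0) (𝓝 x₁) := by
    have : Continuous fun s : ℂ => x₁ + s := by fun_prop
    simpa using this.tendsto 0
  have tG : ∀ j < n + 2, Tendsto (fun s : ℂ => G j (x₁ + s)) (𝓝 0) (𝓝 (G j x₁)) := fun j hj =>
    ((hG j hj).1 x₁ m₁).continuousAt.tendsto.comp tt
  have ev : ∀ᶠ s in 𝓝 (0 : ℂ), (x₁ + s ∈ ball x₀ ρ ∧ deriv (G 0) (x₁ + s) ≠ 0 ∧ -T < s.im) ∧
      ∀ j ∈ Finset.range n, AnalyticAt ℂ (J j) (G j (x₁ + s), G (j + 1) (x₁ + s)) ∧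
        ∀ᶠ v in 𝓝 (((G j (x₁ + s), G (j + 1) (x₁ + s)), G (j + 2) (x₁ + s)) : (ℂ × ℂ) × ℂ),
          LF θ H v = 0 ↔ J j v.1 = v.2 := by
    refine Eventually.and (Eventually.and (tt.eventually (isOpen_ball.mem_nhds m₁))
      (Eventually.and (tt.eventually
        (((hG 0 (by omega)).1 x₁ m₁).deriv.continuousAt.eventually_ne d₁)) ?_)) ?_
    · exact continuous_im.continuousAt.eventually (lt_mem_nhds (by simpa using hl.pos))
    · refine (Finset.eventually_all _).2 fun j hj => ?_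
      have hj := Finset.mem_range.1 hj
      have t2 := (tG j (by omega)).prodMk_nhds (tG (j + 1) (by omega))
      exact (t2.eventually (hJ j hj).1.eventually_analyticAt).and
        ((t2.prodMk_nhds (tG (j + 2) (by omega))).eventually (hJ j hj).2.eventually_nhds)
  obtain ⟨σ, hσ, ev⟩ := Metric.eventually_nhds_iff_ball.1 ev
  set b : ℕ → ℂ × ℂ → ℂ := fun j q => Y (x₁ + q.1 + j * (w + q.2), w + q.2) with hb
  have aG : ∀ j < n + 2, ∀ s ∈ ball (0 : ℂ) σ, AnalyticAt ℂ (fun s => G j (x₁ + s)) s :=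
    fun j hj s hs => ((hG j hj).1 _ (ev s hs).1.1).comp_of_eq
      (analyticAt_const.add analyticAt_id) rfl
  have ms : ∀ s ∈ ball (0 : ℂ) σ, s.im < 0 → x₁ + s ∈ Strip T := fun s hs hi => by
    have := (ev s hs).1.2.2
    have := hl.pos
    simp only [Strip, mem_setOf_eq, add_im, i₁, abs_lt]
    constructor <;> linarith
  obtain ⟨s₀, ρ', Ψ, hρ', sub, aΨ, eΨ⟩ := PROPN (fun z => it J n z - (1, 1))
    (fun q => (b 0 q, b 1 q)) (fun s => (G 0 (x₁ + s), G 1 (x₁ + s))) σ n hσ (by omega)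
    (fun s hs => (aG 0 (by omega) s hs).prod (aG 1 (by omega) s hs))
    (fun s hs => by
      rw [deriv_comp_const_add]
      exact (ev s hs).1.2.1)
    (fun s hs => by
      have e : ∀ j < n, J j (G j (x₁ + s), G (j + 1) (x₁ + s)) = G (j + 2) (x₁ + s) := fun j hj =>
        ((ev s hs).2 j (Finset.mem_range.2 hj)).2.self_of_nhds.1 (hL j hj _ (ev s hs).1.1)
      refine ⟨(it_an J (fun j => G j (x₁ + s)) n e
        fun j hj => ((ev s hs).2 j (Finset.mem_range.2 hj)).1).sub analyticAt_const, ?_⟩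
      have := it_eq J (fun j => G j (x₁ + s)) n e
      simp only [this, (pG _).1, (pG _).2]
      simp)
    (fun s hs hi => by
      have m := ms s hs hi
      have mj : ∀ j : ℕ, x₁ + s + j * w ∈ Strip T := fun j => shift m (by simp [wi])
      have aj : ∀ u v : ℂ, AnalyticAt ℂ
          (fun q : ℂ × ℂ => ((x₁ + q.1 + u * q.2 + v, w + q.2) : ℂ × ℂ)) (s, 0) := fun u v =>
        (((analyticAt_const.add analyticAt_fst).add (analyticAt_const.mul analyticAt_snd)).add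
          analyticAt_const).prod (analyticAt_const.add analyticAt_snd)
      have tj : ∀ u v : ℂ, Tendsto (fun q : ℂ × ℂ => ((x₁ + q.1 + u * q.2 + v, w + q.2) : ℂ × ℂ))
          (𝓝 (s, 0)) (𝓝 (x₁ + s + v, w)) := fun u v => by
        simpa using (aj u v).continuousAt.tendsto
      have ab : ∀ j : ℕ, AnalyticAt ℂ (b j) (s, 0) := fun j =>
        (hY _ (mj j)).comp_of_eq (f := fun q : ℂ × ℂ =>
          ((x₁ + q.1 + j * (w + q.2), w + q.2) : ℂ × ℂ))
          (((analyticAt_const.add analyticAt_fst).add (analyticAt_const.mul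
            (analyticAt_const.add analyticAt_snd))).prod (analyticAt_const.add analyticAt_snd))
          (by simp)
      have vb : ∀ j < n + 2, b j (s, 0) = G j (x₁ + s) := fun j hj => by
        rw [(hG j hj).2.2 ⟨(ev s hs).1.1, m⟩]
        simp only [hb, add_zero, wj]
      have tb : ∀ j < n + 2, Tendsto (b j) (𝓝 (s, 0)) (𝓝 (G j (x₁ + s))) := fun j hj =>
        vb j hj ▸ (ab j).continuousAt.tendsto
      refine ⟨(ab 0).prod (ab 1), by rw [vb 0 (by omega), vb 1 (by omega)], ?_⟩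
      have e : ∀ᶠ q in 𝓝 ((s, 0) : ℂ × ℂ), ∀ j ∈ Finset.range n,
          J j (b j q, b (j + 1) q) = b (j + 2) q := by
        refine (Finset.eventually_all _).2 fun j hj => ?_
        have k := ((ev s hs).2 j hj).2
        have hj := Finset.mem_range.1 hj
        filter_upwards [(((tb j (by omega)).prodMk_nhds (tb (j + 1) (by omega))).prodMk_nhds
          (tb (j + 2) (by omega))).eventually k,
          (tj ((j + 1 : ℕ) : ℂ) (((j + 1 : ℕ) : ℂ) * w)).eventually (hF _ (mj (j + 1)))] with q h1 h2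
        refine h1.1 ?_
        have h2 := h2.2
        have u1 : x₁ + q.1 + ((j + 1 : ℕ) : ℂ) * q.2 + ((j + 1 : ℕ) : ℂ) * w - (w + q.2) =
            x₁ + q.1 + j * (w + q.2) := by push_cast; ring
        have u3 : x₁ + q.1 + ((j + 1 : ℕ) : ℂ) * q.2 + ((j + 1 : ℕ) : ℂ) * w + (w + q.2) =
            x₁ + q.1 + ((j + 2 : ℕ) : ℂ) * (w + q.2) := by push_cast; ring
        have u2 : x₁ + q.1 + ((j + 1 : ℕ) : ℂ) * q.2 + ((j + 1 : ℕ) : ℂ) * w =
            x₁ + q.1 + ((j + 1 : ℕ) : ℂ) * (w + q.2) := by ring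
        simp only [u1, u3] at h2
        simp only [u2] at h2
        exact h2
      filter_upwards [e, (tj n (((0 : ℕ) : ℂ) * w)).eventually (hF _ (mj 0)),
        (tj (n + 1) (((1 : ℕ) : ℂ) * w)).eventually (hF _ (mj 1))] with q h1 h2 h3
      have := it_eq J (fun j => b j q) n fun j hj => h1 j (Finset.mem_range.2 hj)
      simp only [this]
      have h2 := h2.1
      have h3 := h3.1
      have e2 : b n q = b 0 (q.1 + n * q.2, q.2) + 1 := by
        have u1 : x₁ + q.1 + n * q.2 + ((0 : ℕ) : ℂ) * w + 1 = x₁ + q.1 + n * (w + q.2) := by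
          push_cast; linear_combination -wn
        have u2 : x₁ + q.1 + n * q.2 + ((0 : ℕ) : ℂ) * w =
            x₁ + (q.1 + n * q.2) + ((0 : ℕ) : ℂ) * (w + q.2) := by push_cast; ring
        simp only [u1] at h2
        simp only [u2] at h2
        exact h2
      have e3 : b (n + 1) q = b 1 (q.1 + n * q.2, q.2) + 1 := by
        have u1 : x₁ + q.1 + (n + 1) * q.2 + ((1 : ℕ) : ℂ) * w + 1 =
            x₁ + q.1 + ((n + 1 : ℕ) : ℂ) * (w + q.2) := by
          push_cast; linear_combination -wn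
        have u2 : x₁ + q.1 + (n + 1) * q.2 + ((1 : ℕ) : ℂ) * w =
            x₁ + (q.1 + n * q.2) + ((1 : ℕ) : ℂ) * (w + q.2) := by push_cast; ring
        simp only [u1] at h3
        simp only [u2] at h3
        exact h3
      rw [e2, e3]
      simp)
  have c₀ : ContinuousAt Ψ (s₀, 0) :=
    (aΨ _ ⟨mem_ball_self hρ', mem_ball_self hρ'⟩).continuousAt
  have m₀ : (s₀ : ℂ) ∈ ball (0 : ℂ) σ := sub (mem_ball_self hρ')
  have v₀ : Ψ (s₀, 0) = (G 0 (x₁ + s₀), G 1 (x₁ + s₀)) := by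
    haveI : (𝓝[{z : ℂ | z.im < 0}] (s₀ : ℂ)).NeBot :=
      mem_closure_iff_nhdsWithin_neBot.1 (by rw [closure_setOf_im_lt]; simp)
    have t1 : Tendsto (fun s : ℂ => Ψ (s, 0)) (𝓝[{z : ℂ | z.im < 0}] (s₀ : ℂ)) (𝓝 (Ψ (s₀, 0))) :=
      (c₀.tendsto.comp (Continuous.prodMk_left (0 : ℂ)).continuousAt.tendsto).mono_left
        nhdsWithin_le_nhds
    have t2 := ((aG 0 (by omega) _ m₀).prod (aG 1 (by omega) _ m₀)).continuousAt.tendsto.mono_left
      (nhdsWithin_le_nhds (s := {z : ℂ | z.im < 0}))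
    refine tendsto_nhds_unique_of_eventuallyEq t1 t2 ?_
    filter_upwards [self_mem_nhdsWithin, mem_nhdsWithin_of_mem_nhds (ball_mem_nhds _ hρ')]
      with s h1 h2
    have k : x₁ + s ∈ ball x₀ ρ ∩ Strip T := ⟨(ev s (sub h2)).1.1, ms s (sub h2) h1⟩
    rw [(eΨ s h2 h1).self_of_nhds, (hG 0 (by omega)).2.2 k, (hG 1 (by omega)).2.2 k]
    simp only [hb, add_zero, wj]
  have : ∀ᶠ q in 𝓝 (((s₀ : ℂ), 0) : ℂ × ℂ), Ψ q ∈ Strip r ×ˢ Strip r :=
    c₀.eventually (((sopen r).prod (sopen r)).mem_nhds (by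
      rw [v₀]
      exact ⟨(hG 0 (by omega)).2.1 (ev _ m₀).1.1, (hG 1 (by omega)).2.1 (ev _ m₀).1.1⟩))
  obtain ⟨τ, hτ, mτ⟩ := Metric.eventually_nhds_iff_ball.1 this
  have tr : ∀ τ' : ℝ, min ρ' τ ≤ τ' → ∀ q ∈ ball (x₁ + s₀) (min ρ' τ) ×ˢ ball w (min ρ' τ),
      ((q.1 - x₁, q.2 - w) : ℂ × ℂ) ∈ ball (s₀ : ℂ) τ' ×ˢ ball (0 : ℂ) τ' := fun τ' h q hq => by
    have h1 := hq.1
    have h2 := hq.2
    rw [mem_ball, dist_eq_norm] at h1 h2
    refine ⟨?_, ?_⟩
    · rw [mem_ball, dist_eq_norm, sub_sub]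
      exact h1.trans_le h
    · rw [mem_ball, dist_eq_norm, sub_zero]
      exact h2.trans_le h
  have aa' : ∀ q ∈ ball (x₁ + s₀) (min ρ' τ) ×ˢ ball w (min ρ' τ),
      AnalyticAt ℂ (fun q : ℂ × ℂ => Ψ (q.1 - x₁, q.2 - w)) q := fun q hq =>
    (aΨ _ (tr _ (min_le_left _ _) q hq)).comp_of_eq
      (f := fun q : ℂ × ℂ => ((q.1 - x₁, q.2 - w) : ℂ × ℂ))
      ((analyticAt_fst.sub analyticAt_const).prod (analyticAt_snd.sub analyticAt_const)) rfl
  have mm : ∀ q ∈ ball (x₁ + s₀) (min ρ' τ) ×ˢ ball w (min ρ' τ),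
      Ψ (q.1 - x₁, q.2 - w) ∈ Strip r ×ˢ Strip r := fun q hq =>
    mτ _ (by rw [← ball_prod_same]; exact tr _ (min_le_right _ _) q hq)
  refine ⟨x₁ + s₀, min ρ' τ, fun q => (Ψ (q.1 - x₁, q.2 - w)).1,
    fun q => (Ψ (q.1 - x₁, q.2 - w)).2, by simp [i₁], lt_min hρ' hτ,
    fun q hq => analyticAt_fst.comp (aa' q hq), fun q hq => analyticAt_snd.comp (aa' q hq),
    fun q hq => (mm q hq).1, fun q hq => (mm q hq).2, fun x hx => ?_⟩
  have k := tr _ (min_le_left _ _) (x, w) ⟨hx.1, mem_ball_self (lt_min hρ' hτ)⟩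
  have hi : (x - x₁).im < 0 := by
    have := (abs_lt.1 (show |x.im| < T from hx.2)).2
    rw [sub_im, i₁]
    linarith
  have t : Tendsto (fun q : ℂ × ℂ => ((q.1 - x₁, q.2 - w) : ℂ × ℂ)) (𝓝 (x, w)) (𝓝 (x - x₁, 0)) := by
    have : Continuous fun q : ℂ × ℂ => ((q.1 - x₁, q.2 - w) : ℂ × ℂ) := by fun_prop
    simpa using this.tendsto (x, w)
  have e := t.eventually (eΨ _ k.1 hi)
  constructor
  · filter_upwards [e] with q hq
    rw [hq]
    simp [hb]
  · filter_upwards [e] with q hq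
    rw [hq]
    simp [hb]

end Vale.Agent.P097Top
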