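import Vale.Agent.P097Top.Defs
import Vale.Agent.P097T.SVert

/-!
# P097Top: the real vertex map and the real law (row RL)
-/

set_option linter.all false

noncomputable section

namespace Vale.Agent.P097Top

open Filter Topology Set Metric Complex Vale.Agent.P097 Vale.Agent.P097T

namespace Rl

theorem mem_strip {r : ℝ} (hr : 0 < r) (x : ℝ) : Strip r ∈ 𝓝 (x : ℂ) :=
  (isOpen_lt (continuous_abs.comp continuous_im) continuous_const).mem_nhds
    (by simpa using hr)

/-- the chord in the frame of the point with normal angle `a` -/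
theorem chord (h : ℝ → ℝ) (a c : ℝ) (L : ℂ)
    (e : bdry h c = bdry h a + L * exp (a * I)) :
    h c * Real.cos (c - a) - deriv h c * Real.sin (c - a) - h a = L.re ∧
      h c * Real.sin (c - a) + deriv h c * Real.cos (c - a) - deriv h a = L.im := by
  have e1 : exp ((c : ℂ) * I) = exp (((c - a : ℝ) : ℂ) * I) * exp (a * I) := by
    rw [← exp_add]; congr 1; push_cast; ring
  have e2 : ((h c : ℂ) + (deriv h c : ℝ) * I) * exp (((c - a : ℝ) : ℂ) * I) =
      (h a : ℂ) + (deriv h a : ℝ) * I + L := by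
    apply mul_right_cancel₀ (exp_ne_zero ((a : ℂ) * I))
    unfold bdry at e
    rw [e1] at e
    linear_combination e
  have e3 := congrArg re e2
  have e4 := congrArg im e2
  simp only [mul_re, mul_im, add_re, add_im, ofReal_re, ofReal_im, I_re, I_im,
    exp_ofReal_mul_I_re, exp_ofReal_mul_I_im] at e3 e4
  constructor <;> linarith

variable {h : ℝ → ℝ} {ε : ℝ} {ψ δ : ℝ × ℝ → ℝ} {r c : ℝ} {θ H Q : ℂ → ℂ}

theorem dp (C : Cur r c θ H Q) (A : Agr h ψ θ H) (x : ℝ) :
    HasDerivAt (fun s : ℝ => ψ (s, 0)) (deriv θ x).re x ∧ deriv θ x = ((deriv θ x).re : ℝ) := by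
  have d : HasDerivAt θ (deriv θ x) x :=
    (C.dθ.differentiableAt (mem_strip C.rpos x)).hasDerivAt
  have d1 : HasDerivAt (fun s : ℝ => ψ (s, 0)) (deriv θ x).re x := by
    have := d.real_of_complex
    simpa only [(A _).1, ofReal_re] using this
  refine ⟨d1, ?_⟩
  have d2 := d.comp_ofReal
  simp only [(A _).1] at d2
  exact d2.unique d1.ofReal_comp

theorem dH (N : Gm.NF h ε ψ δ) (C : Cur r c θ H Q) (A : Agr h ψ θ H) (x : ℝ) :
    deriv H x = (deriv h (ψ (x, 0)) : ℝ) * deriv θ x := by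
  have d : HasDerivAt H (deriv H x) x :=
    (C.dH.differentiableAt (mem_strip C.rpos x)).hasDerivAt
  have d2 := d.comp_ofReal
  simp only [(A _).2] at d2
  have d3 := ((N.tab.1 (ψ (x, 0))).differentiableAt.hasDerivAt.comp x (dp C A x).1).ofReal_comp
  rw [d2.unique d3, ofReal_mul, ← (dp C A x).2]

theorem pt (N : Gm.NF h ε ψ δ) (C : Cur r c θ H Q) (A : Agr h ψ θ H) {y a : ℝ}
    (e : θ y = a) : H y = (h a : ℝ) ∧ deriv H y = (deriv h a : ℝ) * deriv θ y ∧
      deriv θ y ≠ 0 ∧ fZ θ H y = deriv θ y * bdry h a ∧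
      fW θ H y = deriv θ y * (starRingEnd ℂ) (bdry h a) := by
  have e0 : ψ (y, 0) = a := ofReal_injective ((A y).1.symm.trans e)
  have e1 : H y = (h a : ℝ) := by rw [(A y).2, e0]
  have e2 : deriv H y = (deriv h a : ℝ) * deriv θ y := by rw [dH N C A y, e0]
  refine ⟨e1, e2, fun k => ?_, ?_, ?_⟩
  · have := C.pos y
    rw [k] at this
    exact lt_irrefl _ this
  · rw [fZ, e, e1, e2, bdry]; ring
  · rw [fW, e, e1, e2, bdry]
    simp only [map_mul, map_add, conj_ofReal, conj_I, ← exp_conj, mul_neg]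
    ring

theorem ab (N : Gm.NF h ε ψ δ) (C : Cur r c θ H Q) (A : Agr h ψ θ H) {y z a b : ℝ}
    (ey : θ y = a) (ez : θ z = b) {L : ℂ} (e : bdry h b = bdry h a + L * exp (a * I)) :
    aa θ H y z = deriv θ z * (L.re : ℝ) ∧ bb θ H y z = deriv θ y * deriv θ z * (L.im : ℝ) := by
  obtain ⟨y1, y2, -⟩ := pt N C A ey
  obtain ⟨z1, z2, -⟩ := pt N C A ez
  obtain ⟨c1, c2⟩ := chord h a b L e
  rw [← c1, ← c2, aa, bb, ey, ez, y1, y2, z1, z2]
  push_cast
  constructor <;> ring

end Rl

open Rl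

/-- **RL** -/
theorem rl : Spec_RL := by
  intro h ε ψ δ r c θ H Q N C A
  refine ⟨fun a b e => ?_, fun x w u y v h0 h1 eu ey ev => ?_⟩
  · have m : StrictMono fun s : ℝ => ψ (s, 0) :=
      strictMono_of_deriv_pos fun s => by rw [(Rl.dp C A s).1.deriv]; exact C.pos s
    refine m.injective (ofReal_injective ?_)
    rw [← (A a).1, ← (A b).1, e]
  obtain ⟨-, -, y3, y4, y5⟩ := pt N C A ey
  obtain ⟨-, -, v3, v4, v5⟩ := pt N C A ev
  obtain ⟨-, -, p1, p2, p3, l, hl, p4⟩ := N.step x w h0 h1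
  obtain ⟨-, -, -, -, m3, l', -, m4⟩ := N.step (x - w) w h0 h1
  rw [sub_add_cancel] at m3 m4
  refine ⟨?_, ?_, ?_, ?_, fun k e => k ?_⟩
  · obtain ⟨a1, b1⟩ := ab N C A ey ev (L := l * (I * exp (δ (x, w) * I))) (by
      rw [p4, ofReal_add, add_mul, exp_add]; ring)
    obtain ⟨a2, b2⟩ := ab N C A ey eu (L := -(l' * (I * exp ((-δ (x, w) : ℝ) * I)))) (by
      have : exp (((ψ (x - w, w) + δ (x - w, w) : ℝ) : ℂ) * I) =
          exp ((-δ (x, w) : ℝ) * I) * exp (ψ (x, w) * I) := by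
        rw [← exp_add, m3]; congr 1; push_cast; ring
      rw [m4, this]; ring)
    rw [law, a1, b1, a2, b2]
    simp only [neg_re, neg_im, mul_re, mul_im, ofReal_re, ofReal_im, I_re, I_im,
      exp_ofReal_mul_I_re, exp_ofReal_mul_I_im, Real.cos_neg, Real.sin_neg]
    push_cast
    ring
  · rw [v5, y5]
    intro k
    have k1 : deriv θ v * deriv θ y * ((starRingEnd ℂ) (bdry h (ψ (x + w, w))) -
        (starRingEnd ℂ) (bdry h (ψ (x, w)))) = 0 := by linear_combination k
    have k2 := (starRingEnd ℂ).injective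
      (sub_eq_zero.1 ((mul_eq_zero.1 k1).resolve_left (mul_ne_zero v3 y3)))
    rw [p4, add_eq_left] at k2
    exact mul_ne_zero (ofReal_ne_zero.2 hl.ne') (mul_ne_zero I_ne_zero (exp_ne_zero _)) k2
  · have a := Out.Vert.line h (ψ (x, w)) (δ (x, w))
    rw [y4, y5]
    simp only [Gm.la, Gm.lb, Gm.lp, Gm.lφ, Out.Vert.lin_eq]
    linear_combination deriv θ y * a
  · have a := Out.Vert.second N (x := x + w) h0 h1
    rw [show x + w - w / 2 = x + w / 2 by ring] at a
    rw [v4, v5]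
    simp only [Out.vW, Out.vZ] at a
    linear_combination deriv θ v * a
  · simp only [Gm.la, Gm.lφ, Out.Vert.lin_eq, neg_inj, ← exp_nat_mul] at e
    obtain ⟨n, hn⟩ := exp_eq_exp_iff_exists_int.1 e
    have := congrArg im hn
    simp at this
    have k0 : 2 * δ (x + w, w) = (-n : ℤ) * Real.pi := by push_cast; linarith
    have k1 : (0 : ℝ) < (-n : ℤ) := (mul_pos_iff_of_pos_right Real.pi_pos).1 (by linarith)
    have k2 : ((-n : ℤ) : ℝ) < 2 := lt_of_mul_lt_mul_right (by linarith) Real.pi_pos.le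
    have k1 : 0 < -n := by exact_mod_cast k1
    have k2 : -n < 2 := by exact_mod_cast k2
    have k3 : -n = 1 := by omega
    rw [k3] at k0
    push_cast at k0
    linarith

end Vale.Agent.P097Top
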