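import Vale.Agent.P097Top.Defs

/-!
# P097Top: the maximal continuation along a leaf
-/

set_option linter.all false

noncomputable section

namespace Vale.Agent.P097Top

open Filter Topology Set Metric Complex Vale.Agent.P097 Vale.Agent.P097T

namespace Sup2

variable {θ : ℂ → ℂ} {ψ : ℝ × ℝ → ℝ} {r w₀ T T' : ℝ} {Y Y' : ℂ × ℂ → ℂ}

theorem conv (T : ℝ) : Convex ℝ (Strip T) := by
  have : Strip T = {z : ℂ | -T < z.im} ∩ {z | z.im < T} := Set.ext fun z =>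
    abs_lt (a := z.im)
  rw [this]
  exact (convex_halfSpace_im_gt _).inter (convex_halfSpace_im_lt _)

theorem uniq (G : Spec_GERM) (inj : ∀ a b : ℝ, θ a = θ b → a = b) (a : Lf2 θ ψ r w₀ T Y)
    (b : Lf2 θ ψ r w₀ T' Y') {x : ℂ} (h : |x.im| < T) (h' : |x.im| < T') :
    Y =ᶠ[𝓝 (x, (w₀ : ℂ))] Y' := by
  refine G Y Y' (Strip (min T T')) w₀ 0 (conv _).isPreconnected
    (show |((0 : ℝ) : ℂ).im| < _ by simpa using ⟨a.pos, b.pos⟩)
    (fun z hz => ⟨a.an z (lt_min_iff (a := |z.im|).1 hz).1, b.an z (lt_min_iff (a := |z.im|).1 hz).2⟩)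
    ?_ x (lt_min h h')
  filter_upwards [a.re 0, b.re 0] with q c d
  have e : ∀ z : ℂ, z.im = 0 → ((z.re : ℝ) : ℂ) = z := fun z hz => Complex.ext rfl hz.symm
  have f := inj (Y (q.1, q.2)).re (Y' (q.1, q.2)).re (by rw [e _ c.1, e _ d.1, c.2, d.2])
  rw [← e _ c.1, ← e _ d.1, f]

theorem glue (G : Spec_GERM) (inj : ∀ a b : ℝ, θ a = θ b → a = b) (s : ℕ → ℝ)
    (H : ∀ k, ∃ T, (∃ Y, Lf2 θ ψ r w₀ T Y) ∧ s k < T) :
    ∃ Y, ∀ T, 0 < T → (∀ t < T, ∃ k, t < s k) → Lf2 θ ψ r w₀ T Y := by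
  classical
  choose T h1 h2 using H
  choose Y hY using h1
  let κ : ℂ → ℕ := fun x => if h : ∃ k, |x.im| < s k then Nat.find h else 0
  have key : ∀ (x : ℂ) (k : ℕ), |x.im| < s k →
      (fun q : ℂ × ℂ => Y (κ q.1) q) =ᶠ[𝓝 (x, (w₀ : ℂ))] Y k := fun x k hk => by
    have c : ContinuousAt (fun q : ℂ × ℂ => |q.1.im|) (x, w₀) := by fun_prop
    have a : ∀ j ∈ Finset.range (k + 1), ∀ᶠ q : ℂ × ℂ in 𝓝 (x, (w₀ : ℂ)),
        |q.1.im| < s j → Y j q = Y k q := fun j _ => by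
      rcases lt_or_ge |x.im| (T j) with e | e
      · exact (uniq G inj (hY j) (hY k) e (hk.trans (h2 k))).mono fun q a _ => a
      · exact (c.eventually (lt_mem_nhds ((h2 j).trans_le e))).mono fun q a b => (a.asymm b).elim
    filter_upwards [(Finset.eventually_all _).2 a, c.eventually (gt_mem_nhds hk)] with q a b
    have b' : ∃ k, |q.1.im| < s k := ⟨k, b⟩
    have e : κ q.1 = Nat.find b' := dif_pos b'
    rw [e]
    exact a _ (Finset.mem_range.2 (Nat.lt_succ_of_le (Nat.find_min' _ b))) (Nat.find_spec b')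
  refine ⟨fun q => Y (κ q.1) q, fun S S0 hS => ⟨S0, fun x hx => ?_, fun x hx => ?_, fun x => ?_⟩⟩
  · obtain ⟨k, hk⟩ := hS _ hx
    exact ((hY k).an x (hk.trans (h2 k))).congr (key x k hk).symm
  · obtain ⟨k, hk⟩ := hS _ hx
    exact (key x k hk).eq_of_nhds ▸ (hY k).mem x (hk.trans (h2 k))
  · obtain ⟨k, hk⟩ := hS 0 S0
    have t : Tendsto (fun q : ℝ × ℝ => ((q.1 : ℂ), (q.2 : ℂ))) (𝓝 (x, w₀)) (𝓝 (x, w₀)) :=
      Continuous.tendsto (by fun_prop) _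
    filter_upwards [(hY k).re x, t.eventually (key x k (by simpa using hk))] with q a b
    exact b ▸ a

end Sup2

open Sup2 in
theorem sup2 (RL : Spec_RL) (G : Spec_GERM) (_ : Spec_LF2F) : Spec_SUP2 := by
  intro h ε ψ δ r c w₀ T₀ θ H Q Y₀ N C A w0 w1 L
  have inj := (RL h ε ψ δ r c θ H Q N C A).1
  by_cases hb : BddAbove {T | ∃ Y, Lf2 θ ψ r w₀ T Y}
  · obtain ⟨Y, hY⟩ := glue G inj (fun k => sSup {T | ∃ Y, Lf2 θ ψ r w₀ T Y} - 1 / (k + 1)) fun k =>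
      exists_lt_of_lt_csSup ⟨T₀, Y₀, L⟩ (sub_lt_self _ Nat.one_div_pos_of_nat)
    refine ⟨_, Y, hY _ (L.pos.trans_le (le_csSup hb ⟨Y₀, L⟩)) fun t ht => ?_,
      fun T' Y' a b => a.not_ge (le_csSup hb ⟨Y', b⟩)⟩
    exact (exists_nat_one_div_lt (sub_pos.2 ht)).imp fun k hk => lt_sub_comm.1 hk
  obtain ⟨Y, hY⟩ := glue G inj (fun k => k) fun k => not_bddAbove_iff.1 hb k
  have hY' : ∀ x : ℂ, Lf2 θ ψ r w₀ (|x.im| + 1) Y := fun x =>
    hY _ (by positivity) fun t _ => exists_nat_gt t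
  have m : ∀ x : ℂ, r ≤ ‖Y (x, w₀) - 2 * r * I‖ := fun x => by
    have a : |(Y (x, w₀)).im| < r := (hY' x).mem x (lt_add_one |x.im|)
    refine le_trans ?_ (abs_im_le_norm _)
    rw [le_abs]
    right
    simp only [sub_im, mul_im, mul_re, re_ofNat, ofReal_re, im_ofNat, ofReal_im, I_im, I_re]
    linarith [(abs_lt.1 a).2]
  have d : Differentiable ℂ fun x : ℂ => (Y (x, w₀) - 2 * r * I)⁻¹ := fun x =>
    ((((hY' x).an x (lt_add_one |x.im|)).comp_of_eq (analyticAt_id.prod analyticAt_const)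
      rfl).differentiableAt.sub_const _).inv (norm_pos_iff.1 (C.rpos.trans_le (m x)))
  have e := d.apply_eq_apply_of_bounded (isBounded_iff_forall_norm_le.2 ⟨r⁻¹, by
    rintro _ ⟨x, rfl⟩
    rw [norm_inv]
    exact inv_anti₀ C.rpos (m x)⟩) ((0 + 1 : ℝ) : ℂ) ((0 : ℝ) : ℂ)
  rw [inv_inj, sub_left_inj] at e
  have e1 := (L.re (0 + 1)).self_of_nhds.2
  have e2 := ((hY' 0).re (0 + 1)).self_of_nhds.2
  have e3 := ((hY' 0).re 0).self_of_nhds.2
  have e4 := (N.per (0, w₀) (abs_lt.2 ⟨by linarith, w1⟩)).1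
  simp only at e2 e3 e4
  rw [e, e3, ofReal_inj, e4] at e2
  exact absurd e2 (by linarith [Real.pi_pos])

end Vale.Agent.P097Top
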