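import Vale.Agent.P097Top.Defs

/-!
# P097Top: the bidisc gives a tube for the lines (`Spec_TUBE`)
-/

set_option linter.all false

noncomputable section

namespace Vale.Agent.P097Top

open Filter Topology Set Metric Complex Vale.Agent.P097 Vale.Agent.P097T

namespace TubeP

theorem isOpen_St (r : ℝ) : IsOpen (Strip r) :=
  isOpen_lt (continuous_abs.comp continuous_im) continuous_const

theorem convex_St (r : ℝ) : Convex ℝ (Strip r) := by
  have : Strip r = Complex.imLm ⁻¹' (Ioo (-r) r) := by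
    ext z
    simp [Strip, abs_lt]
  rw [this]
  exact (convex_Ioo _ _).linear_preimage Complex.imLm

theorem real_mem {T : ℝ} (hT : 0 < T) (x : ℝ) : (x : ℂ) ∈ Strip T := by
  simpa [Strip] using hT

theorem patch {Y F : ℂ × ℂ → ℂ} {r T ρ : ℝ} {w x₁ : ℂ} (hρ : 0 < ρ)
    (hY : ∀ s ∈ Strip T, AnalyticAt ℂ Y (s, w) ∧ Y (s, w) ∈ Strip r)
    (hF : AnalyticOnNhd ℂ F (ball x₁ ρ ×ˢ ball w ρ)) (mF : MapsTo F (ball x₁ ρ ×ˢ ball w ρ) (Strip r))
    (ag : ∀ s ∈ ball x₁ ρ ∩ Strip T, F =ᶠ[𝓝 (s, w)] Y) :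
    ∃ y : ℂ × ℂ → ℂ, (∀ s ∈ Strip T ∪ ball x₁ (ρ / 2), AnalyticAt ℂ y (s, w) ∧ y (s, w) ∈ Strip r) ∧
      ∀ s ∈ Strip T, y =ᶠ[𝓝 (s, w)] Y := by
  classical
  let y : ℂ × ℂ → ℂ := fun q => if q.1 ∈ ball x₁ (ρ / 2) then F q else Y q
  have h1 : ∀ s ∈ Strip T, y =ᶠ[𝓝 (s, w)] Y := by
    intro s hs
    by_cases hb : s ∈ ball x₁ ρ
    · filter_upwards [ag s ⟨hb, hs⟩] with q hq
      simp only [y]
      split_ifs
      · exact hq
      · rfl
    · have o : IsOpen (Prod.fst ⁻¹' (closedBall x₁ (ρ / 2))ᶜ : Set (ℂ × ℂ)) :=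
        isClosed_closedBall.isOpen_compl.preimage continuous_fst
      filter_upwards [o.mem_nhds (x := (s, w))
        fun k => hb (closedBall_subset_ball (by linarith) k)] with q hq
      exact if_neg fun k => hq (ball_subset_closedBall k)
  refine ⟨y, fun s hs => ?_, h1⟩
  rcases hs with hs | hs
  · exact ⟨(hY s hs).1.congr (h1 s hs).symm, by rw [(h1 s hs).eq_of_nhds]; exact (hY s hs).2⟩
  · have m : (s, w) ∈ ball x₁ ρ ×ˢ ball w ρ :=
      ⟨ball_subset_ball (by linarith) hs, mem_ball_self hρ⟩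
    have e : y =ᶠ[𝓝 (s, w)] F := by
      have o : IsOpen (Prod.fst ⁻¹' ball x₁ (ρ / 2) : Set (ℂ × ℂ)) :=
        isOpen_ball.preimage continuous_fst
      filter_upwards [o.mem_nhds (x := (s, w)) hs] with q hq
      exact if_pos hq
    exact ⟨(hF _ m).congr e.symm, by rw [e.eq_of_nhds]; exact mF m⟩

variable {r c : ℝ} {θ H Q : ℂ → ℂ}

theorem an_g (C : Cur r c θ H Q) {y : ℂ} (hy : y ∈ Strip r) : AnalyticAt ℂ (deriv θ) y :=
  (C.dθ.analyticAt ((isOpen_St r).mem_nhds hy)).deriv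

theorem an_Z (C : Cur r c θ H Q) {y : ℂ} (hy : y ∈ Strip r) : AnalyticAt ℂ (fZ θ H) y := by
  have h1 := C.dθ.analyticAt ((isOpen_St r).mem_nhds hy)
  have h2 := C.dH.analyticAt ((isOpen_St r).mem_nhds hy)
  exact ((h1.deriv.mul h2).add (h2.deriv.mul analyticAt_const)).mul
    (h1.mul analyticAt_const).cexp

theorem an_W (C : Cur r c θ H Q) {y : ℂ} (hy : y ∈ Strip r) : AnalyticAt ℂ (fW θ H) y := by
  have h1 := C.dθ.analyticAt ((isOpen_St r).mem_nhds hy)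
  have h2 := C.dH.analyticAt ((isOpen_St r).mem_nhds hy)
  exact ((h1.deriv.mul h2).sub (h2.deriv.mul analyticAt_const)).mul
    (h1.mul analyticAt_const).neg.cexp

/-- The determinant. -/
def DD (θ H : ℂ → ℂ) (y v : ℂ) : ℂ := fW θ H v * deriv θ y - fW θ H y * deriv θ v

/-- The slope of the line through two points. -/
def AA (θ H : ℂ → ℂ) (y v : ℂ) : ℂ := (fZ θ H v * deriv θ y - fZ θ H y * deriv θ v) / DD θ H y v

/-- The intercept of the line through two points. -/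
def BB (θ H : ℂ → ℂ) (y v : ℂ) : ℂ := (fZ θ H y * fW θ H v - fZ θ H v * fW θ H y) / DD θ H y v

theorem an_D (C : Cur r c θ H Q) {y v : ℂ × ℂ → ℂ} {q : ℂ × ℂ} (hy : AnalyticAt ℂ y q)
    (hv : AnalyticAt ℂ v q) (my : y q ∈ Strip r) (mv : v q ∈ Strip r) :
    AnalyticAt ℂ (fun p => DD θ H (y p) (v p)) q :=
  (((an_W C mv).comp hv).mul ((an_g C my).comp hy)).sub
    (((an_W C my).comp hy).mul ((an_g C mv).comp hv))

theorem an_AB (C : Cur r c θ H Q) {y v : ℂ × ℂ → ℂ} {q : ℂ × ℂ} (hy : AnalyticAt ℂ y q)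
    (hv : AnalyticAt ℂ v q) (my : y q ∈ Strip r) (mv : v q ∈ Strip r)
    (hD : DD θ H (y q) (v q) ≠ 0) :
    AnalyticAt ℂ (fun p => AA θ H (y p) (v p)) q ∧ AnalyticAt ℂ (fun p => BB θ H (y p) (v p)) q :=
  ⟨((((an_Z C mv).comp hv).mul ((an_g C my).comp hy)).sub
      (((an_Z C my).comp hy).mul ((an_g C mv).comp hv))).div (an_D C hy hv my mv) hD,
    ((((an_Z C my).comp hy).mul ((an_W C mv).comp hv)).sub
      (((an_Z C mv).comp hv).mul ((an_W C my).comp hy))).div (an_D C hy hv my mv) hD⟩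

theorem solve {y v a b : ℂ} (hD : DD θ H y v ≠ 0) (h1 : fZ θ H y = a * fW θ H y + b * deriv θ y)
    (h2 : fZ θ H v = a * fW θ H v + b * deriv θ v) : AA θ H y v = a ∧ BB θ H y v = b := by
  unfold AA BB
  rw [div_eq_iff hD, div_eq_iff hD, h1, h2]
  unfold DD
  constructor <;> ring

theorem real_of {z : ℂ} (h : z.im = 0) : ((z.re : ℝ) : ℂ) = z := by
  apply Complex.ext <;> simp [h]

/-- The tube lemma for a vertical segment. -/
theorem tube_seg {O : Set (ℂ × ℂ)} (hU : IsOpen O) {x₀ T : ℝ} {w : ℂ} (hT : 0 ≤ T)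
    (h : ∀ t ∈ Icc 0 T, ((x₀ : ℂ) + (t : ℝ) * I, w) ∈ O) :
    ∃ d, 0 < d ∧ U.Rect x₀ d (T + d) ×ˢ ball w d ⊆ O := by
  have hK : IsCompact ((fun t : ℝ => ((x₀ : ℂ) + t * I, w)) '' Icc 0 T) :=
    isCompact_Icc.image (by fun_prop)
  obtain ⟨d, hd, k⟩ := hK.exists_thickening_subset_open hU (by
    rintro _ ⟨t, ht, rfl⟩
    exact h t ht)
  refine ⟨d / 2, by linarith, fun q hq => k ?_⟩
  obtain ⟨⟨h1, h2, h3⟩, h4⟩ := hq
  rw [mem_thickening_iff]
  refine ⟨_, ⟨max 0 (min q.1.im T), ⟨le_max_left _ _, max_le hT (min_le_right _ _)⟩, rfl⟩, ?_⟩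
  rw [Prod.dist_eq, max_lt_iff]
  refine ⟨?_, (mem_ball.1 h4).trans (by linarith)⟩
  rw [dist_eq_norm]
  refine (Complex.norm_le_abs_re_add_abs_im _).trans_lt ?_
  have h5 : |q.1.im - max 0 (min q.1.im T)| < d / 2 := by
    rw [abs_lt]
    rcases le_total q.1.im T with k1 | k1
    · rw [min_eq_left k1]
      rcases le_total 0 q.1.im with k2 | k2
      · rw [max_eq_right k2]
        constructor <;> linarith
      · rw [max_eq_left k2]
        constructor <;> linarith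
    · rw [min_eq_right k1, max_eq_right hT]
      constructor <;> linarith
  simp only [sub_re, add_re, ofReal_re, mul_re, I_re, mul_zero, ofReal_im, I_im, mul_one, sub_self,
    add_zero, sub_im, add_im, mul_im, zero_add]
  linarith

end TubeP

open TubeP

theorem tube1 (RL : Spec_RL) : Spec_TUBE := by
  intro h ε ψ δ r c w₀ T ρ θ H Q Y F₀ F₁ x₁ N C G w0 wε L hx hρ a0 a1 m0 m1 ag
  have hT := L.pos
  have sh : ∀ s ∈ Strip T, s + (w₀ : ℂ) ∈ Strip T := fun s hs => by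
    simpa [Strip] using hs
  obtain ⟨y, hy, ey⟩ := patch hρ (fun s hs => ⟨L.an s hs, L.mem s hs⟩) a0 m0
    fun s hs => (ag s hs).1
  obtain ⟨v, hv, ev⟩ := patch (Y := fun q => Y (q.1 + q.2, q.2)) hρ (fun s hs =>
    ⟨AnalyticAt.comp (f := fun q : ℂ × ℂ => (q.1 + q.2, q.2)) (L.an _ (sh s hs))
      ((analyticAt_fst.add analyticAt_snd).prod analyticAt_snd), L.mem _ (sh s hs)⟩) a1 m1
    fun s hs => (ag s hs).2
  have real : ∀ σ : ℝ, ∀ᶠ p : ℝ × ℝ in 𝓝 (σ, w₀), DD θ H (y (p.1, p.2)) (v (p.1, p.2)) ≠ 0 ∧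
      AA θ H (y (p.1, p.2)) (v (p.1, p.2)) = Gm.la ψ δ (p.1 + p.2 / 2, p.2) ∧
      BB θ H (y (p.1, p.2)) (v (p.1, p.2)) = Gm.lb h ψ δ (p.1 + p.2 / 2, p.2) := by
    intro σ
    have t0 : Tendsto (fun p : ℝ × ℝ => ((p.1 : ℂ), (p.2 : ℂ))) (𝓝 (σ, w₀))
        (𝓝 ((σ : ℂ), (w₀ : ℂ))) := Continuous.tendsto' (by fun_prop) _ _ rfl
    have t1 : Tendsto (fun p : ℝ × ℝ => (p.1 + p.2, p.2)) (𝓝 (σ, w₀)) (𝓝 (σ + w₀, w₀)) :=
      Continuous.tendsto' (by fun_prop) _ _ rfl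
    have t2 : Tendsto (fun p : ℝ × ℝ => (p.1 - p.2, p.2)) (𝓝 (σ, w₀)) (𝓝 (σ - w₀, w₀)) :=
      Continuous.tendsto' (by fun_prop) _ _ rfl
    have o : IsOpen (Prod.snd ⁻¹' Ioo 0 ε : Set (ℝ × ℝ)) := isOpen_Ioo.preimage continuous_snd
    filter_upwards [t0.eventually (ey σ (real_mem hT σ)), t0.eventually (ev σ (real_mem hT σ)),
      L.re σ, t1.eventually (L.re (σ + w₀)), t2.eventually (L.re (σ - w₀)),
      o.mem_nhds (x := (σ, w₀)) ⟨w0, wε⟩] with p e0 e1 r0 r1 r2 hp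
    have k := (RL h ε ψ δ r c θ H Q N C G).2 p.1 p.2 _ _ _ hp.1 hp.2
      (by rw [real_of r2.1]; exact r2.2) (by rw [real_of r0.1]; exact r0.2)
      (by rw [real_of r1.1]; exact r1.2)
    rw [real_of r0.1, real_of r1.1] at k
    rw [e0, e1]
    simp only [ofReal_add] at k
    exact ⟨k.2.1, solve k.2.1 k.2.2.1 k.2.2.2.1⟩
  let S : Set ℂ := Strip T ∪ ball x₁ (ρ / 2)
  have pS : IsPreconnected S := by
    have hm : 0 < min (ρ / 4) T := lt_min (by linarith) hT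
    refine IsPreconnected.union (x₁ - (min (ρ / 4) T : ℝ) * I) ?_ ?_ (convex_St T).isPreconnected
      (convex_ball _ _).isPreconnected
    · show |(x₁ - (min (ρ / 4) T : ℝ) * I).im| < T
      have := min_le_right (ρ / 4) T
      simp only [sub_im, mul_im, ofReal_re, I_im, mul_one, ofReal_im, I_re, mul_zero, add_zero, hx]
      rw [abs_lt]
      constructor <;> linarith
    · rw [mem_ball, dist_eq_norm, sub_sub_cancel_left, norm_neg, norm_mul, norm_I, mul_one,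
        norm_real, Real.norm_eq_abs, abs_of_pos hm]
      have := min_le_left (ρ / 4) T
      linarith
  have aD : AnalyticOnNhd ℂ (fun s => DD θ H (y (s, w₀)) (v (s, w₀))) S := fun s hs =>
    (an_D C (hy s hs).1 (hv s hs).1 (hy s hs).2 (hv s hs).2).comp
      (f := fun s : ℂ => (s, (w₀ : ℂ))) (analyticAt_id.prod analyticAt_const)
  have cZ : ({s | DD θ H (y (s, w₀)) (v (s, w₀)) = 0} ∩ S).Countable := by
    rcases aD.eqOn_zero_or_eventually_ne_zero_of_preconnected pS with k | k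
    · exact absurd (k (Or.inl (real_mem hT 0))) (real 0).self_of_nhds.1
    · exact (HereditarilyLindelofSpace.isLindelof _).countable_of_isDiscrete
        (isDiscrete_of_codiscreteWithin k)
  obtain ⟨σ, hσ, nσ⟩ := ((cZ.image Complex.re).dense_compl ℝ).inter_open_nonempty
    (ball x₁.re (ρ / 2)) isOpen_ball ⟨_, mem_ball_self (by linarith)⟩
  have mS : ∀ t ∈ Icc 0 T, (σ : ℂ) + (t : ℝ) * I ∈ S := by
    intro t ht
    rcases ht.2.lt_or_eq with k | k
    · left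
      show |((σ : ℂ) + (t : ℝ) * I).im| < T
      simpa [abs_of_nonneg ht.1] using k
    · right
      have : (σ : ℂ) + (t : ℝ) * I - x₁ = ((σ - x₁.re : ℝ) : ℂ) := by
        apply Complex.ext <;> simp [k, hx]
      rw [mem_ball, dist_eq_norm, this, norm_real]
      exact hσ
  let m : ℂ × ℂ → ℂ × ℂ := fun q => (q.1 - q.2 / 2, q.2)
  have am : ∀ q, AnalyticAt ℂ m q := fun q =>
    (analyticAt_fst.sub (analyticAt_snd.div_const)).prod analyticAt_snd
  let FA : ℂ × ℂ → ℂ := fun q => AA θ H (y (m q)) (v (m q))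
  let FB : ℂ × ℂ → ℂ := fun q => BB θ H (y (m q)) (v (m q))
  obtain ⟨d, hd, hU⟩ := tube_seg (O := {q | AnalyticAt ℂ FA q} ∩ {q | AnalyticAt ℂ FB q})
    ((isOpen_analyticAt ℂ FA).inter (isOpen_analyticAt ℂ FB)) (x₀ := σ + w₀ / 2) (w := w₀) hT.le (by
      intro t ht
      have e : m (((σ + w₀ / 2 : ℝ) : ℂ) + (t : ℝ) * I, (w₀ : ℂ)) = ((σ : ℂ) + (t : ℝ) * I, (w₀ : ℂ)) := by
        simp only [m]
        push_cast
        congr 1
        ring
      have k := an_AB C (hy _ (mS t ht)).1 (hv _ (mS t ht)).1 (hy _ (mS t ht)).2 (hv _ (mS t ht)).2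
        fun z => nσ ⟨_, ⟨z, mS t ht⟩, by simp⟩
      exact ⟨k.1.comp_of_eq (am _) e, k.2.comp_of_eq (am _) e⟩)
  have t3 : Tendsto (fun p : ℝ × ℝ => (p.1 - p.2 / 2, p.2)) (𝓝 (σ + w₀ / 2, w₀)) (𝓝 (σ, w₀)) :=
    Continuous.tendsto' (by fun_prop) _ _ (by simp)
  obtain ⟨e, he, hE⟩ := Metric.eventually_nhds_iff_ball.1 (t3.eventually (real σ))
  let η : ℝ := min (min d e) (min w₀ (ε - w₀))
  have η0 : 0 < η := lt_min (lt_min hd he) (lt_min w0 (by linarith))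
  have η1 : η ≤ d := (min_le_left _ _).trans (min_le_left _ _)
  have η2 : η ≤ e := (min_le_left _ _).trans (min_le_right _ _)
  have η3 : η ≤ w₀ := (min_le_right _ _).trans (min_le_left _ _)
  have η4 : η ≤ ε - w₀ := (min_le_right _ _).trans (min_le_right _ _)
  have sub : U.Rect (σ + w₀ / 2) η (T + η) ×ˢ ball (w₀ : ℂ) η ⊆
      {q | AnalyticAt ℂ FA q} ∩ {q | AnalyticAt ℂ FB q} := by
    refine Subset.trans (prod_mono ?_ (ball_subset_ball η1)) hU
    rintro z ⟨k1, k2, k3⟩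
    exact ⟨by linarith, by linarith, by linarith⟩
  have val : ∀ x w : ℝ, |x - (σ + w₀ / 2)| < η → |w - w₀| < η →
      FA (x, w) = Gm.la ψ δ (x, w) ∧ FB (x, w) = Gm.lb h ψ δ (x, w) := by
    intro x w k1 k2
    have k := (hE (x, w) (by
      rw [← ball_prod_same]
      exact ⟨k1.trans_le η2, k2.trans_le η2⟩)).2
    simp only [sub_add_cancel, ofReal_sub, ofReal_div, ofReal_ofNat] at k
    exact k
  exact ⟨σ + w₀ / 2, η, T + η, η, η0, by linarith, η0, η3, by linarith,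
    ⟨FA, fun q hq => (sub hq).1, fun x w k1 k2 => (val x w k1 k2).1⟩,
    ⟨FB, fun q hq => (sub hq).2, fun x w k1 k2 => (val x w k1 k2).2⟩⟩

theorem tube (RL : Spec_RL) (_ : Spec_GERM) : Spec_TUBE := tube1 RL

end Vale.Agent.P097Top
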