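import Vale.Agent.P097Top.Defs
import Vale.Agent.P097T.RF2
import Vale.Agent.P097.H407.Hol
import Vale.Agent.P097.H500.StripExt

/-!
# P097Top: two constants, from real leaves to a neighbourhood of the leaf (row **TWO**)
-/

set_option linter.all false

noncomputable section

namespace Vale.Agent.P097Top

open Filter Topology Set Metric Complex Vale.Agent.P097 Vale.Agent.P097T
open Vale.Agent.P097T.Out.RF2

namespace Two

/-- two constants on the upper half disc -/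
theorem half {a : ℂ → ℂ} {l C : ℝ} (hl : 0 ≤ l) (d : DifferentiableOn ℂ a (closedBall 0 1))
    (b1 : ∀ z ∈ closedBall (0 : ℂ) 1, ‖a z‖ ≤ C)
    (b2 : ∀ t : ℝ, |t| ≤ 1 → ‖a t‖ ≤ C * Real.exp (-l)) {z : ℂ} (hz : ‖z‖ ≤ 1) (h0 : 0 ≤ z.im) :
    ‖a z‖ ≤ C * Real.exp (-(l * (1 - 3 * ‖z‖))) := by
  have C0 : 0 ≤ C := (norm_nonneg _).trans (b1 0 (by simp))
  have cl : IsClosed (closedBall (0 : ℂ) 1 ∩ {z : ℂ | 0 ≤ z.im}) :=
    isClosed_closedBall.inter (isClosed_le continuous_const continuous_im)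
  have nm : ∀ y : ℂ, ‖a y * cexp (l * (1 + 2 * I * y - y ^ 2))‖ =
      ‖a y‖ * Real.exp (l * (1 - 2 * y.im - y.re ^ 2 + y.im ^ 2)) := fun y => by
    rw [norm_mul, norm_exp]
    congr 2
    simp [sq]
    ring_nf
    simp
  have sq' : ∀ y : ℂ, y.re ^ 2 + y.im ^ 2 = ‖y‖ ^ 2 := fun y => by
    rw [Complex.sq_norm, normSq_apply]; ring
  have key := norm_le_of_forall_mem_frontier_norm_le (C := C)
    (f := fun y => a y * cexp (l * (1 + 2 * I * y - y ^ 2)))
    (isBounded_closedBall.subset inter_subset_left)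
    (cl.diffContOnCl_iff.2 ((d.mono inter_subset_left).mul (by fun_prop))) (fun y hy => ?_)
    (subset_closure ⟨mem_closedBall_zero_iff.2 hz, h0⟩)
  · rw [nm] at key
    have e : l * (1 - 3 * ‖z‖) ≤ l * (1 - 2 * z.im - z.re ^ 2 + z.im ^ 2) := by
      refine mul_le_mul_of_nonneg_left ?_ hl
      nlinarith [sq' z, (le_abs_self _).trans (abs_im_le_norm z), norm_nonneg z]
    rw [Real.exp_neg, ← div_eq_mul_inv, le_div_iff₀ (Real.exp_pos _)]
    exact (mul_le_mul_of_nonneg_left (Real.exp_le_exp.2 e) (norm_nonneg _)).trans key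
  have m := cl.frontier_subset hy
  rw [nm]
  rcases frontier_inter_subset _ _ hy with k | k
  · have k1 := k.1
    rw [frontier_closedBall _ one_ne_zero, mem_sphere_zero_iff_norm] at k1
    have k2 : y.im ≤ 1 := k1 ▸ (le_abs_self _).trans (abs_im_le_norm y)
    have k3 : 0 ≤ y.im := m.2
    have k4 := sq' y
    rw [k1] at k4
    refine (mul_le_of_le_one_right (norm_nonneg _) (Real.exp_le_one_iff.2 ?_)).trans (b1 y m.1)
    exact mul_nonpos_of_nonneg_of_nonpos hl (by nlinarith)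
  · have k1 := k.2
    rw [frontier_setOfPred_le_im] at k1
    have k2 : y = y.re := Complex.ext rfl k1
    have k3 := b2 y.re ((abs_re_le_norm y).trans (mem_closedBall_zero_iff.1 m.1))
    rw [← k2, Real.exp_neg, ← div_eq_mul_inv, le_div_iff₀ (Real.exp_pos _)] at k3
    refine (mul_le_mul_of_nonneg_left (Real.exp_le_exp.2 ?_) (norm_nonneg _)).trans k3
    have k4 : y.im = 0 := k1
    rw [k4]
    nlinarith [sq_nonneg y.re]

/-- two constants on a disc -/
theorem disc {a : ℂ → ℂ} {w₀ ρ l C τ : ℝ} (hρ : 0 < ρ) (hl : 0 ≤ l) (hτ : τ ≤ 1)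
    (d : ∀ w ∈ closedBall (w₀ : ℂ) ρ, DifferentiableAt ℂ a w)
    (b1 : ∀ w ∈ closedBall (w₀ : ℂ) ρ, ‖a w‖ ≤ C)
    (b2 : ∀ t : ℝ, |t - w₀| ≤ ρ → ‖a t‖ ≤ C * Real.exp (-l)) {w : ℂ} (hw : ‖w - w₀‖ ≤ ρ * τ) :
    ‖a w‖ ≤ C * Real.exp (-(l * (1 - 3 * τ))) := by
  have C0 : 0 ≤ C := (norm_nonneg _).trans (b1 w₀ (by simp [hρ.le]))
  have main : ∀ σ : ℝ, |σ| = ρ → 0 ≤ ((w - w₀) / σ).im →
      ‖a w‖ ≤ C * Real.exp (-(l * (1 - 3 * τ))) := fun σ hσ h0 => by
    have σ0 : (σ : ℂ) ≠ 0 := ofReal_ne_zero.2 (abs_pos.1 (hσ ▸ hρ))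
    have mm : ∀ z ∈ closedBall (0 : ℂ) 1, (w₀ : ℂ) + σ * z ∈ closedBall (w₀ : ℂ) ρ := fun z hz => by
      simpa [hσ] using mul_le_of_le_one_right hρ.le (mem_closedBall_zero_iff.1 hz)
    have n : ‖(w - w₀) / σ‖ ≤ τ := by
      rwa [norm_div, norm_real, Real.norm_eq_abs, hσ, div_le_iff₀' hρ]
    have := half (a := fun z => a (w₀ + σ * z)) hl
      (fun z hz => ((d _ (mm z hz)).comp z (by fun_prop)).differentiableWithinAt)
      (fun z hz => b1 _ (mm z hz))
      (fun t ht => by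
        simpa using b2 (w₀ + σ * t) (by
          simpa [abs_mul, hσ] using mul_le_of_le_one_right hρ.le ht)) (n.trans hτ) h0
    rw [mul_div_cancel₀ _ σ0, add_sub_cancel] at this
    refine this.trans (mul_le_mul_of_nonneg_left (Real.exp_le_exp.2 ?_) C0)
    nlinarith
  rcases le_total 0 ((w - w₀) / ρ).im with h | h
  · exact main ρ (abs_of_pos hρ) h
  · refine main (-ρ) (by rw [abs_neg, abs_of_pos hρ]) ?_
    rw [ofReal_neg, div_neg, neg_im]
    linarith

theorem cts {G : ℂ → ℂ} {T s : ℝ} (hs : |s| < T) (d : DifferentiableOn ℂ G (Strip T)) :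
    Continuous fun x : ℝ => G (x + s * I) :=
  d.continuousOn.comp_continuous (by fun_prop) fun x => by simpa [Strip] using hs

theorem co_shift {G : ℂ → ℂ} {T s : ℝ} (hs : |s| < T) (d : DifferentiableOn ℂ G (Strip T))
    (p : ∀ z ∈ Strip T, G (z + 1) = G z) (k : ℤ) :
    ∫ x in (0 : ℝ)..1, E (-k) x * G (x + s * I) = Real.exp (-(2 * Real.pi * s * k)) * co G k := by
  rw [co, shift (H := fun z => E (-k) z * G z) hs ((E_diff _).differentiableOn.mul d)
    (fun z hz => by simp only [E_per, p z hz]), ← intervalIntegral.integral_const_mul]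
  refine intervalIntegral.integral_congr fun x _ => ?_
  simp only [E, ofReal_exp, ← mul_assoc, ← Complex.exp_add]
  congr 2
  push_cast
  linear_combination (2 * Real.pi * k * s) * I_mul_I

theorem conj_int (f : ℝ → ℂ) : (starRingEnd ℂ) (∫ x in (0 : ℝ)..1, f x) =
    ∫ x in (0 : ℝ)..1, (starRingEnd ℂ) (f x) := by
  simp only [intervalIntegral.integral_of_le zero_le_one, integral_conj]

theorem conj_E (k : ℤ) (x : ℝ) : (starRingEnd ℂ) (E k x) = E (-k) x := by
  simp only [E, ← exp_conj]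
  congr 1
  simp [map_ofNat]

/-- the coefficients of a real periodic function with bounded imaginary part -/
theorem cobd {G : ℂ → ℂ} {T s B M : ℝ} (hs : |s| < T) (s0 : 0 ≤ s)
    (d : DifferentiableOn ℂ G (Strip T))
    (p : ∀ z ∈ Strip T, G (z + 1) = G z) (re : ∀ x : ℝ, (G x).im = 0)
    (b : ∀ z ∈ Strip T, |(G z).im| ≤ B) (m : ℤ) (hM : ‖co G m‖ ≤ M) :
    ‖co G m‖ ≤ (2 * B + M) * Real.exp (-(2 * Real.pi * s * |(m : ℝ)|)) := by
  have c := cts hs d
  have cE : ∀ k, Continuous fun x : ℝ => E k x := fun k =>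
    (E_diff k).continuous.comp continuous_ofReal
  have e0 : (starRingEnd ℂ) (co G (-m)) = co G m := by
    rw [co, conj_int]
    refine intervalIntegral.integral_congr fun x _ => ?_
    simp only [map_mul, conj_E, neg_neg, conj_eq_iff_im.2 (re x)]
  have e1 := co_shift hs d p m
  have e2 := congrArg (starRingEnd ℂ) (co_shift hs d p (-m))
  rw [conj_int, map_mul, conj_ofReal, e0] at e2
  simp only [map_mul, conj_E, neg_neg] at e2
  have e3 := intervalIntegral.norm_integral_le_of_norm_le_const (a := 0) (b := 1) (C := 2 * B)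
    (f := fun x : ℝ => E (-m) x * G (x + s * I) - E (-m) x * (starRingEnd ℂ) (G (x + s * I)))
    fun x _ => by
      rw [← mul_sub, sub_conj, norm_mul, E_norm]
      simpa using b (x + s * I) (by simpa [Strip] using hs)
  rw [intervalIntegral.integral_sub (((cE _).fun_mul c).intervalIntegrable _ _)
    (((cE _).fun_mul (continuous_conj.comp' c)).intervalIntegrable _ _), e1, e2, ← sub_mul, norm_mul,
    ← ofReal_sub, norm_real, Real.norm_eq_abs] at e3
  simp only [Int.cast_neg, mul_neg, neg_neg, sub_zero, abs_one, mul_one] at e3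
  have n0 := norm_nonneg (co G m)
  have u0 : 0 ≤ 2 * Real.pi * s := by positivity
  have k1 : Real.exp (2 * Real.pi * s * |(m : ℝ)|) ≤
      |Real.exp (-(2 * Real.pi * s * m)) - Real.exp (2 * Real.pi * s * m)| + 1 := by
    rcases le_total 0 (m : ℝ) with h | h
    · rw [abs_of_nonneg h, abs_sub_comm]
      have := Real.exp_le_one_iff.2 (neg_nonpos.2 (mul_nonneg u0 h))
      linarith [le_abs_self (Real.exp (2 * Real.pi * s * m) - Real.exp (-(2 * Real.pi * s * m)))]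
    · rw [abs_of_nonpos h, mul_neg]
      have := Real.exp_le_one_iff.2 (mul_nonpos_of_nonneg_of_nonpos u0 h)
      linarith [le_abs_self (Real.exp (-(2 * Real.pi * s * m)) - Real.exp (2 * Real.pi * s * m))]
  rw [Real.exp_neg, ← div_eq_mul_inv, le_div_iff₀ (Real.exp_pos _)]
  nlinarith

theorem tube {H : ℂ × ℂ → ℂ} {w₀ : ℂ} (h : ∀ x ∈ uIcc (0 : ℝ) 1, AnalyticAt ℂ H (x, w₀)) :
    ∃ ρ > 0, ∀ w ∈ closedBall w₀ ρ, ∀ x ∈ uIcc (0 : ℝ) 1, AnalyticAt ℂ H (x, w) :=
  nhds_basis_closedBall.eventually_iff.1 (isCompact_uIcc.eventually_forall_of_forall_eventually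
    (P := fun (w : ℂ) (x : ℝ) => AnalyticAt ℂ H (x, w)) fun x hx =>
      (Continuous.tendsto' (f := fun q : ℂ × ℝ => ((q.2 : ℂ), q.1)) (by fun_prop) _ _ rfl).eventually
        (h x hx).eventually_analyticAt)

theorem bdd {F : Type} [NormedAddCommGroup F] {H : ℂ × ℂ → F} {w₀ : ℂ} {ρ : ℝ}
    (h : ∀ w ∈ closedBall w₀ ρ, ∀ x ∈ uIcc (0 : ℝ) 1, ContinuousAt H (x, w)) :
    ∃ M, ∀ w ∈ closedBall w₀ ρ, ∀ x ∈ uIcc (0 : ℝ) 1, ‖H (x, w)‖ ≤ M := by
  obtain ⟨M, hM⟩ := ((isCompact_closedBall w₀ ρ).prod isCompact_uIcc).exists_bound_of_continuousOn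
    (f := fun q : ℂ × ℝ => H (q.2, q.1)) fun q k =>
      ((h _ k.1 _ k.2).comp_of_eq (f := fun q : ℂ × ℝ => ((q.2 : ℂ), q.1)) (by fun_prop)
        rfl).continuousWithinAt
  exact ⟨M, fun w k x l => hM (w, x) ⟨k, l⟩⟩

theorem ctsx {F : Type} [NormedAddCommGroup F] {H : ℂ × ℂ → F} {w : ℂ}
    (h : ∀ x ∈ uIcc (0 : ℝ) 1, ContinuousAt H (x, w)) :
    ContinuousOn (fun x : ℝ => H (x, w)) (uIcc 0 1) := fun x k =>
  ((h x k).comp_of_eq (f := fun x : ℝ => ((x : ℂ), w)) (by fun_prop) rfl).continuousWithinAt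

/-- holomorphic dependence of an integral on a parameter -/
theorem par {H : ℂ × ℂ → ℂ} {w₀ : ℂ} (h : ∀ x ∈ uIcc (0 : ℝ) 1, AnalyticAt ℂ H (x, w₀)) :
    DifferentiableAt ℂ (fun w => ∫ x in (0 : ℝ)..1, H (x, w)) w₀ := by
  obtain ⟨ρ, hρ, a⟩ := tube h
  have a' : ∀ w ∈ closedBall w₀ ρ, ∀ x ∈ uIcc (0 : ℝ) 1,
      ContinuousAt (fun q => fderiv ℂ H q (0, 1)) (x, w) := fun w k x l =>
    (a w k x l).fderiv.continuousAt.clm_apply continuousAt_const
  obtain ⟨M, hM⟩ := bdd a'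
  have m0 := mem_closedBall_self (x := w₀) hρ.le
  refine (intervalIntegral.hasDerivAt_integral_of_dominated_loc_of_deriv_le
    (F := fun w (x : ℝ) => H (x, w)) (F' := fun w (x : ℝ) => fderiv ℂ H (x, w) (0, 1))
    (bound := fun _ => M) (closedBall_mem_nhds w₀ hρ) ?_
    (ctsx fun x l => (h x l).continuousAt).intervalIntegrable
    (((ctsx (a' _ m0)).mono uIoc_subset_uIcc).aestronglyMeasurable measurableSet_uIoc)
    (.of_forall fun x l w k => hM w k x (uIoc_subset_uIcc l)) intervalIntegrable_const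
    (.of_forall fun x l w k => ?_)).2.differentiableAt
  · filter_upwards [closedBall_mem_nhds w₀ hρ] with w k using ((ctsx fun x l =>
      (a w k x l).continuousAt).mono uIoc_subset_uIcc).aestronglyMeasurable measurableSet_uIoc
  exact HasFDerivAt.comp_hasDerivAt (l := H) (f := fun w : ℂ => ((x : ℂ), w)) w
    (a w k x (uIoc_subset_uIcc l)).differentiableAt.hasFDerivAt
    ((hasDerivAt_const _ _).prodMk (hasDerivAt_id _))

theorem diff_tsum {U : Set (ℂ × ℂ)} (hU : IsOpen U) {f : ℤ → ℂ × ℂ → ℂ} {u : ℤ → ℝ}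
    (hu : Summable u) (hf : ∀ n, DifferentiableOn ℂ (f n) U)
    (hb : ∀ n, ∀ x ∈ U, ‖f n x‖ ≤ u n) : DifferentiableOn ℂ (fun x => ∑' n, f n x) U := by
  intro x hx
  obtain ⟨r, hr, h⟩ := Metric.isOpen_iff.1 hU x hx
  have h1 : ∀ y ∈ ball x (r / 2), ball y (r / 2) ⊆ U := fun y hy =>
    (ball_subset_ball' (by linarith [mem_ball.1 hy])).trans h
  have h2 := half_pos hr
  exact (hasFDerivAt_tsum_of_isPreconnected (hu.div_const (r / 2)) isOpen_ball
    (convex_ball x (r / 2)).isPreconnected (f' := fun n y => fderiv ℂ (f n) y)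
    (fun n y hy => ((hf n).differentiableAt (hU.mem_nhds (h1 y hy (mem_ball_self h2)))).hasFDerivAt)
    (fun n y hy => P097.Hol.norm_fderiv_le_of_ball h2 ((hf n).mono (h1 y hy))
      fun z hz => hb n z (h1 y hy hz)) (mem_ball_self h2)
    (.of_norm_bounded hu fun n => hb n x hx) (mem_ball_self h2)).differentiableAt.differentiableWithinAt

theorem dens {Z : Set ℝ} (hZ : Z.Countable) {X : Type} [TopologicalSpace X] {f : ℝ → X} {w : ℝ}
    {S : Set X} (hS : IsClosed S) (c : ContinuousAt f w) (h : ∀ᶠ t in 𝓝 w, t ∉ Z → f t ∈ S) :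
    f w ∈ S :=
  hS.mem_of_frequently_of_tendsto (((mem_closure_iff_frequently.1 (hZ.dense_compl ℝ w)).and_eventually
    h).mono fun t k => k.2 k.1) c

theorem sumz {κ : ℝ} (hκ : 0 < κ) (C : ℝ) :
    Summable fun m : ℤ => C * Real.exp (-(κ * |(m : ℝ)|)) :=
  Summable.of_nat_of_neg (by simpa using geo hκ C) (by simpa using geo hκ C)

end Two

open Two

/-- **TWO** -/
theorem two (hG : Spec_GERM) : Spec_TWO := by
  intro r w₀ T η Y Z T0 η0 hZ aY _ hF T' T1 T2
  obtain ⟨ρ₀, ρ0, a₀⟩ := tube (H := Y) (w₀ := w₀) fun x _ => aY x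
  have a₁ : ∀ w ∈ closedBall (w₀ : ℂ) ρ₀, ∀ x ∈ uIcc (0 : ℝ) 1,
      AnalyticAt ℂ (fun q : ℂ × ℂ => Y q - q.1) (x, w) := fun w k x l =>
    (a₀ w k x l).sub analyticAt_fst
  obtain ⟨M, hM⟩ := bdd fun w k x l => (a₁ w k x l).continuousAt
  let a : ℤ → ℂ → ℂ := fun m w => co (fun z => Y (z, w) - z) m
  have ad : ∀ m, ∀ w ∈ closedBall (w₀ : ℂ) ρ₀, DifferentiableAt ℂ (a m) w := fun m w k =>
    par (H := fun q => E (-m) q.1 * (Y q - q.1)) fun x l =>
      (((E_diff _).analyticAt _).comp analyticAt_fst).mul (a₁ w k x l)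
  have ab : ∀ m, ∀ w ∈ closedBall (w₀ : ℂ) ρ₀, ‖a m w‖ ≤ M := fun m w k => by
    simpa [a, co] using intervalIntegral.norm_integral_le_of_norm_le_const (a := 0) (b := 1)
      (C := M) (f := fun x : ℝ => E (-m) x * (Y (x, w) - x)) fun x l => by
        simpa [E_norm] using hM w k x (uIoc_subset_uIcc l)
  have ca : ∀ {w : ℝ} {F : ℂ → ℂ}, (∀ x : ℝ, 0 ≤ x → x ≤ 1 → F x = Y (x, w)) →
      co (fun z => F z - z) = fun m => a m w := fun e => funext fun m =>
    intervalIntegral.integral_congr fun x l => by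
      rw [uIcc_of_le zero_le_one] at l
      simp only [e x l.1 l.2]
  obtain ⟨s, s1, s2⟩ := exists_between T2
  have s0 := T1.trans s1
  obtain ⟨ρ, ρ1, ρ2, ρ3⟩ : ∃ ρ > 0, ρ < ρ₀ ∧ ρ < η :=
    ⟨min ρ₀ η / 2, by positivity, by linarith [min_le_left ρ₀ η], by linarith [min_le_right ρ₀ η]⟩
  have mb : ∀ {t : ℝ} {σ : ℝ}, |t - w₀| ≤ σ → (t : ℂ) ∈ closedBall (w₀ : ℂ) σ := fun k => by
    rwa [mem_closedBall, dist_eq_norm, ← ofReal_sub, norm_real]
  have ev : ∀ {t σ : ℝ}, |t - w₀| < σ → ∀ᶠ u in 𝓝 t, |u - w₀| < σ := fun k =>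
    (Continuous.continuousAt (by fun_prop)).eventually_lt continuousAt_const k
  obtain ⟨w₁, w1, w2⟩ := (hZ.dense_compl ℝ).exists_mem_open isOpen_ball ⟨w₀, mem_ball_self η0⟩
  have r0 : 0 < r := by
    obtain ⟨F, -, m, -⟩ := hF w₁ w1 w2
    exact (abs_nonneg _).trans_lt (m (x := 0) (by simpa [Strip]))
  have M0 : 0 ≤ M := (norm_nonneg _).trans (ab 0 _ (mem_closedBall_self ρ0.le))
  obtain ⟨C, hC⟩ : ∃ C, C = 2 * (r + T) + M := ⟨_, rfl⟩
  have real : ∀ (m : ℤ) (t : ℝ), |t - w₀| ≤ ρ →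
      ‖a m t‖ ≤ C * Real.exp (-(2 * Real.pi * s * |(m : ℝ)|)) := fun m t k => by
    refine dens hZ (f := fun t : ℝ => ‖a m t‖) isClosed_Iic
      ((ad m t (mb (k.trans ρ2.le))).continuousAt.comp (f := ofReal) (by fun_prop)).norm ?_
    filter_upwards [ev (k.trans_lt ρ2), ev (k.trans_lt ρ3)] with u u1 u2 u3
    obtain ⟨F, d, mp, re, p, e⟩ := hF u u3 u2
    have := cobd (G := fun z => F z - z) (B := r + T) (M := M) (s := s) (by rwa [abs_of_pos s0])
      s0.le (d.sub differentiableOn_id) (fun z hz => by rw [p z hz]; ring)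
      (fun x => by simp [re x])
      (fun z hz => (abs_sub _ _).trans (add_le_add (le_of_lt (mp hz)) (le_of_lt hz))) m
      (by rw [ca e]; exact ab m u (mb u1.le))
    rwa [ca e, ← hC] at this
  obtain ⟨τ, τ0, τ1, τ2⟩ : ∃ τ > 0, τ ≤ 1 ∧ s * (1 - 3 * τ) = (s + T') / 2 :=
    ⟨(s - T') / (6 * s), by have := sub_pos.2 s1; positivity,
      by rw [div_le_one (by positivity)]; linarith, by field_simp; ring⟩
  have δ0 : 0 < ρ * τ := mul_pos ρ1 τ0
  have δ1 : ρ * τ ≤ ρ := mul_le_of_le_one_right ρ1.le τ1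
  have oS : IsOpen (Strip T') := isOpen_lt (by fun_prop) continuous_const
  have oU := oS.prod (isOpen_ball (x := (w₀ : ℂ)) (ε := ρ * τ))
  have bU : ∀ (m : ℤ), ∀ q ∈ Strip T' ×ˢ ball (w₀ : ℂ) (ρ * τ), ‖a m q.2 * E m q.1‖ ≤
      C * Real.exp (-(Real.pi * (s - T') * |(m : ℝ)|)) := fun m q k => by
    have := disc (C := C) ρ1 (l := 2 * Real.pi * s * |(m : ℝ)|) (by positivity) τ1
      (fun w k => ad m w (closedBall_subset_closedBall ρ2.le k))
      (fun w k => (ab m w (closedBall_subset_closedBall ρ2.le k)).trans (by linarith))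
      (real m) (mem_ball_iff_norm.1 k.2).le
    rw [norm_mul, E_norm]
    refine (mul_le_mul_of_nonneg_right this (Real.exp_pos _).le).trans ?_
    rw [mul_assoc, ← Real.exp_add]
    refine mul_le_mul_of_nonneg_left (Real.exp_le_exp.2 ?_) (by linarith)
    have k1 : |(m : ℝ) * q.1.im| ≤ |(m : ℝ)| * T' := by
      rw [abs_mul]
      exact mul_le_mul_of_nonneg_left (le_of_lt k.1) (abs_nonneg _)
    have k2 := mul_le_mul_of_nonneg_left ((neg_le_abs _).trans k1) Real.pi_pos.le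
    have k3 : 2 * Real.pi * s * |(m : ℝ)| * (1 - 3 * τ) = Real.pi * (s + T') * |(m : ℝ)| := by
      linear_combination (2 * Real.pi * |(m : ℝ)|) * τ2
    rw [k3]
    linarith
  have su := sumz (κ := Real.pi * (s - T')) (mul_pos Real.pi_pos (sub_pos.2 s1)) C
  have sb : ball (w₀ : ℂ) (ρ * τ) ⊆ closedBall w₀ ρ₀ :=
    ball_subset_closedBall.trans (closedBall_subset_closedBall (δ1.trans ρ2.le))
  let Y' : ℂ × ℂ → ℂ := fun q => q.1 + ∑' m : ℤ, a m q.2 * E m q.1
  have aY' : AnalyticOnNhd ℂ Y' (Strip T' ×ˢ ball (w₀ : ℂ) (ρ * τ)) :=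
    Hol.analyticOnNhd_of_differentiableOn oU (differentiableOn_fst.add (diff_tsum oU su
      (fun m q k => (((ad m _ (sb k.2)).comp q differentiableAt_snd).mul
        ((E_diff m _).comp q differentiableAt_fst)).differentiableWithinAt) bU))
  have mb' : ∀ {t : ℝ}, |t - w₀| < ρ * τ → (t : ℂ) ∈ ball (w₀ : ℂ) (ρ * τ) := fun k => by
    rwa [mem_ball, dist_eq_norm, ← ofReal_sub, norm_real]
  have rS : ∀ x : ℝ, (x : ℂ) ∈ Strip T' := fun x => by simpa [Strip]
  have ax : ∀ w ∈ ball (w₀ : ℂ) (ρ * τ), AnalyticOnNhd ℂ (fun x => Y' (x, w)) (Strip T') :=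
    fun w k x l => (aY' (x, w) ⟨l, k⟩).comp_of_eq (by fun_prop) rfl
  have leaf : ∀ u ∉ Z, |u - w₀| < ρ * τ → (∀ x ∈ Strip T', Y' (x, u) ∈ Strip r) ∧
      (∀ x : ℝ, 0 ≤ x → x ≤ 1 → Y' (x, u) = Y (x, u)) := fun u u1 u2 => by
    obtain ⟨F, d, mp, re, p, e⟩ := hF u u1 (u2.trans (δ1.trans_lt ρ3))
    have sS : Strip T' ⊆ Strip T := fun z hz => lt_trans hz T2
    have k : ∀ x : ℝ, Y' (x, u) = F x := fun x => by
      have := inversion (H := fun z => F z - z)
        ((d.continuousOn.comp_continuous continuous_ofReal fun x => sS (rS x)).sub continuous_ofReal)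
        (fun x => by rw [p x (sS (rS x))]; ring)
        (by
          rw [ca e]
          refine .of_norm_bounded su fun m => ?_
          simpa [E_norm] using bU m (((0 : ℝ) : ℂ), u) ⟨rS 0, mb' u2⟩) x
      rw [ca e] at this
      simp only [Y', this, add_sub_cancel]
    exact ⟨fun x l => by
      rw [H500.strip_eq T1 (ax u (mb' u2)).differentiableOn (d.mono sS) k x l]
      exact mp (sS l), fun x x0 x1 => (k x).trans (e x x0 x1)⟩
  have cw : ∀ {G : ℂ × ℂ → ℂ} {x : ℂ} {t : ℝ}, AnalyticAt ℂ G (x, t) →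
      ContinuousAt (fun u : ℝ => G (x, u)) t := fun k =>
    k.continuousAt.comp_of_eq (by fun_prop) rfl
  have m0 := mem_ball_self (x := (w₀ : ℂ)) δ0
  have e0 : |w₀ - w₀| < ρ * τ := by simpa using δ0
  refine ⟨Y', fun x l => aY' _ ⟨l, m0⟩, fun x l => ?_, fun x =>
    hG Y' Y (range ofReal) w₀ (1 / 2) (isPreconnected_range continuous_ofReal) ⟨_, rfl⟩
      (by rintro _ ⟨x, rfl⟩; exact ⟨aY' _ ⟨rS x, m0⟩, aY x⟩) ?_ x ⟨x, rfl⟩⟩
  · have cl : ∀ x ∈ Strip T', |(Y' (x, w₀)).im| ≤ r := fun x l =>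
      dens hZ (S := {y : ℂ | |y.im| ≤ r}) (f := fun u : ℝ => Y' (x, u))
        (isClosed_le (by fun_prop) continuous_const)
        (cw (aY' _ ⟨l, m0⟩)) ((ev e0).mono fun u u2 u1 =>
          show |_| ≤ r from le_of_lt ((leaf u u1 u2).1 x l))
    have cv : Convex ℝ (Strip T') := by
      simp only [Strip, abs_lt]
      exact (convex_halfSpace_im_gt (-T')).inter (convex_halfSpace_im_lt T')
    rcases (ax _ m0).is_constant_or_isOpen cv.isPreconnected with ⟨c, k⟩ | k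
    · have := (k _ (rS (0 + 1))).trans (k _ (rS 0)).symm
      simp only [Y', ofReal_add, ofReal_one, E_per] at this
      simp at this
    have o := k _ subset_rfl oS
    have i1 := interior_maximal (t := (fun x => Y' (x, w₀)) '' Strip T') (s := {z | z.im ≤ r})
      (by rintro _ ⟨z, hz, rfl⟩; exact (abs_le.1 (cl z hz)).2) o ⟨x, l, rfl⟩
    have i2 := interior_maximal (t := (fun x => Y' (x, w₀)) '' Strip T') (s := {z | -r ≤ z.im})
      (by rintro _ ⟨z, hz, rfl⟩; exact (abs_le.1 (cl z hz)).1) o ⟨x, l, rfl⟩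
    rw [interior_setOfPred_im_le] at i1
    rw [interior_setOfPred_le_im] at i2
    exact show |(Y' (x, w₀)).im| < r from abs_lt.2 ⟨i2, i1⟩
  filter_upwards [prod_mem_nhds (Icc_mem_nhds (by norm_num : (0 : ℝ) < 1 / 2)
    (by norm_num : (1 / 2 : ℝ) < 1)) (ev e0)] with q k
  refine sub_eq_zero.1 (dens hZ (S := {0}) (f := fun u : ℝ => Y' (q.1, u) - Y (q.1, u))
    isClosed_singleton ((cw (aY' _ ⟨rS _, mb' k.2⟩)).sub (cw (a₀ _ (sb (mb' k.2)) _ ?_)))
    ((ev k.2).mono fun u u2 u1 => sub_eq_zero.2 ((leaf u u1 u2).2 _ k.1.1 k.1.2)))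
  rw [uIcc_of_le zero_le_one]
  exact k.1

end Vale.Agent.P097Top
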