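import Vale.Agent.P097Top.Defs
import Vale.Agent.P097T.OutDefs2
import Vale.Agent.P097T.NfOf
import Vale.Agent.P097T.EndAll

/-!
# P097Top: the blocks UW, NF and DISC
-/

set_option linter.all false

noncomputable section

namespace Vale.Agent.P097Top

open Filter Topology Set Metric Complex Vale.Agent.P097 Vale.Agent.P097A Vale.Agent.P097T

theorem uw (hM : Out.Spec_MODEL) (hU : Out.Spec_Uw) : Spec_UW := by
  intro h ε ψ δ x₀ d T w₀ η N hd hT hη hw ta tb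
  obtain ⟨A, _, _, _, C, ι, G, M⟩ := hM h ε ψ δ N
  obtain ⟨Z, Zc, hZ⟩ := hU A C ε ι _ _ x₀ d T w₀ η G M hd hT hη hw ta tb
  have a0 : C.a 0 ∈ C.K univ := C.a_mem (mem_univ _)
  have b0 : C.b 0 ∈ C.K univ := C.b_mem (mem_univ _)
  refine ⟨Z, Zc, fun w h1 h2 => ?_⟩
  obtain ⟨a, ha, ea⟩ := hZ w h1 h2 _ M.an_a (M.a0 ▸ a0)
  obtain ⟨b, hb, eb⟩ := hZ w h1 h2 _ M.an_b (M.b0 ▸ b0)
  exact ⟨a, b, ha, hb, fun x => ⟨ea x, eb x⟩⟩

theorem nf : Spec_NF := fun _ _ _ _ _ ht H => Out.nf_of' ht H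

theorem disc : Spec_DISC := by
  intro h p c hT hL e
  have k2 : (fun y => h y + deriv (deriv h) y) = fun _ => c / (2 * Real.pi) ^ 3 := by
    funext y
    obtain ⟨x, rfl⟩ := EA.p_surj hL y
    rw [← hL.eq x, e x, mul_div_cancel_right₀ _ (by positivity)]
  refine Ell.real_ell hT (ψ₀ := 0) (c := 1 / (c / (2 * Real.pi) ^ 3) ^ 2) (.of_forall fun x => ?_)
  rw [k2, congrFun k2 x]
  simp

end Vale.Agent.P097Top
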