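import Vale.Agent.P097Top.Defs

/-!
# P097Top: the real Wronskian identity and the signs on a small real leaf
-/

set_option linter.all false

noncomputable section

namespace Vale.Agent.P097Top

open Filter Topology Set Metric Vale.Agent.P097 Vale.Agent.P097T Vale.Agent.P097T.Gm

namespace Wr

/-- The partial derivative in the first variable. -/
def X (f : ℝ × ℝ → ℝ) (q : ℝ × ℝ) : ℝ := fderiv ℝ f q (1, 0)

/-- The partial derivative in the second variable. -/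
def W (f : ℝ × ℝ → ℝ) (q : ℝ × ℝ) : ℝ := fderiv ℝ f q (0, 1)

/-- The radius of curvature times the sine of the angle. -/
def sr (h : ℝ → ℝ) (ψ δ : ℝ × ℝ → ℝ) (q : ℝ × ℝ) : ℝ :=
  (h (ψ q) + deriv (deriv h) (ψ q)) * Real.sin (δ q)

/-- The invariant area density. -/
def Om (h : ℝ → ℝ) (ψ δ : ℝ × ℝ → ℝ) (q : ℝ × ℝ) : ℝ :=
  sr h ψ δ q * (X ψ q * W δ q - W ψ q * X δ q)

theorem line {f : ℝ × ℝ → ℝ} {q : ℝ × ℝ} (hf : DifferentiableAt ℝ f q) (v : ℝ × ℝ) :
    HasDerivAt (fun t : ℝ => f (q + t • v)) (fderiv ℝ f q v) 0 :=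
  hf.hasFDerivAt.hasLineDerivAt v

theorem dX {f : ℝ × ℝ → ℝ} {x w : ℝ} (hf : DifferentiableAt ℝ f (x, w)) :
    HasDerivAt (fun s => f (s, w)) (X f (x, w)) x :=
  hf.hasFDerivAt.comp_hasDerivAt x ((hasDerivAt_id x).prodMk (hasDerivAt_const x w))

/-- both descriptions of the offset of the chord -/
theorem offset {h : ℝ → ℝ} {a b c d : ℝ} (hs : Step h a b c d) :
    h a * Real.cos b + deriv h a * Real.sin b = h c * Real.cos d - deriv h c * Real.sin d := by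
  obtain ⟨_, _, _, _, hc, l, _, hl⟩ := hs
  have h1 : Complex.exp ((c : ℂ) * Complex.I) =
      Complex.exp ((d : ℂ) * Complex.I) * Complex.exp (((a + b : ℝ) : ℂ) * Complex.I) := by
    rw [← Complex.exp_add, hc]; push_cast; ring_nf
  have h2 : Complex.exp ((a : ℂ) * Complex.I) =
      Complex.exp (((-b : ℝ) : ℂ) * Complex.I) * Complex.exp (((a + b : ℝ) : ℂ) * Complex.I) := by
    rw [← Complex.exp_add]; push_cast; ring_nf
  unfold bdry at hl
  rw [h1, h2] at hl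
  have h3 : ((h c : ℂ) + ((deriv h c : ℝ) : ℂ) * Complex.I) * Complex.exp ((d : ℂ) * Complex.I) =
      ((h a : ℂ) + ((deriv h a : ℝ) : ℂ) * Complex.I) * Complex.exp (((-b : ℝ) : ℂ) * Complex.I) +
        (l : ℂ) * Complex.I := by
    apply mul_right_cancel₀ (Complex.exp_ne_zero (((a + b : ℝ) : ℂ) * Complex.I))
    linear_combination hl
  have h4 := congrArg Complex.re h3
  simp only [Complex.add_re, Complex.mul_re, Complex.add_im, Complex.mul_im, Complex.ofReal_re,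
    Complex.ofReal_im, Complex.I_re, Complex.I_im, Complex.exp_ofReal_mul_I_re,
    Complex.exp_ofReal_mul_I_im, Real.cos_neg, Real.sin_neg] at h4
  linarith

/-- the derivative of one bounce along a curve -/
theorem dif {h : ℝ → ℝ} (hh : ∀ x, AnalyticAt ℝ h x) {a b c d : ℝ → ℝ} {a' b' c' d' : ℝ}
    (ha : HasDerivAt a a' 0) (hb : HasDerivAt b b' 0) (hc : HasDerivAt c c' 0)
    (hd : HasDerivAt d d' 0) (hs : ∀ᶠ t in 𝓝 (0 : ℝ), Step h (a t) (b t) (c t) (d t)) :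
    c' = a' + b' + d' ∧
    ((deriv h (c 0) * Real.cos (d 0) + h (c 0) * Real.sin (d 0)) -
      (deriv h (a 0) * Real.cos (b 0) - h (a 0) * Real.sin (b 0))) * (a' + b') =
      (h (a 0) + deriv (deriv h) (a 0)) * Real.sin (b 0) * a' +
        (h (c 0) + deriv (deriv h) (c 0)) * Real.sin (d 0) * c' := by
  have e1 : c' = a' + b' + d' := by
    refine hc.unique (((ha.add hb).add hd).congr_of_eventuallyEq ?_)
    filter_upwards [hs] with t ht
    exact ht.2.2.2.2.1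
  refine ⟨e1, ?_⟩
  have k1 : ∀ y, HasDerivAt h (deriv h y) y := fun y => (hh y).differentiableAt.hasDerivAt
  have k2 : ∀ y, HasDerivAt (deriv h) (deriv (deriv h) y) y := fun y =>
    (hh y).deriv.differentiableAt.hasDerivAt
  have p1 := (((k1 (a 0)).comp 0 ha).mul hb.cos).add (((k2 (a 0)).comp 0 ha).mul hb.sin)
  have p2 := (((k1 (c 0)).comp 0 hc).mul hd.cos).sub (((k2 (c 0)).comp 0 hc).mul hd.sin)
  have e2 := p1.unique (p2.congr_of_eventuallyEq (by
    filter_upwards [hs] with t ht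
    exact offset ht))
  simp only [Function.comp_apply] at e2
  have e3 : d' = c' - a' - b' := by linarith
  rw [e3] at e2
  linear_combination -e2

variable {h : ℝ → ℝ} {ε : ℝ} {ψ δ : ℝ × ℝ → ℝ}

theorem mem {x w : ℝ} (h0 : 0 < w) (h1 : w < ε) : (x, w) ∈ Lam ε := by
  show |w| < ε
  rwa [abs_of_pos h0]

theorem key (N : NF h ε ψ δ) {x w : ℝ} (h0 : 0 < w) (h1 : w < ε) : ∃ L : ℝ,
    X ψ (x + w, w) = X ψ (x, w) + X δ (x, w) + X δ (x + w, w) ∧
    X ψ (x + w, w) + W ψ (x + w, w) = W ψ (x, w) + W δ (x, w) +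
      (X δ (x + w, w) + W δ (x + w, w)) ∧
    L * (X ψ (x, w) + X δ (x, w)) =
      sr h ψ δ (x, w) * X ψ (x, w) + sr h ψ δ (x + w, w) * X ψ (x + w, w) ∧
    L * (W ψ (x, w) + W δ (x, w)) =
      sr h ψ δ (x, w) * W ψ (x, w) + sr h ψ δ (x + w, w) * (X ψ (x + w, w) + W ψ (x + w, w)) := by
  have a1 := (N.aψ _ (mem (x := x) h0 h1)).differentiableAt
  have a2 := (N.aδ _ (mem (x := x) h0 h1)).differentiableAt
  have a3 := (N.aψ _ (mem (x := x + w) h0 h1)).differentiableAt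
  have a4 := (N.aδ _ (mem (x := x + w) h0 h1)).differentiableAt
  have s1 := dif N.tab.1 (line a1 (1, 0)) (line a2 (1, 0)) (line a3 (1, 0)) (line a4 (1, 0))
    (Eventually.of_forall fun t => by
      have := N.step (x + t) w h0 h1
      have e1 : ((x, w) : ℝ × ℝ) + t • ((1 : ℝ), (0 : ℝ)) = (x + t, w) := by simp
      have e2 : ((x + w, w) : ℝ × ℝ) + t • ((1 : ℝ), (0 : ℝ)) = (x + t + w, w) := by
        simp; ring
      rwa [e1, e2])
  have s2 := dif N.tab.1 (line a1 (0, 1)) (line a2 (0, 1)) (line a3 (1, 1)) (line a4 (1, 1)) (by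
    have k : ∀ᶠ t in 𝓝 (0 : ℝ), t ∈ Ioo (-w) (ε - w) := Ioo_mem_nhds (by linarith) (by linarith)
    filter_upwards [k] with t ht
    have := N.step x (w + t) (by linarith [ht.1]) (by linarith [ht.2])
    have e1 : ((x, w) : ℝ × ℝ) + t • ((0 : ℝ), (1 : ℝ)) = (x, w + t) := by simp
    have e2 : ((x + w, w) : ℝ × ℝ) + t • ((1 : ℝ), (1 : ℝ)) = (x + (w + t), w + t) := by
      simp; ring
    rwa [e1, e2])
  have sp : ∀ (f : ℝ × ℝ → ℝ) (q : ℝ × ℝ), fderiv ℝ f q (1, 1) = X f q + W f q := by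
    intro f q
    rw [X, W, ← map_add]
    simp
  simp only [zero_smul, add_zero, sp] at s1 s2
  exact ⟨_, s1.1, s2.1, s1.2, s2.2⟩

theorem Om_step (N : NF h ε ψ δ) {x w : ℝ} (h0 : 0 < w) (h1 : w < ε) :
    Om h ψ δ (x + w, w) = Om h ψ δ (x, w) := by
  obtain ⟨L, e1, e2, e3, e4⟩ := key N (x := x) h0 h1
  unfold Om
  linear_combination (W ψ (x, w) + W δ (x, w)) * e3 - (X ψ (x, w) + X δ (x, w)) * e4 -
    sr h ψ δ (x + w, w) * X ψ (x + w, w) * e2 +
    sr h ψ δ (x + w, w) * (X ψ (x + w, w) + W ψ (x + w, w)) * e1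

theorem fd_per {f : ℝ × ℝ → ℝ} {c : ℝ} (hf : ∀ q ∈ Lam ε, f (q.1 + 1, q.2) = f q + c)
    {x w : ℝ} (hq : (x, w) ∈ Lam ε) : fderiv ℝ f (x + 1, w) = fderiv ℝ f (x, w) := by
  have e1 : ((x + 1, w) : ℝ × ℝ) = (x, w) + (1, 0) := by simp
  rw [e1, ← fderiv_comp_add_right, ← fderiv_add_const (f := f) c]
  refine EventuallyEq.fderiv_eq ?_
  filter_upwards [(isOpen_Lam ε).mem_nhds hq] with z hz
  rw [← hf z hz]
  congr 1
  ext <;> simp

theorem per_ψ (N : NF h ε ψ δ) {x w : ℝ} (hq : (x, w) ∈ Lam ε) :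
    fderiv ℝ ψ (x + 1, w) = fderiv ℝ ψ (x, w) := fd_per (fun q hq => (N.per q hq).1) hq

theorem per_δ (N : NF h ε ψ δ) {x w : ℝ} (hq : (x, w) ∈ Lam ε) :
    fderiv ℝ δ (x + 1, w) = fderiv ℝ δ (x, w) :=
  fd_per (c := 0) (fun q hq => by rw [(N.per q hq).2, add_zero]) hq

theorem Om_per (N : NF h ε ψ δ) {x w : ℝ} (hq : (x, w) ∈ Lam ε) :
    Om h ψ δ (x + 1, w) = Om h ψ δ (x, w) := by
  have p0 : Function.Periodic h (2 * Real.pi) := N.tab.2.1
  have p1 : Function.Periodic (deriv h) (2 * Real.pi) := fun y => by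
    rw [← deriv_comp_add_const, p0.funext]
  have p2 : Function.Periodic (deriv (deriv h)) (2 * Real.pi) := fun y => by
    rw [← deriv_comp_add_const, p1.funext]
  have e := N.per _ hq
  simp only at e
  unfold Om sr X W
  rw [per_ψ N hq, per_δ N hq, e.1, e.2, p0, p2]

theorem c_fd {f : ℝ × ℝ → ℝ} {q : ℝ × ℝ} (hf : AnalyticAt ℝ f q) (v : ℝ × ℝ) :
    ContinuousAt (fun z => fderiv ℝ f z v) q :=
  (((ContinuousLinearMap.apply ℝ ℝ v).analyticAt _).comp hf.fderiv).continuousAt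

theorem Om_cont (N : NF h ε ψ δ) {q : ℝ × ℝ} (hq : q ∈ Lam ε) : ContinuousAt (Om h ψ δ) q := by
  have a1 := N.aψ q hq
  have a2 := N.aδ q hq
  exact ((((N.tab.1 _).comp a1).continuousAt.add
    ((N.tab.1 _).deriv.deriv.comp a1).continuousAt).mul
    (Real.continuous_sin.continuousAt.comp a2.continuousAt)).mul
    (((c_fd a1 _).mul (c_fd a2 _)).sub ((c_fd a1 _).mul (c_fd a2 _)))

theorem const_irr {f : ℝ → ℝ} (hf : Continuous f) {w : ℝ} (hw : Irrational w)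
    (h1 : ∀ x, f (x + w) = f x) (h2 : ∀ x, f (x + 1) = f x) (x : ℝ) : f x = f 0 := by
  let P : AddSubgroup ℝ :=
    { carrier := {c | ∀ y, f (y + c) = f y}
      add_mem' := fun {a b} ha hb y => by rw [← add_assoc, hb, ha]
      zero_mem' := fun y => by rw [add_zero]
      neg_mem' := fun {a} ha y => by rw [← ha (y + -a)]; simp }
  have hd : Dense (AddSubgroup.closure {w, 1} : Set ℝ) :=
    dense_addSubgroupClosure_pair_iff.mpr (by simpa using hw)
  have hle : AddSubgroup.closure {w, 1} ≤ P := by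
    rw [AddSubgroup.closure_le]
    rintro c (rfl | rfl)
    · exact h1
    · exact h2
  have hc : IsClosed {c : ℝ | f c = f 0} := isClosed_eq hf continuous_const
  have hsub : (AddSubgroup.closure {w, 1} : Set ℝ) ⊆ {c : ℝ | f c = f 0} := fun c hc => by
    have := hle hc 0
    rwa [zero_add] at this
  exact hc.closure_subset_iff.mpr hsub (hd x)

theorem Om_const (N : NF h ε ψ δ) {w : ℝ} (h0 : 0 < w) (h1 : w < ε) (x : ℝ) :
    Om h ψ δ (x, w) = Om h ψ δ (0, w) := by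
  by_contra hne
  have c1 : ∀ y : ℝ, ContinuousAt (fun s : ℝ => Om h ψ δ (y, s)) w := fun y =>
    ContinuousAt.comp (f := fun s : ℝ => (y, s)) (Om_cont N (mem h0 h1)) (by fun_prop)
  have k1 : ∀ᶠ s in 𝓝 w, Om h ψ δ (x, s) - Om h ψ δ (0, s) ≠ 0 :=
    ((c1 x).sub (c1 0)).eventually_ne (sub_ne_zero.mpr hne)
  have k2 : ∀ᶠ s in 𝓝 w, s ∈ Ioo 0 ε := Ioo_mem_nhds h0 h1
  obtain ⟨s, hs, hs1, hs2⟩ := dense_irrational.inter_nhds_nonempty (k1.and k2)
  refine hs1 (sub_eq_zero.mpr ?_)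
  refine const_irr (f := fun y => Om h ψ δ (y, s)) ?_ hs (fun y => Om_step N hs2.1 hs2.2)
    (fun y => Om_per N (mem hs2.1 hs2.2)) x
  exact continuous_iff_continuousAt.mpr fun y =>
    ContinuousAt.comp (f := fun y : ℝ => (y, s)) (Om_cont N (mem hs2.1 hs2.2)) (by fun_prop)

theorem mem0 (N : NF h ε ψ δ) (x : ℝ) : (x, (0 : ℝ)) ∈ Lam ε := by
  simpa [Lam] using N.pos

theorem δ0 (N : NF h ε ψ δ) (x : ℝ) : δ (x, 0) = 0 := by
  have := (N.sym _ (mem0 N x)).2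
  simp only [neg_zero] at this
  linarith

theorem Xδ0 (N : NF h ε ψ δ) (x : ℝ) : X δ (x, 0) = 0 := by
  have h1 := dX (N.aδ _ (mem0 N x)).differentiableAt
  have h2 : (fun s => δ (s, 0)) = fun _ => 0 := funext (δ0 N)
  rw [h2] at h1
  exact h1.unique (hasDerivAt_const x 0)

theorem Xψ0 (N : NF h ε ψ δ) (x : ℝ) : 0 < X ψ (x, 0) := by
  have hd : ∀ y, HasDerivAt (fun s => ψ (s, 0)) (X ψ (y, 0)) y := fun y =>
    dX (N.aψ _ (mem0 N y)).differentiableAt
  obtain ⟨c, _, hc⟩ := exists_hasDerivAt_eq_slope (fun s => ψ (s, 0)) (fun y => X ψ (y, 0))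
    (show (0 : ℝ) < 0 + 1 by norm_num)
    (fun y _ => (hd y).continuousAt.continuousWithinAt) (fun y _ => hd y)
  have e := (N.per _ (mem0 N 0)).1
  simp only at e
  rw [e] at hc
  have hc0 : 0 < X ψ (c, 0) := by
    rw [hc]
    have := Real.pi_pos
    apply div_pos <;> linarith
  have hcont : Continuous fun y : ℝ => X ψ (y, 0) := continuous_iff_continuousAt.mpr fun y =>
    ContinuousAt.comp (f := fun y : ℝ => (y, (0 : ℝ))) (c_fd (N.aψ _ (mem0 N y)) _) (by fun_prop)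
  by_contra hx
  obtain ⟨y, hy⟩ := mem_range_of_exists_le_of_exists_ge hcont (c := 0) ⟨x, not_lt.mp hx⟩ ⟨c, hc0.le⟩
  exact N.dψ y hy

theorem signs (N : NF h ε ψ δ) : ∀ᶠ w in 𝓝 (0 : ℝ), |w| < ε ∧ ∀ x : ℝ,
    0 < X ψ (x, w) ∧ 0 < X ψ (x, w) + X δ (x, w) ∧ δ (x, w) < Real.pi / 2 := by
  have k0 : ∀ᶠ w in 𝓝 (0 : ℝ), |w| < ε :=
    continuous_abs.continuousAt.eventually_lt continuousAt_const (by simpa using N.pos)
  have k1 : ∀ᶠ w in 𝓝 (0 : ℝ), ∀ x ∈ Icc (0 : ℝ) 1,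
      0 < X ψ (x, w) ∧ 0 < X ψ (x, w) + X δ (x, w) ∧ δ (x, w) < Real.pi / 2 := by
    refine isCompact_Icc.eventually_forall_of_forall_eventually fun x _ => ?_
    have a1 := N.aψ _ (mem0 N x)
    have a2 := N.aδ _ (mem0 N x)
    have k : ∀ᶠ q : ℝ × ℝ in 𝓝 (x, 0),
        0 < X ψ q ∧ 0 < X ψ q + X δ q ∧ δ q < Real.pi / 2 := by
      refine (continuousAt_const.eventually_lt (c_fd a1 _) (Xψ0 N x)).and
        ((continuousAt_const.eventually_lt ((c_fd a1 _).add (c_fd a2 _)) ?_).and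
          (a2.continuousAt.eventually_lt continuousAt_const ?_))
      · show 0 < X ψ (x, 0) + X δ (x, 0)
        rw [Xδ0 N, add_zero]
        exact Xψ0 N x
      · rw [δ0 N]
        exact Real.pi_div_two_pos
    exact (continuous_swap.tendsto ((0 : ℝ), x)).eventually k
  filter_upwards [k0, k1] with w hw hk
  refine ⟨hw, fun x => ?_⟩
  have hp : Function.Periodic (fun x : ℝ => (X ψ (x, w), X δ (x, w), δ (x, w))) 1 := fun y => by
    have hq : (y, w) ∈ Lam ε := hw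
    have e := (N.per _ hq).2
    simp only at e
    simp only [X, per_ψ N hq, per_δ N hq, e]
  obtain ⟨y, hy, e⟩ := hp.exists_mem_Ico₀ one_pos x
  simp only [Prod.mk.injEq] at e
  rw [e.1, e.2.1, e.2.2]
  exact hk y ⟨hy.1, hy.2.le⟩

theorem alg {s s' a a' b c c' d L : ℝ} (hs : s ≠ 0) (hs' : s' ≠ 0) (ha : a ≠ 0) (ha' : a' ≠ 0)
    (hb : a + b ≠ 0) (e3 : L * (a + b) = s * a + s' * a') (e4 : L * (c + d) = s * c + s' * (a' + c')) :
    s * (a * d - c * b) * (((s * a)⁻¹ + (s' * a')⁻¹) / (a + b)) = 1 + (c' / a' - c / a) := by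
  have h1 : ((s * a)⁻¹ + (s' * a')⁻¹) / (a + b) = L / (s * a * (s' * a')) := by
    field_simp
    linear_combination -e3
  rw [h1]
  field_simp
  linear_combination a * e4 - c * e3

theorem sr_ne (N : NF h ε ψ δ) {x w : ℝ} (h0 : 0 < w) (h1 : w < ε) : sr h ψ δ (x, w) ≠ 0 := by
  have hs := N.step x w h0 h1
  exact (mul_pos (N.tab.2.2 _) (Real.sin_pos_of_pos_of_lt_pi hs.1 hs.2.1)).ne'

end Wr

open Wr in
theorem wr : Spec_WR := by
  intro h ε ψ δ N
  have k := (tendsto_one_div_atTop_nhds_zero_nat (𝕜 := ℝ)).eventually (signs N)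
  obtain ⟨n₀, hn₀⟩ := eventually_atTop.mp (k.and (eventually_gt_atTop 0))
  refine ⟨n₀, fun n hn => ?_⟩
  obtain ⟨⟨hw, hs⟩, hn0⟩ := hn₀ n hn
  have hn1 : (0 : ℝ) < n := by exact_mod_cast hn0
  have h0 : (0 : ℝ) < 1 / n := by positivity
  have h1 : (1 : ℝ) / n < ε := (le_abs_self _).trans_lt hw
  have d1 : ∀ x, deriv (fun s => ψ (s, 1 / n)) x = X ψ (x, 1 / n) := fun x =>
    (dX (N.aψ _ (mem h0 h1)).differentiableAt).deriv
  have d2 : ∀ x, deriv (fun s => ψ (s, 1 / n) + δ (s, 1 / n)) x =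
      X ψ (x, 1 / n) + X δ (x, 1 / n) := fun x =>
    ((dX (N.aψ _ (mem h0 h1)).differentiableAt).add
      (dX (N.aδ _ (mem h0 h1)).differentiableAt)).deriv
  refine ⟨h1, fun x => by rw [d1, d2]; exact hs x, ?_⟩
  simp only [d1, d2]
  have main : ∀ x : ℝ, Om h ψ δ (0, 1 / n) * ∑ j ∈ Finset.range n,
      ((sr h ψ δ (x + j / n, 1 / n) * X ψ (x + j / n, 1 / n))⁻¹ +
        (sr h ψ δ (x + (j + 1) / n, 1 / n) * X ψ (x + (j + 1) / n, 1 / n))⁻¹) /
        (X ψ (x + j / n, 1 / n) + X δ (x + j / n, 1 / n)) = n := by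
    intro x
    have t := Finset.sum_range_sub
      (fun j : ℕ => W ψ (x + j / n, 1 / n) / X ψ (x + j / n, 1 / n)) n
    have e0 : W ψ (x + (n : ℝ) / n, 1 / n) / X ψ (x + (n : ℝ) / n, 1 / n) -
        W ψ (x + ((0 : ℕ) : ℝ) / n, 1 / n) / X ψ (x + ((0 : ℕ) : ℝ) / n, 1 / n) = 0 := by
      rw [div_self hn1.ne', Nat.cast_zero, zero_div, add_zero]
      unfold Wr.W Wr.X
      rw [per_ψ N (mem h0 h1), sub_self]
    rw [e0] at t
    rw [Finset.mul_sum]
    have e1 : (n : ℝ) = ∑ j ∈ Finset.range n, (1 +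
        (W ψ (x + ((j + 1 : ℕ) : ℝ) / n, 1 / n) / X ψ (x + ((j + 1 : ℕ) : ℝ) / n, 1 / n) -
          W ψ (x + j / n, 1 / n) / X ψ (x + j / n, 1 / n))) := by
      rw [Finset.sum_add_distrib, t]
      simp
    refine Eq.trans (Finset.sum_congr rfl fun j _ => ?_) e1.symm
    obtain ⟨L, _, _, e3, e4⟩ := key N (x := x + j / n) h0 h1
    have e5 : x + j / n + 1 / n = x + (j + 1) / n := by ring
    rw [e5] at e3 e4
    rw [← Om_const N h0 h1 (x + j / n)]
    push_cast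
    exact alg (sr_ne N h0 h1) (sr_ne N h0 h1) (hs _).1.ne' (hs _).1.ne' (hs _).2.1.ne' e3 e4
  have hO : Om h ψ δ (0, 1 / n) ≠ 0 := fun e => by
    have := main 0
    rw [e, zero_mul] at this
    exact hn1.ne this
  refine ⟨n / Om h ψ δ (0, 1 / n), div_ne_zero hn1.ne' hO, fun x => ?_⟩
  rw [eq_div_iff hO, mul_comm]
  exact main x

end Vale.Agent.P097Top
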