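import Vale.Agent.P097Top.Defs
import Vale.Agent.P097T.Tube

/-!
# P097Top: the integrable germ on a box around the real line (row **Y0**)
-/

set_option linter.all false

noncomputable section

namespace Vale.Agent.P097Top

open Filter Topology Set Metric Complex Vale.Agent.P097 Vale.Agent.P097T

namespace Y0A

open Tube

/-- the analytic inverse of the normal angle -/
theorem inv_real {p : ℝ → ℝ} (an : ∀ x, AnalyticAt ℝ p x) (inj : Function.Injective p)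
    (per : ∀ x, p (x + 1) = p x + 2 * Real.pi) (d0 : ∀ x, deriv p x ≠ 0) :
    ∃ g : ℝ → ℝ, (∀ s, AnalyticAt ℝ g s) ∧ ∀ s, p (g s) = s := by
  have pc : Continuous p := continuous_iff_continuousAt.2 fun x => (an x).continuousAt
  have mono : StrictMono p := by
    refine (pc.strictMono_of_inj inj).resolve_right fun h => ?_
    have := h (show (0 : ℝ) < 0 + 1 by norm_num)
    rw [per] at this
    linarith [Real.pi_pos]
  have pn : ∀ n : ℕ, p n = p 0 + n * (2 * Real.pi) ∧ p (-n) = p 0 - n * (2 * Real.pi) := by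
    intro n
    induction n with
    | zero => simp
    | succ n ih =>
      have h1 := per n
      have h2 := per (-(n + 1))
      rw [show -((n : ℝ) + 1) + 1 = -n by ring] at h2
      push_cast
      constructor <;> linarith [ih.1, ih.2]
  have sur : Function.Surjective p := by
    intro s
    obtain ⟨n, hn⟩ := exists_nat_ge |s - p 0|
    have h1 : (n : ℝ) ≤ n * (2 * Real.pi) :=
      le_mul_of_one_le_right (Nat.cast_nonneg n) (by linarith [Real.pi_gt_three])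
    have h2 := abs_le.1 hn
    exact mem_range_of_exists_le_of_exists_ge pc ⟨-n, by linarith [(pn n).2]⟩
      ⟨n, by linarith [(pn n).1]⟩
  let e : ℝ ≃ₜ ℝ := (mono.orderIsoOfSurjective p sur).toHomeomorph
  have h1 : ContDiff ℝ ⊤ (e.symm : ℝ → ℝ) :=
    e.contDiff_symm_deriv d0 (fun x => (an x).differentiableAt.hasDerivAt)
      (contDiff_omega_iff_analyticOnNhd.2 fun x _ => an x)
  exact ⟨e.symm, fun s => contDiff_omega_iff_analyticOnNhd.1 h1 s (mem_univ s),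
    fun s => e.apply_symm_apply s⟩

theorem per_c {F : ℂ × ℂ → ℂ} {κ e : ℝ} (hp : ∀ z ∈ Tb κ e, F (z.1 + 1, z.2) = F z + 1) (n : ℤ)
    (x w : ℂ) (hz : (x, w) ∈ Tb κ e) : F (x + n, w) = F (x, w) + n := by
  induction n using Int.induction_on with
  | zero => simp
  | succ n ih =>
    have := hp (x + n, w) (by simpa [Tb] using hz)
    push_cast at ih ⊢
    rw [← add_assoc, this, ih]
    ring
  | pred n ih =>
    have := hp (x + (-n - 1), w) (by simpa [Tb] using hz)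
    push_cast at ih ⊢
    rw [show x + (-(n : ℂ) - 1) + 1 = x + -n by ring, ih] at this
    linear_combination -this

theorem mem_Tb {κ e k : ℝ} (h1 : k < κ) (h2 : k < e) {x w : ℂ} (hx : |x.im| ≤ k) (hw : ‖w‖ ≤ k) :
    (x, w) ∈ Tb κ e :=
  ⟨hx.trans_lt h1, ((Complex.abs_re_le_norm w).trans hw).trans_lt h2,
    ((Complex.abs_im_le_norm w).trans hw).trans_lt h1⟩

/-- a uniform bound -/
theorem bound {F : ℂ × ℂ → ℂ} {κ e k : ℝ} (h1 : k < κ) (h2 : k < e)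
    (an : AnalyticOnNhd ℂ F (Tb κ e)) (hp : ∀ z ∈ Tb κ e, F (z.1 + 1, z.2) = F z + 1) :
    ∃ M : ℝ, 0 < M ∧ ∀ x w : ℂ, |x.im| ≤ k → ‖w‖ ≤ k → ‖F (x, w) - x‖ ≤ M := by
  have Kc : IsCompact ((Icc (0 : ℝ) 1 ×ℂ Icc (-k) k) ×ˢ closedBall (0 : ℂ) k) :=
    (isCompact_Icc.reProdIm isCompact_Icc).prod (isCompact_closedBall 0 k)
  obtain ⟨M, hM⟩ := Kc.exists_bound_of_continuousOn (f := fun z => F z - z.1) fun z hz =>
    ((an z (mem_Tb h1 h2 (abs_le.2 hz.1.2) (mem_closedBall_zero_iff.1 hz.2))).continuousAt.sub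
      continuousAt_fst).continuousWithinAt
  refine ⟨|M| + 1, by positivity, fun x w hx hw => ?_⟩
  have hx' : |(x - ⌊x.re⌋ : ℂ).im| ≤ k := by simpa using hx
  have e1 := per_c hp ⌊x.re⌋ (x - ⌊x.re⌋) w (mem_Tb h1 h2 hx' hw)
  rw [sub_add_cancel] at e1
  have := hM (x - ⌊x.re⌋, w) ⟨⟨?_, abs_le.1 hx'⟩, mem_closedBall_zero_iff.2 hw⟩
  · rw [e1, show F (x - ⌊x.re⌋, w) + ⌊x.re⌋ - x = F (x - ⌊x.re⌋, w) - (x - ⌊x.re⌋) by ring]
    linarith [le_abs_self M]
  · have e2 : (x - ⌊x.re⌋ : ℂ).re = Int.fract x.re := by simp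
    show (x - ⌊x.re⌋ : ℂ).re ∈ Icc (0 : ℝ) 1
    rw [e2]
    exact ⟨Int.fract_nonneg _, (Int.fract_lt_one _).le⟩

/-- Schwarz for an even function -/
theorem schwarz {f : ℂ → ℂ} {k M : ℝ} (hd : DifferentiableOn ℂ f (ball 0 k))
    (ev : ∀ w ∈ ball (0 : ℂ) k, f (-w) = f w) (hM : ∀ w ∈ ball (0 : ℂ) k, ‖f w - f 0‖ ≤ M)
    {w : ℂ} (hw : w ∈ ball (0 : ℂ) k) : ‖f w - f 0‖ ≤ M * (‖w‖ / k) ^ 2 := by
  have k0 : 0 < k := nonempty_ball.1 ⟨w, hw⟩
  have h1 : HasDerivAt f (deriv f 0) 0 := (hd.differentiableAt (ball_mem_nhds 0 k0)).hasDerivAt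
  have h2 : HasDerivAt (fun w => f (-w)) (deriv f 0 * -1) 0 :=
    HasDerivAt.comp_of_eq 0 h1 (hasDerivAt_neg 0) neg_zero.symm
  have h3 : HasDerivAt f (deriv f 0 * -1) 0 := by
    refine h2.congr_of_eventuallyEq ?_
    filter_upwards [ball_mem_nhds 0 k0] with z hz using (ev z hz).symm
  have h4 : deriv f 0 = 0 := by
    have := h1.unique h3
    linear_combination this / 2
  rw [h4] at h1
  have h5 := Complex.dist_le_mul_div_pow_of_mapsTo_ball_of_isLittleO (n := 1) (R₂ := M) hd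
    (fun z hz => mem_closedBall_iff_norm.2 (hM z hz)) (by
      have := h1.isLittleO.norm_right
      simpa using this) hw
  simpa [dist_eq_norm] using h5

theorem law_an {θ H : ℂ → ℂ} {a b c : ℂ × ℂ → ℂ} {q : ℂ × ℂ} {S : Set ℂ}
    (hθ : AnalyticOnNhd ℂ θ S) (hH : AnalyticOnNhd ℂ H S) (ha : AnalyticAt ℂ a q)
    (hb : AnalyticAt ℂ b q) (hc : AnalyticAt ℂ c q) (ma : a q ∈ S) (mb : b q ∈ S) (mc : c q ∈ S) :
    AnalyticAt ℂ (fun z => law θ H (a z) (b z) (c z)) q := by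
  have cp : ∀ {f : ℂ → ℂ} {a : ℂ × ℂ → ℂ}, AnalyticOnNhd ℂ f S → AnalyticAt ℂ a q → a q ∈ S →
      AnalyticAt ℂ (fun z => f (a z)) q := fun hf ha m => (hf _ m).comp_of_eq ha rfl
  have hs : ∀ {a : ℂ × ℂ → ℂ}, AnalyticAt ℂ a q → AnalyticAt ℂ (fun z => sin (a z)) q :=
    fun ha => (Complex.differentiable_sin.analyticAt _).comp_of_eq ha rfl
  have hco : ∀ {a : ℂ × ℂ → ℂ}, AnalyticAt ℂ a q → AnalyticAt ℂ (fun z => cos (a z)) q :=
    fun ha => (Complex.differentiable_cos.analyticAt _).comp_of_eq ha rfl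
  have A : ∀ {a b : ℂ × ℂ → ℂ}, AnalyticAt ℂ a q → AnalyticAt ℂ b q → a q ∈ S → b q ∈ S →
      AnalyticAt ℂ (fun z => aa θ H (a z) (b z)) q := fun ha hb ma mb =>
    ((((cp hθ.deriv hb mb).mul (cp hH hb mb)).mul (hco ((cp hθ hb mb).sub (cp hθ ha ma)))).sub
      ((cp hH.deriv hb mb).mul (hs ((cp hθ hb mb).sub (cp hθ ha ma))))).sub
      ((cp hθ.deriv hb mb).mul (cp hH ha ma))
  have B : ∀ {a b : ℂ × ℂ → ℂ}, AnalyticAt ℂ a q → AnalyticAt ℂ b q → a q ∈ S → b q ∈ S →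
      AnalyticAt ℂ (fun z => bb θ H (a z) (b z)) q := fun ha hb ma mb =>
    ((cp hθ.deriv ha ma).mul
      ((((cp hθ.deriv hb mb).mul (cp hH hb mb)).mul (hs ((cp hθ hb mb).sub (cp hθ ha ma)))).add
        ((cp hH.deriv hb mb).mul (hco ((cp hθ hb mb).sub (cp hθ ha ma)))))).sub
      ((cp hθ.deriv hb mb).mul (cp hH.deriv ha ma))
  exact ((A hb ha mb ma).mul (B hb hc mb mc)).add ((A hb hc mb mc).mul (B hb ha mb ma))

end Y0A

open Y0A Tube in
theorem y0 : Spec_RL → Spec_Y0 := by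
  intro rl h ε ψ δ r c θ H Q nf cur agr
  obtain ⟨inj, hlaw⟩ := rl h ε ψ δ r c θ H Q nf cur agr
  have ε0 := nf.pos
  have z0 : ∀ x : ℝ, (x, (0 : ℝ)) ∈ Gm.Lam ε := fun x => by simpa [Gm.Lam] using ε0
  have pinj : Function.Injective fun x : ℝ => ψ (x, 0) := fun a b hab =>
    inj a b (by rw [(agr a).1, (agr b).1]; exact congrArg _ hab)
  have pper : ∀ x : ℝ, ψ (x + 1, 0) = ψ (x, 0) + 2 * Real.pi := fun x => (nf.per _ (z0 x)).1
  obtain ⟨g, ga, gp⟩ := inv_real (p := fun x => ψ (x, 0))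
    (fun x => (nf.aψ _ (z0 x)).comp_of_eq (analyticAt_id.prod analyticAt_const) rfl) pinj pper
    (fun x => by
      have h1 : HasDerivAt (fun x : ℝ => (x, (0 : ℝ))) ((1 : ℝ), (0 : ℝ)) x :=
        (hasDerivAt_id x).prodMk (hasDerivAt_const x 0)
      have h2 := (nf.aψ _ (z0 x)).differentiableAt.hasFDerivAt.comp_hasDerivAt x h1
      exact h2.deriv ▸ nf.dψ x)
  obtain ⟨κ₀, κ0, F, Fa, Fr, Fp⟩ := tube (f := fun q => (g (ψ q) : ℂ)) (ε := ε) (e := ε / 2) (c := 1)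
    (half_pos ε0) (half_lt_self ε0)
    (fun q hq => (Complex.ofRealCLM.analyticAt _).comp ((ga _).comp (nf.aψ q hq)))
    (fun q hq => by
      have : g (ψ (q.1 + 1, q.2)) = g (ψ q) + 1 := pinj (by
        show ψ (_, 0) = ψ (_, 0)
        rw [gp, pper, gp]
        exact (nf.per q hq).1)
      show ((g _ : ℝ) : ℂ) = _
      rw [this]
      push_cast
      rfl)
  have Fe : EqOn (fun z : ℂ × ℂ => F (z.1, -z.2)) F (Tb κ₀ (ε / 2)) := by
    refine tube_eq κ0 (half_pos ε0) (fun z hz => (Fa (z.1, -z.2) (by simpa [Tb] using hz)).comp_of_eq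
      (analyticAt_fst.prod analyticAt_snd.neg) rfl) Fa fun q hq => ?_
    have h1 := Fr (q.1, -q.2) (by simpa using hq)
    rw [(nf.sym q (hq.trans (half_lt_self ε0))).1, ← Fr q hq] at h1
    rw [← h1]
    simp [cx]
  have F0 : EqOn (fun z : ℂ × ℂ => F (z.1, 0)) (fun z => z.1) (Tb κ₀ (ε / 2)) := by
    refine tube_eq κ0 (half_pos ε0) (fun z hz => (Fa (z.1, 0) ⟨hz.1, by simpa using ε0,
      by simpa using κ0⟩).comp_of_eq (analyticAt_fst.prod analyticAt_const) rfl)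
      (fun z _ => analyticAt_fst) fun q hq => ?_
    have h1 := Fr (q.1, 0) (by simpa using ε0)
    have h2 : g (ψ (q.1, 0)) = q.1 := pinj (gp _)
    rw [h2] at h1
    simpa [cx] using h1
  set k := min κ₀ (ε / 2) / 2 with hk
  have m0 : 0 < min κ₀ (ε / 2) := lt_min κ0 (half_pos ε0)
  have k0 : 0 < k := half_pos m0
  have k1 : k < κ₀ := (half_lt_self m0).trans_le (min_le_left _ _)
  have k2 : k < ε / 2 := (half_lt_self m0).trans_le (min_le_right _ _)
  obtain ⟨M, M0, hM⟩ := bound k1 k2 Fa Fp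
  set κ := min (min k (k ^ 2 / M)) (r / 2) with hκ
  have κp : 0 < κ := lt_min (lt_min k0 (by positivity)) (half_pos cur.rpos)
  have κk : κ ≤ k := (min_le_left _ _).trans (min_le_left _ _)
  have κM : κ ≤ k ^ 2 / M := (min_le_left _ _).trans (min_le_right _ _)
  have κr : κ ≤ r / 2 := min_le_right _ _
  have sub : ∀ q ∈ Strip κ ×ˢ ball (0 : ℂ) κ, q ∈ Tb κ₀ (ε / 2) := fun q hq =>
    mem_Tb k1 k2 (hq.1.le.trans κk) ((mem_ball_zero_iff.1 hq.2).le.trans κk)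
  have real : ∀ x w : ℝ, |w| < κ → F (x, w) = (g (ψ (x, w)) : ℝ) := fun x w hw =>
    Fr (x, w) (by linarith)
  have bd : ∀ q ∈ Strip κ ×ˢ ball (0 : ℂ) κ, ‖F q - q.1‖ ≤ ‖q.2‖ := by
    rintro ⟨x, w⟩ ⟨hx, hw⟩
    have hx' : |x.im| ≤ k := hx.le.trans κk
    have mem : ∀ w ∈ ball (0 : ℂ) k, (x, w) ∈ Tb κ₀ (ε / 2) := fun w hw =>
      mem_Tb k1 k2 hx' (mem_ball_zero_iff.1 hw).le
    have e0 : F (x, 0) = x := F0 (mem 0 (mem_ball_self k0))
    have hw' : ‖w‖ < κ := mem_ball_zero_iff.1 hw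
    have := schwarz (f := fun w => F (x, w)) (k := k) (M := M)
      (fun w hw => ((Fa _ (mem w hw)).differentiableAt.comp w (by fun_prop)).differentiableWithinAt)
      (fun w hw => Fe (mem w hw))
      (fun w hw => by rw [e0]; exact hM x w hx' (mem_ball_zero_iff.1 hw).le)
      (mem_ball_zero_iff.2 (hw'.trans_le κk))
    rw [e0] at this
    refine this.trans ?_
    have h1 : ‖w‖ * M ≤ k ^ 2 := (le_div_iff₀ M0).1 (hw'.le.trans κM)
    rw [div_pow, ← mul_div_assoc, div_le_iff₀ (by positivity)]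
    nlinarith [norm_nonneg w]
  have val : ∀ q ∈ Strip κ ×ˢ ball (0 : ℂ) κ, F q ∈ Strip r := fun q hq => by
    have h1 := (Complex.abs_im_le_norm _).trans (bd q hq)
    have h2 : ‖q.2‖ < κ := mem_ball_zero_iff.1 hq.2
    have h3 : |q.1.im| < κ := hq.1
    have h4 := abs_add_le (F q - q.1).im q.1.im
    rw [Complex.sub_im, sub_add_cancel] at h4
    rw [Complex.sub_im] at h1
    show |(F q).im| < r
    linarith
  have th : ∀ x w : ℝ, θ (g (ψ (x, w)) : ℝ) = (ψ (x, w) : ℝ) := fun x w => by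
    rw [(agr _).1, gp]
  have so : IsOpen (Strip r) := isOpen_lt (by fun_prop) continuous_const
  refine ⟨κ, F, ⟨κp, fun q hq => Fa q (sub q hq), bd, fun q hq => Fp q (sub q hq),
    fun q hq => Fe (sub q hq), fun x w hw => by rw [real x w hw, Complex.ofReal_im],
    fun q hq h1 h2 => ?_⟩, by linarith, by linarith, fun x w hw => by rw [real x w hw, th]⟩
  have cv : Convex ℝ ((Strip κ ×ˢ ball (0 : ℂ) κ) ∩
      ({z : ℂ × ℂ | z.1 - z.2 ∈ Strip κ} ∩ {z : ℂ × ℂ | z.1 + z.2 ∈ Strip κ})) :=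
    ((convex_abs_lt Complex.imLm κ).prod (convex_ball 0 κ)).inter
      ((convex_abs_lt (Complex.imLm.comp (LinearMap.fst ℝ ℂ ℂ - LinearMap.snd ℝ ℂ ℂ)) κ).inter
        (convex_abs_lt (Complex.imLm.comp (LinearMap.fst ℝ ℂ ℂ + LinearMap.snd ℝ ℂ ℂ)) κ))
  refine eqOn2 cv.isPreconnected
    (F := fun z => law θ H (F (z.1 - z.2, z.2)) (F z) (F (z.1 + z.2, z.2))) (G := fun _ => 0)
    (fun z hz => ?_) analyticOnNhd_const (q := (0, κ / 2)) ?_ ?_ ⟨hq, h1, h2⟩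
  · have a1 : (z.1 - z.2, z.2) ∈ Strip κ ×ˢ ball (0 : ℂ) κ := ⟨hz.2.1, hz.1.2⟩
    have a2 : (z.1 + z.2, z.2) ∈ Strip κ ×ˢ ball (0 : ℂ) κ := ⟨hz.2.2, hz.1.2⟩
    exact law_an (cur.dθ.analyticOnNhd so) (cur.dH.analyticOnNhd so)
      ((Fa _ (sub _ a1)).comp_of_eq ((analyticAt_fst.sub analyticAt_snd).prod analyticAt_snd) rfl)
      (Fa _ (sub _ hz.1))
      ((Fa _ (sub _ a2)).comp_of_eq ((analyticAt_fst.add analyticAt_snd).prod analyticAt_snd) rfl)
      (val _ a1) (val _ hz.1) (val _ a2)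
  · refine ⟨⟨?_, ?_⟩, ?_, ?_⟩
    · simpa [cx, Strip] using κp
    · rw [cx, mem_ball_zero_iff, Complex.norm_real, Real.norm_eq_abs, abs_of_pos (half_pos κp)]
      exact half_lt_self κp
    · show |(((0 : ℝ) : ℂ) - ((κ / 2 : ℝ) : ℂ)).im| < κ
      rw [← Complex.ofReal_sub, Complex.ofReal_im, abs_zero]
      exact κp
    · show |(((0 : ℝ) : ℂ) + ((κ / 2 : ℝ) : ℂ)).im| < κ
      rw [← Complex.ofReal_add, Complex.ofReal_im, abs_zero]
      exact κp
  · have : ∀ᶠ p : ℝ × ℝ in 𝓝 (0, κ / 2), p.2 ∈ Ioo 0 κ :=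
      continuous_snd.continuousAt.eventually (Ioo_mem_nhds (half_pos κp) (half_lt_self κp))
    filter_upwards [this] with p hp
    have hw : |p.2| < κ := by rw [abs_of_pos hp.1]; exact hp.2
    have := (hlaw p.1 p.2 _ _ _ hp.1 (by linarith [hp.2]) (th _ _) (th _ _) (th _ _)).1
    rw [← real _ _ hw, ← real _ _ hw, ← real _ _ hw] at this
    simpa [cx] using this

end Vale.Agent.P097Top
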