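import Vale.Agent.P097Top.Cls
import Vale.Agent.P097Top.CoreB
import Vale.Agent.P097Top.Cur
import Vale.Agent.P097Top.Rl
import Vale.Agent.P097Top.Y0
import Vale.Agent.P097Top.Germ
import Vale.Agent.P097Top.Sup2
import Vale.Agent.P097Top.Wr
import Vale.Agent.P097Top.Leaf
import Vale.Agent.P097Top.PropN
import Vale.Agent.P097Top.PropY
import Vale.Agent.P097Top.Tube
import Vale.Agent.P097Top.Uw
import Vale.Agent.P097Top.Two
import Vale.Agent.P097Top.NoReg
import Vale.Agent.P097T.T3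
import Vale.Agent.P097T.UAll
import Vale.Agent.P097T.RTr
import Vale.Agent.P097T.SVert
import Vale.Agent.P097T.STube
import Vale.Agent.P097T.OutCont
import Vale.Agent.P097T.SY0
import Vale.Agent.P097T.XExt
import Vale.Agent.P097T.SSel
import Vale.Agent.P097C.ACore
import Vale.Agent.P097C.Alg
import Vale.Agent.P097C.Alg1
import Vale.Agent.P097C.Alg2
import Vale.Agent.P097C.Det
import Vale.Agent.P097C.Hb
import Vale.Agent.P097C.Occ
import Vale.Agent.P097C.Occ2
import Vale.Agent.P097C.Ode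
import Vale.Agent.P097C.Paste
import Vale.Agent.P097C.Rig
import Vale.Agent.P097C.TameA
import Vale.Agent.P097C.TopX
import Vale.Agent.P097C.Wfin
import Vale.Agent.P097C.Wr
import Vale.Agent.P097C.Wu
import Vale.Agent.P097N.Bridge

/-!
# P097Top: assembly of the closed blocks
-/

set_option linter.all false

noncomputable section

namespace Vale.Agent.P097Top

open Vale.Agent.P097 Vale.Agent.P097T

theorem t3_of (M : Out.Spec_MODEL) : P097T.Spec_T3 :=
  Out.t3_end (Out.t3 (Out.t3c (Out.t3t M Out.uw' Out.tr' Out.vert)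
    (Out.tube0 Out.cont Out.y0 Out.vert) Out.xr Out.vert) Out.sel) nf

theorem tri_of (M : Out.Spec_MODEL) : Spec_TRI := tri (t3_of M) nf cur

theorem noreg_of (M : Out.Spec_MODEL) (NB : Spec_NATB) : Spec_NOREG :=
  noreg rl germ (lf2f rl germ) (propy propn) (tube rl germ) (uw M Out.uw') NB (two germ)

theorem core_anc (A : P097C.Spec_ANC) : Spec_CORE :=
  core_top (P097C.core_of (P097C.alg P097C.alg1 P097C.alg2)
    (P097C.acore P097C.occ P097C.occ2 P097C.wr (P097C.wfin P097C.paste')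
      (P097C.tameA (P097C.hb P097C.wu A) P097C.jen P097C.det_ne P097C.ent) (P097C.gd P097C.rig)
      (P097C.topx P097C.rig P097C.ode)))

theorem cr_of (M : Out.Spec_MODEL) (NB : Spec_NATB) (NC : P097N.SNoCalm1) (A : P097C.Spec_ANC) :
    Spec_CR :=
  cr (y0 rl) (P097N.nocalm_of NC) (sup2 rl germ (lf2f rl germ)) (leaf rl (lf2f rl germ) wr)
    (noreg_of M NB) (core_anc A)

theorem cls_of (M : Out.Spec_MODEL) (NB : Spec_NATB) (NC : P097N.SNoCalm1) (A : P097C.Spec_ANC)
    (N1 : Spec_N1) {h p : ℝ → ℝ} {c : ℝ} (hT : IsTable h) (hI : H402.IntBd h) (L : Laz h p c)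
    (k : ¬ H407.IsEllipse h) :
    ∃ (r : ℝ) (θ : ℂ → ℂ), 0 < r ∧ HolExt p θ (Strip r) ∧ NatB r θ ∧ ¬ Tame r θ :=
  cls (tri_of M) (cr_of M NB NC A) (y0 rl) N1 disc hT hI L k

theorem full_of (M : Out.Spec_MODEL) (NB : Spec_NATB) (NC : P097N.SNoCalm1) (A : P097C.Spec_ANC)
    (N1 : Spec_N1) (AD : Spec_AD) {h : ℝ → ℝ} (hT : IsTable h) (hI : H402.IntBd h) :
    H407.IsEllipse h :=
  full (tri_of M) (cr_of M NB NC A) AD (y0 rl) N1 disc hT hI

end Vale.Agent.P097Top
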