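import Vale.Agent.P097Top.NatB3
import Vale.Agent.P097.H500.StripExt

/-!
# P097Top: a meromorphic curve on the table lifts to the strip with natural boundary
-/

set_option linter.all false

noncomputable section

namespace Vale.Agent.P097Top

open Filter Topology Set Metric Complex Vale.Agent.P097 Vale.Agent.P097T Vale.Agent.P097T.EndTop
open scoped ComplexConjugate

namespace NB

/-- a lift on the strip of half width `t` -/
def Lift (r t : ℝ) (y : ℝ → ℝ) (F : ℂ → ℂ) : Prop :=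
  DifferentiableOn ℂ F (Strip t) ∧ MapsTo F (Strip t) (Strip r) ∧ ∀ x : ℝ, F x = (y x : ℝ)

variable {r t : ℝ} {y : ℝ → ℝ} {F : ℂ → ℂ}

theorem smono {a b : ℝ} (h : a ≤ b) : Strip a ⊆ Strip b := fun z hz =>
  lt_of_lt_of_le (show |z.im| < a from hz) h

theorem Lift.mono (h : Lift r t y F) {s : ℝ} (hs : s ≤ t) : Lift r s y F :=
  ⟨h.1.mono (smono hs), h.2.1.mono_left (smono hs), h.2.2⟩

theorem Lift.uniq {G : ℂ → ℂ} (h : Lift r t y F) (k : Lift r t y G) {z : ℂ} (hz : z ∈ Strip t) :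
    F z = G z :=
  H500.strip_eq (lt_of_le_of_lt (abs_nonneg _) hz) h.1 k.1
    (fun x => (h.2.2 x).trans (k.2.2 x).symm) z hz

theorem per1 (hp : ∀ x, y (x + 1) = y x + 1) (hd : DifferentiableOn ℂ F (Strip t))
    (he : ∀ x : ℝ, F x = (y x : ℝ)) {z : ℂ} (hz : z ∈ Strip t) : F (z + 1) = F z + 1 := by
  refine H500.strip_eq (f := fun z => F (z + 1)) (g := fun z => F z + 1)
    (lt_of_le_of_lt (abs_nonneg _) hz) (hd.comp (by fun_prop) (fun u hu => ?_))
    (hd.add_const 1) (fun x => ?_) z hz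
  · simpa [Strip] using hu
  · have := he (x + 1)
    rw [hp] at this
    push_cast at this
    simp only [this, he x]

theorem perZ (hp : ∀ x, y (x + 1) = y x + 1) (hd : DifferentiableOn ℂ F (Strip t))
    (he : ∀ x : ℝ, F x = (y x : ℝ)) (n : ℤ) {z : ℂ} (hz : z ∈ Strip t) :
    F (z + n) = F z + n := by
  induction n using Int.induction_on with
  | zero => simp
  | succ n ih =>
    have := per1 hp hd he (z := z + (n : ℤ)) (by simpa [Strip] using hz)
    push_cast at this ih ⊢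
    rw [← add_assoc, this, ih, add_assoc]
  | pred n ih =>
    have := per1 hp hd he (z := z + (-(n : ℤ) - 1 : ℤ)) (by simpa [Strip] using hz)
    push_cast at this ih ⊢
    rw [add_assoc, sub_add_cancel, ih] at this
    linear_combination -this

theorem Lift.sym (h : Lift r t y F) {z : ℂ} (hz : z ∈ Strip t) : conj (F (conj z)) = F z := by
  refine H500.strip_eq (f := conj ∘ F ∘ conj) (lt_of_le_of_lt (abs_nonneg _) hz)
    (fun u hu => (differentiableAt_conj_conj_iff.2 (h.1.differentiableAt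
      ((strip_open t).mem_nhds ?_))).differentiableWithinAt) h.1 (fun x => ?_) z hz
  · simpa [Strip] using hu
  · simp [h.2.2 x]

theorem ini (hr : 0 < r) (ha : ∀ x, AnalyticAt ℝ y x) (hp : ∀ x, y (x + 1) = y x + 1) :
    ∃ t F, 0 < t ∧ Lift r t y F := by
  obtain ⟨κ, Γ, hκ, h1, h2⟩ := H500.strip_ext (F := fun x => y x - x) one_pos
    (fun x => (ha x).sub analyticAt_id) (fun x => by simp only [hp]; ring)
  have hd : DifferentiableOn ℂ (fun z => Γ z + z) (Strip κ) := h1.add differentiableOn_id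
  have he : ∀ x : ℝ, Γ x + x = (y x : ℝ) := fun x => by rw [h2]; push_cast; ring
  obtain ⟨δ, hδ, hsub⟩ := ((isCompact_Icc (a := (0 : ℝ)) (b := 1)).image
    continuous_ofReal).exists_thickening_subset_open
    (hd.continuousOn.isOpen_inter_preimage (strip_open κ) (strip_open r)) (by
      rintro _ ⟨x, -, rfl⟩
      refine ⟨by simpa [Strip] using hκ, ?_⟩
      show Γ x + x ∈ Strip r
      rw [he]
      simpa [Strip] using hr)
  refine ⟨min κ δ, fun z => Γ z + z, lt_min hκ hδ, hd.mono (smono (min_le_left _ _)),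
    fun z hz => ?_, he⟩
  have h3 : z - (⌊z.re⌋ : ℤ) ∈ thickening δ ((fun x : ℝ => (x : ℂ)) '' Icc 0 1) := by
    refine mem_thickening_iff.2 ⟨_, ⟨Int.fract z.re, ⟨Int.fract_nonneg _,
      (Int.fract_lt_one _).le⟩, rfl⟩, ?_⟩
    have : z - (⌊z.re⌋ : ℤ) - (Int.fract z.re : ℝ) = z.im * I := by
      unfold Int.fract
      push_cast
      linear_combination -re_add_im z
    rw [dist_eq_norm, this, norm_mul, norm_I, mul_one, Complex.norm_real]
    exact lt_of_lt_of_le hz (min_le_right _ _)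
  obtain ⟨h4, h5⟩ := hsub h3
  have h6 := perZ hp hd he ⌊z.re⌋ h4
  rw [sub_add_cancel] at h6
  show Γ z + z ∈ Strip r
  rw [h6]
  simpa [Strip] using h5

theorem sup (hb : 0 < t) (h : ∀ s < t, ∃ s' F, s < s' ∧ Lift r s' y F) :
    ∃ F, Lift r t y F := by
  choose! τ G h1 h2 using h
  refine ⟨fun z => G |z.im| z, fun z hz => ?_, fun z hz => (h2 _ hz).2.1 (h1 _ hz), fun x => ?_⟩
  · have k1 : z ∈ Strip (τ |z.im|) := h1 _ hz
    refine (((h2 _ hz).1.differentiableAt ((strip_open _).mem_nhds k1)).congr_of_eventuallyEq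
      ?_).differentiableWithinAt
    filter_upwards [(strip_open _).mem_nhds k1, (strip_open _).mem_nhds hz] with u k2 k3
    exact ((h2 _ k3).mono (min_le_left _ (τ |z.im|))).uniq ((h2 _ hz).mono (min_le_right _ _))
      (lt_min (h1 _ k3) k2)
  · exact (h2 _ (by simpa using hb)).2.2 x

theorem step (ht : 0 < t) (hp : ∀ x, y (x + 1) = y x + 1) (h : Lift r t y F)
    (hl : ∀ x₀ : ℂ, x₀.im = t →
      ∃ G : ℂ → ℂ, AnalyticAt ℂ G x₀ ∧ G x₀ ∈ Strip r ∧ ∀ᶠ x in Fl x₀, G x = F x) :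
    ∃ t' F', t < t' ∧ Lift r t' y F' := by
  classical
  have h1 : ∀ a : ℝ, ∃ (ρ : ℝ) (G : ℂ → ℂ), 0 < ρ ∧
      DifferentiableOn ℂ G (ball (a + t * I) ρ) ∧ MapsTo G (ball (a + t * I) ρ) (Strip r) ∧
      ∀ x ∈ ball (a + t * I : ℂ) ρ, x.im < t → G x = F x := by
    intro a
    obtain ⟨G, g1, g2, g3⟩ := hl (a + t * I) (by simp)
    obtain ⟨ρ, hρ, hb⟩ := Metric.eventually_nhds_iff_ball.1 (g1.eventually_analyticAt.and
      ((g1.continuousAt.eventually ((strip_open r).mem_nhds g2)).and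
        (eventually_nhdsWithin_iff.1 g3)))
    exact ⟨ρ, G, hρ, fun x hx => (hb x hx).1.differentiableAt.differentiableWithinAt,
      fun x hx => (hb x hx).2.1, fun x hx hi => (hb x hx).2.2 (by simpa using hi)⟩
  choose ρ G₀ hρ g1 g2 g3 using h1
  obtain ⟨ε₀, hε₀, hL⟩ := lebesgue_number_lemma_of_metric
    (s := (fun a : ℝ => (a + t * I : ℂ)) '' Icc 0 1) (c := fun a : ℝ => ball (a + t * I : ℂ) (ρ a))
    (isCompact_Icc.image (by fun_prop)) (fun _ => isOpen_ball) (by
      rintro _ ⟨a, -, rfl⟩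
      exact mem_iUnion.2 ⟨a, mem_ball_self (hρ a)⟩)
  obtain ⟨ε, hε, hε1, hε2⟩ : ∃ ε : ℝ, 0 < ε ∧ ε ≤ ε₀ ∧ ε ≤ t :=
    ⟨min ε₀ t, lt_min hε₀ ht, min_le_left _ _, min_le_right _ _⟩
  have hst : ∀ a : ℝ, ∀ x ∈ ball (a + t * I : ℂ) ε, x.im < t → x ∈ Strip t := fun a x hx hi =>
    hd_sub_strip (y := a + t * I) (by simp) hε2 ⟨hx, by simpa using hi⟩
  have h2 : ∀ a : ℝ, ∃ G : ℂ → ℂ,
      DifferentiableOn ℂ G (ball (a + t * I) ε) ∧ MapsTo G (ball (a + t * I) ε) (Strip r) ∧
      ∀ x ∈ ball (a + t * I : ℂ) ε, x.im < t → G x = F x := by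
    intro a
    obtain ⟨b, hb⟩ := hL _ ⟨Int.fract a, ⟨Int.fract_nonneg _, (Int.fract_lt_one _).le⟩, rfl⟩
    have hm : MapsTo (fun x : ℂ => x - (⌊a⌋ : ℤ)) (ball (a + t * I : ℂ) ε)
        (ball (b + t * I : ℂ) (ρ b)) := by
      intro x hx
      refine hb (ball_subset_ball hε1 ?_)
      rw [mem_ball, dist_eq_norm] at hx ⊢
      have : x - (⌊a⌋ : ℤ) - ((Int.fract a : ℝ) + t * I) = x - (a + t * I) := by
        unfold Int.fract
        push_cast
        ring
      simp only [this]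
      exact hx
    refine ⟨fun x => G₀ b (x - (⌊a⌋ : ℤ)) + (⌊a⌋ : ℤ), ((g1 b).comp (by fun_prop) hm).add_const _,
      fun x hx => by simpa [Strip] using g2 b (hm hx), fun x hx hi => ?_⟩
    have k1 := perZ hp h.1 h.2.2 ⌊a⌋ (z := x - (⌊a⌋ : ℤ)) (by simpa [Strip] using hst a x hx hi)
    rw [sub_add_cancel] at k1
    simp only [g3 b _ (hm hx) (by simpa using hi), k1]
  choose G g4 g5 g6 using h2
  obtain ⟨U, hU⟩ : ∃ U : ℂ → ℂ, U = fun x => if x.im < t then F x else G x.re x := ⟨_, rfl⟩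
  have hown : ∀ x : ℂ, t ≤ x.im → x.im < t + ε → x ∈ ball (x.re + t * I : ℂ) ε := by
    intro x k1 k2
    have : x - (x.re + t * I) = (x.im - t : ℝ) * I := by apply Complex.ext <;> simp
    rw [mem_ball, dist_eq_norm, this, norm_mul, norm_I, mul_one, Complex.norm_real,
      Real.norm_eq_abs, abs_of_nonneg (by linarith)]
    linarith
  have hUG : ∀ a : ℝ, ∀ x ∈ ball (a + t * I : ℂ) ε, U x = G a x := by
    intro a x hx
    rw [hU]
    by_cases hi : x.im < t
    · simp only [if_pos hi, g6 a x hx hi]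
    simp only [if_neg hi]
    have k0 := hx
    rw [mem_ball, dist_eq_norm] at k0
    have k1 : x.im < t + ε := by
      have := (abs_le.1 (abs_im_le_norm (x - (a + t * I)))).2
      simp at this
      linarith
    have k2 : (x.re + t * I : ℂ) ∈ ball (a + t * I : ℂ) ε := by
      have e : (x.re + t * I : ℂ) - (a + t * I) = ((x - (a + t * I)).re : ℝ) := by
        apply Complex.ext <;> simp
      rw [mem_ball, dist_eq_norm, e, Complex.norm_real]
      exact lt_of_le_of_lt (abs_re_le_norm _) k0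
    have hV : IsOpen (ball (x.re + t * I : ℂ) ε ∩ ball (a + t * I : ℂ) ε) :=
      isOpen_ball.inter isOpen_ball
    haveI := fl_neBot (x.re + t * I : ℂ)
    refine (((g4 x.re).mono inter_subset_left).analyticOnNhd hV).eqOn_of_preconnected_of_frequently_eq
      (((g4 a).mono inter_subset_right).analyticOnNhd hV)
      ((convex_ball _ _).inter (convex_ball _ _)).isPreconnected ⟨mem_ball_self hε, k2⟩
      (Frequently.filter_mono (Eventually.frequently ?_) (fl_ne _))
      ⟨hown x (not_lt.1 hi) k1, hx⟩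
    filter_upwards [fl_le _ (hV.mem_nhds ⟨mem_ball_self hε, k2⟩), hd_mem _ hε] with u k3 k4
    have k5 : u.im < t := by simpa using (show u.im < (x.re + t * I : ℂ).im from k4.2)
    rw [g6 _ u k3.1 k5, g6 _ u k3.2 k5]
  have hUF : ∀ x : ℂ, x.im < t → U x = F x := fun x hi => by rw [hU]; exact if_pos hi
  have hUp : ∀ x : ℂ, 0 ≤ x.im → x.im < t + ε → DifferentiableAt ℂ U x ∧ U x ∈ Strip r := by
    intro x k1 k2
    by_cases hi : x.im < t
    · have k3 : x ∈ Strip t := by
        show |x.im| < t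
        rwa [abs_of_nonneg k1]
      refine ⟨(h.1.differentiableAt ((strip_open t).mem_nhds k3)).congr_of_eventuallyEq ?_,
        by rw [hUF x hi]; exact h.2.1 k3⟩
      filter_upwards [(isOpen_lt continuous_im continuous_const).mem_nhds hi] with u hu
      exact hUF u hu
    · have k3 := hown x (not_lt.1 hi) k2
      refine ⟨((g4 _).differentiableAt (isOpen_ball.mem_nhds k3)).congr_of_eventuallyEq ?_,
        by rw [hUG _ x k3]; exact g5 _ k3⟩
      filter_upwards [isOpen_ball.mem_nhds k3] with u hu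
      exact hUG _ u hu
  refine ⟨t + ε, fun x => if 0 ≤ x.im then U x else conj (U (conj x)), by linarith,
    fun x hx => ?_, fun x hx => ?_, fun x => ?_⟩
  · have hx' := abs_lt.1 (show |x.im| < t + ε from hx)
    rcases lt_trichotomy x.im 0 with k | k | k
    · have k1 := differentiableAt_conj_conj_iff.2
        (hUp (conj x) (by simp; linarith) (by simp; linarith)).1
      refine (k1.congr_of_eventuallyEq ?_).differentiableWithinAt
      filter_upwards [(isOpen_lt continuous_im continuous_const).mem_nhds k] with u hu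
      exact if_neg (not_le.2 hu)
    · have k1 : x ∈ Strip t := by simpa [Strip, k] using ht
      refine ((h.1.differentiableAt ((strip_open t).mem_nhds k1)).congr_of_eventuallyEq
        ?_).differentiableWithinAt
      filter_upwards [(strip_open t).mem_nhds k1] with u hu
      have hu' := abs_lt.1 (show |u.im| < t from hu)
      split_ifs
      · exact hUF u hu'.2
      · rw [hUF _ (by simp; linarith), h.sym hu]
    · refine ((hUp x k.le hx'.2).1.congr_of_eventuallyEq ?_).differentiableWithinAt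
      filter_upwards [(isOpen_lt continuous_const continuous_im).mem_nhds k] with u hu
      exact if_pos (le_of_lt hu)
  · have hx' := abs_lt.1 (show |x.im| < t + ε from hx)
    simp only
    split_ifs with k
    · exact (hUp x k hx'.2).2
    · simpa [Strip] using (hUp (conj x) (by simp; linarith) (by simp; linarith)).2
  · simp only [ofReal_im, le_refl, if_true]
    rw [hUF _ (by simpa using ht), h.2.2]

/-- the identity theorem on the upper half of the strip -/
theorem ident {T : ℝ} {A B Z : ℂ → ℂ} {x₀ : ℂ} (ht : 0 < t) (hT : t < T) (hx : x₀.im = t)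
    (hZ : MeromorphicOn Z (U.St T)) (hA : AnalyticOnNhd ℂ A (Strip t))
    (hB : AnalyticOnNhd ℂ B (Strip t)) (he : ∀ x : ℝ, Z x * A x = B x) :
    ∀ᶠ x in Fl x₀, Z x * A x = B x := by
  obtain ⟨V, hV⟩ : ∃ V : Set ℂ, V = {z : ℂ | 0 ≤ z.im} ∩ {z : ℂ | z.im < t} := ⟨_, rfl⟩
  have v1 : V ⊆ U.St T := by
    rw [hV]
    rintro z ⟨k1, k2⟩
    exact (show 0 ≤ z.im from k1).eq_or_lt.imp Eq.symm (fun k => ⟨k, lt_trans k2 hT⟩)
  have v2 : V ⊆ Strip t := by
    rw [hV]
    rintro z ⟨k1, k2⟩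
    show |z.im| < t
    rwa [abs_of_nonneg k1]
  have v3 : IsPreconnected V := by
    rw [hV]
    exact ((convex_halfSpace_im_ge _).inter (convex_halfSpace_im_lt _)).isPreconnected
  have v4 : ((0 : ℝ) : ℂ) ∈ V := by rw [hV]; exact ⟨by simp, by simpa using ht⟩
  have hf : MeromorphicOn (Z * A - B) V :=
    ((hZ.mono_set v1).mul (hA.mono v2).meromorphicOn).sub (hB.mono v2).meromorphicOn
  have h0 : meromorphicOrderAt (Z * A - B) ((0 : ℝ) : ℂ) = ⊤ := by
    rw [meromorphicOrderAt_eq_top_iff]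
    rcases (hf _ v4).eventually_eq_zero_or_eventually_ne_zero with k | k
    · exact k
    · exfalso
      have t1 : Tendsto (fun t : ℝ => (t : ℂ)) (𝓝[≠] 0) (𝓝[≠] ((0 : ℝ) : ℂ)) := by
        refine tendsto_nhdsWithin_iff.2 ⟨(continuous_ofReal.tendsto 0).mono_left
          nhdsWithin_le_nhds, ?_⟩
        filter_upwards [self_mem_nhdsWithin] with t ht
        simpa using ht
      obtain ⟨x, k1⟩ := (t1.eventually k).exists
      exact k1 (sub_eq_zero.2 (he x))
  have h1 : MeromorphicAt Z x₀ := hZ x₀ (Or.inr ⟨by rwa [hx], by rwa [hx]⟩)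
  filter_upwards [h1.eventually_analyticAt.filter_mono (fl_ne x₀), hd_mem x₀ ht] with x k1 k2
  have k3 : x ∈ V := by
    rw [hV]
    have k4 := (abs_le.1 (abs_im_le_norm (x - x₀))).1
    have k5 := k2.1
    rw [mem_ball, dist_eq_norm] at k5
    rw [sub_im, hx] at k4
    exact ⟨show 0 ≤ x.im by linarith, show x.im < t from hx ▸ k2.2⟩
  have k4 : meromorphicOrderAt (Z * A - B) x = ⊤ := by
    by_contra k
    exact hf.meromorphicOrderAt_ne_top_of_isPreconnected v3 k3 v4 k h0
  have k5 : ContinuousAt (Z * A - B) x :=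
    ((k1.mul (hA x (v2 k3))).sub (hB x (v2 k3))).continuousAt
  exact sub_eq_zero.1 (tendsto_nhds_unique (k5.tendsto.mono_left nhdsWithin_le_nhds)
    (tendsto_const_nhds.congr' ((meromorphicOrderAt_eq_top_iff.1 k4).mono (fun _ h => h.symm))))

end NB

open NB in
theorem natb : Spec_NATB := by
  intro r c T θ H Q Z W y h hN hT hZ hW ha hp he
  obtain ⟨t₀, F₀, ht₀, h₀⟩ := ini h.rpos ha hp
  obtain ⟨𝒯, h𝒯⟩ : ∃ 𝒯 : Set ℝ, 𝒯 = {t | t ≤ T ∧ ∃ F, Lift r t y F} := ⟨_, rfl⟩
  have m0 : min t₀ T ∈ 𝒯 := by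
    rw [h𝒯]; exact ⟨min_le_right _ _, F₀, h₀.mono (min_le_left _ _)⟩
  have hb : ∀ s ∈ 𝒯, s ≤ T := by rw [h𝒯]; exact fun s hs => hs.1
  have hbd : BddAbove 𝒯 := ⟨T, hb⟩
  have ht : 0 < sSup 𝒯 := lt_of_lt_of_le (lt_min ht₀ hT) (le_csSup hbd m0)
  obtain ⟨F, hF⟩ : ∃ F, Lift r (sSup 𝒯) y F := sup ht (fun s hs => by
    obtain ⟨s', k1, k2⟩ := exists_lt_of_lt_csSup ⟨_, m0⟩ hs
    rw [h𝒯] at k1
    obtain ⟨-, F, k3⟩ := k1
    exact ⟨s', F, k2, k3⟩)
  rcases (csSup_le ⟨_, m0⟩ hb).eq_or_lt with k | k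
  · exact ⟨F, k ▸ hF⟩
  exfalso
  have hA := hF.1.analyticOnNhd (strip_open _)
  obtain ⟨t', F', k1, k2⟩ := step ht hp hF (fun x₀ hx => by
    have m : x₀ ∈ U.St T := Or.inr ⟨by rwa [hx], by rwa [hx]⟩
    have a1 : AnalyticOnNhd ℂ (fun x => deriv θ (F x)) (Strip (sSup 𝒯)) :=
      fun x hx => (an_g h (hF.2.1 hx)).comp (hA x hx)
    refine loc h hN (hZ x₀ m) (hW x₀ m) ?_ ?_
    · filter_upwards [hd_mem x₀ ht,
        ident (B := fun x => fZ θ H (F x)) ht k hx hZ a1
          (fun x hx => (an_fZ h (hF.2.1 hx)).comp (hA x hx))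
          (fun x => by simp only [hF.2.2 x]; exact (he x).1),
        ident (B := fun x => fW θ H (F x)) ht k hx hW a1
          (fun x hx => (an_fW h (hF.2.1 hx)).comp (hA x hx))
          (fun x => by simp only [hF.2.2 x]; exact (he x).2)] with x b1 b2 b3
      have b4 := hd_sub_strip hx le_rfl b1
      exact ⟨(hA x b4).differentiableAt, hF.2.1 b4, b2, b3⟩
    · by_contra hcon
      haveI := fl_neBot x₀
      obtain ⟨δ, hδ, hs⟩ := mem_fl.1 ((not_frequently.1 hcon).and (hd_mem x₀ ht))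
      obtain ⟨u, hu⟩ := Filter.nonempty_of_mem (hd_mem x₀ hδ)
      have b1 := hA.deriv.eqOn_zero_of_preconnected_of_eventuallyEq_zero
        (strip_convex _).isPreconnected (hd_sub_strip hx le_rfl (hs hu).2) (by
          filter_upwards [(hd_open x₀ δ).mem_nhds hu] with v hv
          exact not_not.1 (hs hv).1)
      have b2 : (0 : ℂ) ∈ Strip (sSup 𝒯) := by simpa [Strip] using ht
      have b3 := (strip_open _).is_const_of_deriv_eq_zero (strip_convex _).isPreconnected hF.1 b1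
        (x := 0 + 1) (by simpa [Strip] using ht) b2
      rw [per1 hp hF.1 hF.2.2 b2] at b3
      simp at b3)
  have m1 : min t' T ∈ 𝒯 := by
    rw [h𝒯]; exact ⟨min_le_right _ _, F', k2.mono (min_le_left _ _)⟩
  exact absurd (le_csSup hbd m1) (not_le.2 (lt_min k1 k))

end Vale.Agent.P097Top
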