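import Vale.Agent.P097Top.Asm
import Vale.Agent.P097Top.NatB
import Vale.Agent.P097N.All
import Vale.Agent.P097C.Core

/-!
# P097Top: the critical case from the algebraic model alone
-/

set_option linter.all false

noncomputable section

namespace Vale.Agent.P097Top

open Vale.Agent.P097 Vale.Agent.P097T

theorem noreg_m (M : Out.Spec_MODEL) : Spec_NOREG := noreg_of M natb

theorem cr_m (M : Out.Spec_MODEL) : Spec_CR :=
  cr (y0 rl) P097N.nocalm (sup2 rl germ (lf2f rl germ)) (leaf rl (lf2f rl germ) wr)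
    (noreg_m M) P097C.core

theorem cls_m (M : Out.Spec_MODEL) (N1 : Spec_N1) {h p : ℝ → ℝ} {c : ℝ} (hT : IsTable h)
    (hI : H402.IntBd h) (L : Laz h p c) (k : ¬ H407.IsEllipse h) :
    ∃ (r : ℝ) (θ : ℂ → ℂ), 0 < r ∧ HolExt p θ (Strip r) ∧ NatB r θ ∧ ¬ Tame r θ :=
  cls (tri_of M) (cr_m M) (y0 rl) N1 disc hT hI L k

theorem full_m (M : Out.Spec_MODEL) (N1 : Spec_N1) (AD : Spec_AD) {h : ℝ → ℝ} (hT : IsTable h)
    (hI : H402.IntBd h) : H407.IsEllipse h :=
  full (tri_of M) (cr_m M) AD (y0 rl) N1 disc hT hI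

end Vale.Agent.P097Top
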