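import Vale.Agent.P097Top.LipM
import Vale.Agent.P097Top.Lit2
import Vale.Agent.P097S.Asm2
import Vale.Agent.P097S.Ncl23
import Vale.Agent.P097K.Core2

/-!
# P097Top: no linear loss on the real leaves, no good cones
-/

set_option linter.all false

noncomputable section

namespace Vale.Agent.P097S

open Filter Topology Set Metric Complex Vale.Agent.P097 Vale.Agent.P097T Vale.Agent.P097Top EB EA

theorem lipM' : Spec_LIPM :=
  lipM rl germ (lf2f rl germ) (sup2 rl germ (lf2f rl germ)) (tube rl germ) uw' natb (two germ)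

/-- bounded moments are impossible -/
theorem mom_false (CB : Spec_CB) {h : ℝ → ℝ} {ε : ℝ} {ψ δ : ℝ × ℝ → ℝ} {r c : ℝ} {θ H Q : ℂ → ℂ}
    (N : Gm.NF h ε ψ δ) (C : Cur r c θ H Q) (A : Agr h ψ θ H) (B : NatB r θ)
    (M : P097M.Mom r (deriv θ) Q) : False := by
  obtain ⟨κ, Y₀, S, k1, k2, e⟩ := y0 rl h ε ψ δ r c θ H Q N C A
  have D := dt_of C S k2
  have Sy := sym_of C S
  have cb := CB _ _ _ _ _ _ _ D
  obtain ⟨k, m1, m2, m3⟩ := brg2 C.rpos (P097E.PB.fn_of_cur C).df.continuousOn C.dQ.continuousOn Sy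
    M (ncl2 _ _ _ _ _ _ _ D Sy cb (P097N.Bridge.not_over C.rpos C.dθ B))
  obtain ⟨n₀, L⟩ := leaf rl (lf2f rl germ) wr h ε ψ δ r c θ H Q N C A
  obtain ⟨m, hm⟩ := exists_nat_one_div_lt S.pos
  set n : ℕ := 2 * (n₀ + m) + 1 with hn
  have n0 : (0 : ℝ) < 1 / n := by positivity
  have n1 : (1 : ℝ) / n < κ := lt_of_le_of_lt
    (one_div_le_one_div_of_le (by positivity) (by rw [hn]; push_cast; nlinarith [
      (Nat.cast_nonneg n₀ : (0 : ℝ) ≤ n₀), (Nat.cast_nonneg m : (0 : ℝ) ≤ m)])) hm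
  obtain ⟨l1, l2, l3⟩ := L n (by omega) ⟨n₀ + m, hn⟩
  obtain ⟨T, Y, F, mx⟩ := sup2 rl germ (lf2f rl germ) h ε ψ δ r c (1 / n) κ θ H Q Y₀ N C A n0 l1
    (lf2_of S k2 e (by rwa [abs_of_pos n0]))
  obtain ⟨φ, p, D'⟩ := l3 T Y F
  exact P097K.core2 r c T θ H Q _ φ p k n C m1 m2 m3 D'
    (noreg' h ε ψ δ r c T θ H Q φ p n Y N C A B l1 l2 F mx D')

theorem stM (CB : Spec_CB) (H2 : P097M.Spec_H2) {h : ℝ → ℝ} {ε : ℝ} {ψ δ : ℝ × ℝ → ℝ} {r c : ℝ}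
    {θ H Q : ℂ → ℂ} (N : Gm.NF h ε ψ δ) (C : Cur r c θ H Q) (A : Agr h ψ θ H) (B : NatB r θ)
    (K : Mv r θ Q) : False := by
  obtain ⟨κ, Y₀, S, k1, k2, e⟩ := y0 rl h ε ψ δ r c θ H Q N C A
  exact mom_false CB N C A B (H2 r c θ H Q C (eta C S k2
    (lipM' h ε ψ δ r c κ θ H Q Y₀ N C A B S k1 k2 e (CB _ _ _ _ _ _ _ (dt_of C S k2)) K)))

theorem kc_of {r c s a d A : ℝ} {θ H Q : ℂ → ℂ} (C : Cur r c θ H Q) (d0 : 0 < d)
    (K : ∀ y : ℂ, 0 < y.im → d < r - y.im → |y.re - s| < a * (r - y.im) →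
      (‖deriv θ y‖ * (r - y.im)) ^ 4 * d ≤ A ^ 4 * (r - y.im) ∧
      (‖deriv (deriv (deriv θ)) y‖ * (r - y.im) ^ 2) ^ 2 * d ≤
        A ^ 4 * (r - y.im) * ‖deriv θ y‖ ^ 2) : Kc r θ Q s a d A := by
  have st : ∀ y ∈ Cn r s a d 0, y ∈ Strip r := fun y m =>
    show |y.im| < r from abs_lt.2 ⟨by linarith [m.1, C.rpos], by linarith [m.2.1]⟩
  have a1 : ∀ y ∈ Cn r s a d 0, deriv θ y ≠ 0 →
      (‖Q y‖ * (r - y.im) ^ 2) ^ 2 * d ≤ A ^ 4 * (r - y.im) := fun y m g => by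
    have := (K y m.1 m.2.1 m.2.2).2
    rw [C.ode y (st y m), norm_mul] at this
    refine le_of_mul_le_mul_right (le_of_eq_of_le (by ring) this) (pow_pos (norm_pos_iff.2 g) 2)
  refine fun y m => ⟨(K y m.1 m.2.1 m.2.2).1, ?_⟩
  by_cases g : deriv θ y = 0
  · have n := (strip_open r).mem_nhds (st y m)
    have g2 : deriv (deriv θ) y ≠ 0 := fun g2 => by
      have := C.laz y (st y m)
      rw [g, g2] at this
      have c0 : (c : ℂ) = 0 := by rw [← this]; ring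
      exact C.cpos.ne' (by exact_mod_cast c0)
    have d' : HasDerivAt (deriv θ) (deriv (deriv θ) y) y :=
      ((C.dθ.deriv (strip_open r)).differentiableAt n).hasDerivAt
    have e : ∀ᶠ z in 𝓝[≠] y, (‖Q z‖ * (r - z.im) ^ 2) ^ 2 * d ≤ A ^ 4 * (r - z.im) := by
      filter_upwards [d'.eventually_ne g2 (c := 0),
        mem_nhdsWithin_of_mem_nhds ((Lp.cn_open r s a d 0).mem_nhds m)] with z h1 h2
      exact a1 z h2 h1
    have i : Continuous fun z : ℂ => r - z.im := continuous_const.sub continuous_im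
    have t : ContinuousAt (fun z => (‖Q z‖ * (r - z.im) ^ 2) ^ 2 * d) y :=
      (((C.dQ.differentiableAt n).continuousAt.norm.mul (i.pow 2).continuousAt).pow 2).mul
        continuousAt_const
    exact le_of_tendsto_of_tendsto (t.tendsto.mono_left nhdsWithin_le_nhds)
      ((continuous_const.mul i).continuousAt.tendsto.mono_left nhdsWithin_le_nhds) e
  · exact a1 y m g

open Vale.Agent.P097B.Arc

theorem lit3 (POLY : P097E.Spec_POLY) (CB : Spec_CB) (H2 : P097M.Spec_H2) :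
    ∃ k : ℕ, ∀ (Ω : Set ℂ) (L : ℝ) (Γ : ℝ → ℂ), Table Ω L Γ → Filled L Γ → IsEllipse Ω ∨
    ∃ (p : ℝ → ℝ) (c R : ℝ) (P : ℂ → ℂ), (∀ x, AnalyticAt ℝ p x) ∧
      (∀ x, p (x + 1) = p x + 2 * Real.pi) ∧ (∀ x, 0 < deriv p x) ∧
      (∀ x, (supp Ω (p x) + deriv (deriv (supp Ω)) (p x)) * deriv p x ^ 3 = c) ∧
      0 < R ∧ DifferentiableOn ℂ P {y | |y.im| < R} ∧ (∀ x : ℝ, P x = p x) ∧
      (∀ (y₀ : ℂ) (r : ℝ) (P' : ℂ → ℂ), |y₀.im| = R → 0 < r →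
        DifferentiableOn ℂ P' ({y | |y.im| < R} ∪ Metric.ball y₀ r) → ¬ ∀ x : ℝ, P' x = p x) ∧
      (∃ C : ℝ, ∀ y : ℂ, |y.im| < R → ‖deriv P y‖ * (R - |y.im|) ^ k ≤ C ∧
        ‖deriv (deriv (deriv P)) y‖ * (R - |y.im|) ^ (2 * k) ≤ C * ‖deriv P y‖) ∧
      ¬ ∃ a A d₀ : ℝ, 0 < a ∧ 0 < d₀ ∧ ∀ d : ℝ, 0 < d → d < d₀ → ∃ s : ℝ, ∀ y : ℂ,
        0 < y.im → d < R - y.im → |y.re - s| < a * (R - y.im) →
        (‖deriv P y‖ * (R - y.im)) ^ 4 * d ≤ A ^ 4 * (R - y.im) ∧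
        (‖deriv (deriv (deriv P)) y‖ * (R - y.im) ^ 2) ^ 2 * d ≤
          A ^ 4 * (R - y.im) * ‖deriv P y‖ ^ 2 := by
  obtain ⟨k, hk⟩ := POLY
  refine ⟨k, fun Ω L Γ T F => or_iff_not_imp_left.2 fun n => ?_⟩
  obtain ⟨hT, hI⟩ := intBd T F
  obtain ⟨ε, c, r, ψ, δ, θ, H, Q, N, hL, A, C, B⟩ := base hT hI fun m => n ((dict T).2.2.2 m)
  obtain ⟨κ, Y, S, -, k2, -⟩ := y0 rl _ ε ψ δ r c θ H Q N C A
  obtain ⟨D, hD⟩ := hk r c κ θ H Q Y C S k2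
  refine ⟨_, c, r, θ, hL.an, hL.per, hL.pos, hL.eq, C.rpos, C.dθ, fun x => (A x).1,
    natb_lit A C B, ⟨D, fun y m => ⟨(hD y m).1, ?_⟩⟩, fun ⟨a, E, d₀, a0, e0, K⟩ =>
    stM CB H2 N C A B ⟨a, E, d₀, a0, e0, fun d d0 d1 => (K d d0 d1).imp fun s => kc_of C d0⟩⟩
  rw [C.ode y m, norm_mul, mul_right_comm]
  exact mul_le_mul_of_nonneg_right (hD y m).2 (norm_nonneg _)

end Vale.Agent.P097S
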