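import Vale.Agent.P097Top.Top
import Vale.Agent.P097B.Lit

/-!
# P097Top: the class theorem with literal objects
-/

set_option linter.all false

namespace Vale.Agent.P097Top

open Vale.Agent.P097B.Arc

theorem lit (N1 : Spec_N1) (Ω : Set ℂ) (L : ℝ) (Γ : ℝ → ℂ) (T : Table Ω L Γ) (F : Filled L Γ) :
    IsEllipse Ω ∨
    ∃ (p : ℝ → ℝ) (c R : ℝ) (P : ℂ → ℂ), (∀ x, AnalyticAt ℝ p x) ∧
      (∀ x, p (x + 1) = p x + 2 * Real.pi) ∧ (∀ x, 0 < deriv p x) ∧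
      (∀ x, (supp Ω (p x) + deriv (deriv (supp Ω)) (p x)) * deriv p x ^ 3 = c) ∧
      0 < R ∧ DifferentiableOn ℂ P {y | |y.im| < R} ∧ (∀ x : ℝ, P x = p x) ∧
      (∀ (y₀ : ℂ) (r : ℝ) (P' : ℂ → ℂ), |y₀.im| = R → 0 < r →
        DifferentiableOn ℂ P' ({y | |y.im| < R} ∪ Metric.ball y₀ r) → ¬ ∀ x : ℝ, P' x = p x) ∧
      ¬ ∃ C : ℝ, ∀ y : ℂ, |y.im| < R → ‖deriv P y‖ * (R - |y.im|) ≤ C ∧
        ‖deriv (deriv (deriv P)) y‖ * (R - |y.im|) ^ 2 ≤ C * ‖deriv P y‖ := by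
  obtain ⟨hT, hI⟩ := intBd T F
  refine or_iff_not_imp_left.2 fun k => ?_
  obtain ⟨p, c, hL⟩ := P097T.exists_laz hT hI
  obtain ⟨r, θ, r0, E, B, K⟩ := cls' N1 hT hI hL fun m => k ((dict T).2.2.2 m)
  refine ⟨p, c, r, θ, hL.an, hL.per, hL.pos, hL.eq, r0, E.hol, E.eq,
    fun y₀ ρ χ a b d e => B y₀ ρ χ a b d ?_, K⟩
  exact P097.H500.strip_eq r0 (d.mono Set.subset_union_left) E.hol fun x => (e x).trans (E.eq x).symm

theorem lit_full (N1 : Spec_N1) (AD : Spec_AD) (Ω : Set ℂ) (L : ℝ) (Γ : ℝ → ℂ) (T : Table Ω L Γ)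
    (F : Filled L Γ) : IsEllipse Ω :=
  (dict T).2.2.2 (full' N1 AD (intBd T F).1 (intBd T F).2)

end Vale.Agent.P097Top
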