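import Vale.Agent.P097Top.Defs
import Vale.Agent.P097T.EndTop1

/-!
# P097Top: continuation of a lift inside a strip with natural boundary (local part)
-/

set_option linter.all false

noncomputable section

namespace Vale.Agent.P097Top

open Filter Topology Set Metric Complex Vale.Agent.P097T Vale.Agent.P097T.EndTop

namespace NB

theorem inv_loc {f : ℂ → ℂ} {a : ℂ} (hf : AnalyticAt ℂ f a) (h : deriv f a ≠ 0) :
    ∃ σ : ℂ → ℂ, AnalyticAt ℂ σ (f a) ∧ σ (f a) = a ∧ ∀ᶠ x in 𝓝 a, σ (f x) = x :=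
  ⟨_, hf.analyticAt_localInverse h, (hf.hasStrictDerivAt.eventually_left_inverse h).self_of_nhds,
    hf.hasStrictDerivAt.eventually_left_inverse h⟩

variable {r : ℝ} {θ : ℂ → ℂ}

/-- the derivative does not continue across the boundary either -/
theorem nb (hθ : DifferentiableOn ℂ θ (Strip r)) (hN : NatB r θ) {y₀ y₁ : ℂ} {ρ : ℝ} {g : ℂ → ℂ}
    (h0 : |y₀.im| = r) (hg : DifferentiableOn ℂ g (ball y₀ ρ)) (h1 : y₁ ∈ ball y₀ ρ)
    (h2 : y₁ ∈ Strip r) (he : g =ᶠ[𝓝 y₁] deriv θ) : False := by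
  classical
  have hρ : 0 < ρ := lt_of_le_of_lt dist_nonneg (mem_ball.1 h1)
  obtain ⟨P, hP1, hP⟩ := hg.isExactOn_ball.with_val_at y₁ (θ y₁)
  have hV : IsOpen (ball y₀ ρ ∩ Strip r) := isOpen_ball.inter (strip_open r)
  have hC : IsPreconnected (ball y₀ ρ ∩ Strip r) :=
    ((convex_ball _ _).inter (strip_convex r)).isPreconnected
  have e1 : EqOn g (deriv θ) (ball y₀ ρ ∩ Strip r) :=
    ((hg.mono inter_subset_left).analyticOnNhd hV).eqOn_of_preconnected_of_eventuallyEq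
      (((hθ.deriv (strip_open r)).mono inter_subset_right).analyticOnNhd hV) hC ⟨h1, h2⟩ he
  have e2 : EqOn P θ (ball y₀ ρ ∩ Strip r) :=
    hV.eqOn_of_deriv_eq hC (fun y hy => (hP y hy.1).differentiableAt.differentiableWithinAt)
      (hθ.mono inter_subset_right) (fun y hy => (hP y hy.1).deriv.trans (e1 hy)) ⟨h1, h2⟩ hP1
  refine hN y₀ ρ (fun y => if y ∈ Strip r then θ y else P y) h0 hρ ?_ (fun y hy => if_pos hy)
  rintro y (hy | hy)
  · refine ((hθ.differentiableAt ((strip_open r).mem_nhds hy)).congr_of_eventuallyEq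
      ?_).differentiableWithinAt
    filter_upwards [(strip_open r).mem_nhds hy] with v hv
    exact if_pos hv
  · refine ((hP y hy).differentiableAt.congr_of_eventuallyEq ?_).differentiableWithinAt
    filter_upwards [isOpen_ball.mem_nhds hy] with v hv
    split_ifs with hv'
    · exact (e2 ⟨hv, hv'⟩).symm
    · rfl

/-- an unramified continuation stays in the strip -/
theorem cont (hθ : DifferentiableOn ℂ θ (Strip r)) (hN : NatB r θ) {U : Set ℂ} {G γ : ℂ → ℂ}
    {v₁ : ℂ} (hU : IsOpen U) (hc : IsPreconnected U) (hG : DifferentiableOn ℂ G U)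
    (hG' : ∀ v ∈ U, deriv G v ≠ 0) (hγ : DifferentiableOn ℂ γ U) (h1 : v₁ ∈ U)
    (h2 : ∀ᶠ v in 𝓝 v₁, G v ∈ Strip r ∧ deriv θ (G v) * deriv G v = γ v) :
    MapsTo G U (Strip r) := by
  have hA := hG.analyticOnNhd hU
  have hB := hγ.analyticOnNhd hU
  have hθ' := (hθ.deriv (strip_open r)).analyticOnNhd (strip_open r)
  suffices h : U ⊆ {u | ∀ᶠ v in 𝓝 u, G v ∈ Strip r ∧ deriv θ (G v) * deriv G v = γ v} from
    fun u hu => (h hu).self_of_nhds.1
  refine hc.subset_of_closure_inter_subset isOpen_setOf_eventually_nhds ⟨v₁, h1, h2⟩ ?_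
  rintro u ⟨hcl, hu⟩
  have hfr := mem_closure_iff_frequently.1 hcl
  by_cases hin : G u ∈ Strip r
  · by_contra hnot
    have k1 : ∃ᶠ v in 𝓝[≠] u, deriv θ (G v) * deriv G v = γ v := by
      rw [frequently_nhdsWithin_iff]
      refine hfr.mono (fun v hv => ⟨hv.self_of_nhds.2, ?_⟩)
      rintro rfl
      exact hnot hv
    have k2 : AnalyticAt ℂ (fun v => deriv θ (G v) * deriv G v) u :=
      ((hθ' _ hin).comp (hA u hu)).mul (hA u hu).deriv
    have k3 := (k2.frequently_eq_iff_eventually_eq (hB u hu)).1 k1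
    exact hnot (((hA u hu).continuousAt.eventually ((strip_open r).mem_nhds hin)).and k3)
  · exfalso
    have k1 : |(G u).im| = r := by
      refine le_antisymm ?_ (not_lt.1 hin)
      have k2 : ContinuousAt (fun v => |(G v).im|) u :=
        (continuous_abs.comp continuous_im).continuousAt.comp (hA u hu).continuousAt
      by_contra k3
      obtain ⟨v, k4, k5⟩ := (hfr.and_eventually (k2.eventually (lt_mem_nhds (not_le.1 k3)))).exists
      exact lt_asymm k5 k4.self_of_nhds.1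
    obtain ⟨σ, s1, s2, s3⟩ := inv_loc (hA u hu) (hG' u hu)
    have k2 : AnalyticAt ℂ (fun y => γ (σ y) / deriv G (σ y)) (G u) :=
      ((hB u hu).comp_of_eq s1 s2).div ((hA u hu).deriv.comp_of_eq s1 s2)
        (by simpa [s2] using hG' u hu)
    obtain ⟨ρ, hρ, hb⟩ := Metric.eventually_nhds_iff_ball.1 k2.eventually_analyticAt
    obtain ⟨a, a1, a2, a3, a4⟩ := (hfr.and_eventually ((eventually_eventually_nhds.2 s3).and
      (((hA u hu).continuousAt.eventually (ball_mem_nhds _ hρ)).and (hU.mem_nhds hu)))).exists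
    refine nb hθ hN k1 (fun y hy => (hb y hy).differentiableAt.differentiableWithinAt) a3
      a1.self_of_nhds.1 ?_
    rw [← (hA a a4).hasStrictDerivAt.map_nhds_eq (hG' a a4), eventuallyEq_map]
    filter_upwards [a1, a2, hU.mem_nhds a4] with v b1 b2 b3
    simp only [Function.comp, b2]
    rw [← b1.2, mul_div_cancel_right₀ _ (hG' v b3)]

/-- the derivative of a map into the strip -/
theorem cauchy {G : ℂ → ℂ} {v : ℂ} {R : ℝ} (hR : 0 < R) (hG : DifferentiableOn ℂ G (ball v R))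
    (hm : MapsTo G (ball v R) (Strip r)) : ‖deriv G v‖ ≤ 2 * Real.exp r * Real.exp r / R := by
  have hn : ∀ u ∈ ball v R, Real.exp (-r) ≤ ‖cexp (G u * I)‖ ∧ ‖cexp (G u * I)‖ ≤ Real.exp r := by
    intro u hu
    have := abs_lt.1 (show |(G u).im| < r from hm hu)
    rw [Complex.norm_exp]
    simp only [mul_re, I_re, mul_zero, I_im, mul_one, zero_sub]
    exact ⟨Real.exp_le_exp.2 (by linarith), Real.exp_le_exp.2 (by linarith)⟩
  have h1 := Complex.norm_deriv_le_div_of_mapsTo_ball (f := fun u => cexp (G u * I))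
    (R₂ := 2 * Real.exp r) ((hG.mul_const I).cexp) (fun u hu => by
      rw [mem_closedBall, dist_eq_norm]
      linarith [norm_sub_le (cexp (G u * I)) (cexp (G v * I)), (hn u hu).2,
        (hn v (mem_ball_self hR)).2]) hR
  have h2 := (((hG.differentiableAt (ball_mem_nhds v hR)).hasDerivAt.mul_const I).cexp).deriv
  rw [h2, norm_mul, norm_mul, norm_I, mul_one] at h1
  have h3 := mul_le_mul_of_nonneg_right (hn v (mem_ball_self hR)).1 (norm_nonneg (deriv G v))
  have h4 : Real.exp (-r) * Real.exp r = 1 := by rw [← Real.exp_add]; simp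
  have h5 := mul_le_mul_of_nonneg_right (h3.trans h1) (Real.exp_pos r).le
  calc ‖deriv G v‖ = Real.exp (-r) * ‖deriv G v‖ * Real.exp r := by
        rw [mul_right_comm, h4, one_mul]
    _ ≤ _ := h5
    _ = _ := by ring

theorem fl_ne (x : ℂ) : Fl x ≤ 𝓝[≠] x :=
  nhdsWithin_mono _ (fun u hu => by
    rintro rfl
    exact lt_irrefl _ (show u.im < u.im from hu))

/-- a local sixth root -/
theorem root6 {φ : ℂ → ℂ} {x : ℂ} (h : AnalyticAt ℂ φ x) (h0 : φ x ≠ 0) :
    ∃ ψ : ℂ → ℂ, AnalyticAt ℂ ψ x ∧ (∀ u, ψ u ≠ 0) ∧ ∀ᶠ u in 𝓝 x, ψ u ^ 6 = φ u := by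
  refine ⟨fun u => cexp ((log (φ u / φ x) + log (φ x)) / 6), ?_, fun u => exp_ne_zero _, ?_⟩
  · refine AnalyticAt.cexp' (AnalyticAt.div_const (AnalyticAt.add ?_ analyticAt_const))
    exact (h.div_const (c := φ x)).clog (by simp [h0])
  · filter_upwards [h.continuousAt.eventually_ne h0] with u hu
    rw [← Complex.exp_nat_mul, Nat.cast_ofNat, mul_div_cancel₀ _ (by norm_num), Complex.exp_add,
      Complex.exp_log (div_ne_zero hu h0), Complex.exp_log h0, div_mul_cancel₀ _ h0]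

/-- the extension across a boundary point once the limit exists -/
theorem ext_of_lim {F ζ M : ℂ → ℂ} {x₀ y₀ : ℂ} (hζ : AnalyticAt ℂ ζ y₀) (hζ' : deriv ζ y₀ ≠ 0)
    (hM : MeromorphicAt M x₀) (he : ∀ᶠ x in Fl x₀, ζ (F x) = M x)
    (hl : Tendsto F (Fl x₀) (𝓝 y₀)) :
    ∃ G : ℂ → ℂ, AnalyticAt ℂ G x₀ ∧ G x₀ = y₀ ∧ ∀ᶠ x in Fl x₀, G x = F x := by
  haveI := fl_neBot x₀
  have h1 : Tendsto M (Fl x₀) (𝓝 (ζ y₀)) := (hζ.continuousAt.tendsto.comp hl).congr' he
  have h2 : 0 ≤ meromorphicOrderAt M x₀ := by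
    by_contra h
    have h3 := (tendsto_cobounded_of_meromorphicOrderAt_neg (not_le.1 h)).mono_left (fl_ne x₀)
    exact not_tendsto_atTop_of_tendsto_nhds h1.norm (tendsto_norm_atTop_iff_cobounded.2 h3)
  obtain ⟨N, n1, n2⟩ := hM.meromorphicOrderAt_nonneg_iff.1 h2
  have n3 : M =ᶠ[Fl x₀] N := n2.filter_mono (fl_ne x₀)
  have n4 : N x₀ = ζ y₀ :=
    tendsto_nhds_unique (n1.continuousAt.tendsto.mono_left (fl_le x₀)) (h1.congr' n3)
  obtain ⟨σ, s1, s2, s3⟩ := inv_loc hζ hζ'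
  refine ⟨fun x => σ (N x), s1.comp_of_eq n1 n4, by simp only [n4, s2], ?_⟩
  filter_upwards [he, n3, hl.eventually s3] with x k1 k2 k3
  rw [← k2, ← k1, k3]

end NB

end Vale.Agent.P097Top
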