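import Vale.Agent.P097Top.NatB1

/-!
# P097Top: the lift has a limit inside the strip at a boundary point
-/

set_option linter.all false

noncomputable section

namespace Vale.Agent.P097Top

open Filter Topology Set Metric Complex Vale.Agent.P097T Vale.Agent.P097T.EndTop

namespace NB

variable {r : ℝ} {θ : ℂ → ℂ}

/-- the left half plane -/
def PP (L : ℝ) : Set ℂ := {v | v.re < L}

/-- the half strip -/
def SS (L : ℝ) : Set ℂ := PP L ∩ ({v | -Real.pi < v.im} ∩ {v | v.im < 0})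

theorem pp_open (L : ℝ) : IsOpen (PP L) := isOpen_lt continuous_re continuous_const

theorem pp_convex (L : ℝ) : Convex ℝ (PP L) := convex_halfSpace_re_lt L

theorem ss_open (L : ℝ) : IsOpen (SS L) :=
  (pp_open L).inter ((isOpen_lt continuous_const continuous_im).inter
    (isOpen_lt continuous_im continuous_const))

theorem ss_convex (L : ℝ) : Convex ℝ (SS L) :=
  (pp_convex L).inter ((convex_halfSpace_im_gt _).inter (convex_halfSpace_im_lt _))

theorem e_ball {L : ℝ} {v : ℂ} (x₀ : ℂ) (hv : v ∈ PP L) :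
    x₀ + cexp v ∈ ball x₀ (Real.exp L) := by
  rw [mem_ball, dist_eq_norm, add_sub_cancel_left, Complex.norm_exp]
  exact Real.exp_lt_exp.2 hv

theorem e_hd {L : ℝ} {v : ℂ} (x₀ : ℂ) (hv : v ∈ SS L) : x₀ + cexp v ∈ HD x₀ (Real.exp L) := by
  refine ⟨e_ball x₀ hv.1, ?_⟩
  show (x₀ + cexp v).im < x₀.im
  rw [add_im, Complex.exp_im]
  have := Real.sin_neg_of_neg_of_neg_pi_lt hv.2.2 hv.2.1
  have := Real.exp_pos v.re
  nlinarith

theorem log_ss {L : ℝ} {x₀ x : ℂ} (hx : x ∈ HD x₀ (Real.exp L)) :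
    log (x - x₀) ∈ SS L ∧ x₀ + cexp (log (x - x₀)) = x := by
  have h1 : (x - x₀).im < 0 := by
    have : x.im < x₀.im := hx.2
    rw [sub_im]; linarith
  have h2 : x - x₀ ≠ 0 := fun h => by rw [h] at h1; simp at h1
  refine ⟨⟨?_, ?_, ?_⟩, by rw [Complex.exp_log h2]; ring⟩
  · show (log (x - x₀)).re < L
    rw [Complex.log_re, Real.log_lt_iff_lt_exp (norm_pos_iff.2 h2), ← dist_eq_norm]
    exact hx.1
  · show -Real.pi < (log (x - x₀)).im
    rw [Complex.log_im]; exact neg_pi_lt_arg _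
  · show (log (x - x₀)).im < 0
    rw [Complex.log_im]; exact arg_neg_iff.2 h1

theorem mid_ss {L : ℝ} {R : ℝ} (hR : 0 < R) :
    ((L - R : ℝ) : ℂ) + (-1 : ℝ) * I ∈ SS L := by
  refine ⟨?_, ?_, ?_⟩
  · show (((L - R : ℝ) : ℂ) + (-1 : ℝ) * I).re < L
    simp [hR]
  · show -Real.pi < (((L - R : ℝ) : ℂ) + (-1 : ℝ) * I).im
    have := Real.pi_gt_three
    simp
    linarith
  · show (((L - R : ℝ) : ℂ) + (-1 : ℝ) * I).im < 0
    simp

/-- the statement in the exponential coordinate -/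
theorem lim0 (hθ : DifferentiableOn ℂ θ (Strip r)) (hN : NatB r θ) {G₀ γ ψ : ℂ → ℂ} {L : ℝ}
    {k : ℤ} {ω : ℂ} (hω : ω ≠ 0) (hψ : DifferentiableOn ℂ ψ (ball 0 (Real.exp L)))
    (hψ0 : ∀ u, ψ u ≠ 0) (hγ : DifferentiableOn ℂ γ (PP L))
    (hG : ∀ v ∈ SS L, HasDerivAt G₀ (ω * cexp (k * v / 6) * ψ (cexp v)) v)
    (hm : ∀ v ∈ SS L, G₀ v ∈ Strip r ∧ deriv θ (G₀ v) * deriv G₀ v = γ v) :
    ∃ Γ : ℂ → ℂ, ContinuousAt Γ 0 ∧ Γ 0 ∈ Strip r ∧ ∀ v ∈ SS L, G₀ v = Γ (cexp (v / 6)) := by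
  obtain ⟨S, hS⟩ : ∃ S : ℂ → ℂ, S = fun v => ω * cexp (k * v / 6) * ψ (cexp v) := ⟨_, rfl⟩
  have he : ∀ v ∈ PP L, cexp v ∈ ball (0 : ℂ) (Real.exp L) := fun v hv => by
    simpa using e_ball 0 hv
  have hSd : DifferentiableOn ℂ S (PP L) := by
    rw [hS]
    exact DifferentiableOn.mul (by fun_prop) (hψ.comp (by fun_prop) he)
  have hS0 : ∀ v, S v ≠ 0 := fun v => by
    rw [hS]; exact mul_ne_zero (mul_ne_zero hω (exp_ne_zero _)) (hψ0 _)
  have hG' : ∀ v ∈ SS L, HasDerivAt G₀ (S v) v := by rw [hS]; exact hG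
  have key : ∀ (U : Set ℂ) (G : ℂ → ℂ) (v₁ : ℂ), IsOpen U → Convex ℝ U → U ⊆ PP L → v₁ ∈ U →
      v₁ ∈ SS L → (∀ v ∈ U, HasDerivAt G (S v) v) → G v₁ = G₀ v₁ →
      MapsTo G U (Strip r) ∧ EqOn G G₀ (U ∩ SS L) := by
    intro U G v₁ hU hc hsub h1 h2 hd he1
    have hV := hU.inter (ss_open L)
    have e1 : EqOn G G₀ (U ∩ SS L) :=
      hV.eqOn_of_deriv_eq (hc.inter (ss_convex L)).isPreconnected
        (fun v hv => (hd v hv.1).differentiableAt.differentiableWithinAt)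
        (fun v hv => (hG' v hv.2).differentiableAt.differentiableWithinAt)
        (fun v hv => (hd v hv.1).deriv.trans (hG' v hv.2).deriv.symm) ⟨h1, h2⟩ he1
    refine ⟨cont hθ hN hU hc.isPreconnected
      (fun v hv => (hd v hv).differentiableAt.differentiableWithinAt)
      (fun v hv => by rw [(hd v hv).deriv]; exact hS0 v) (hγ.mono hsub) h1 ?_, e1⟩
    filter_upwards [hV.mem_nhds ⟨h1, h2⟩] with v hv
    rw [e1 hv, (hd v hv.1).deriv, ← (hG' v hv.2).deriv]
    exact hm v hv.2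
  have hk : 0 < k := by
    by_contra hk
    have hk' : (k : ℝ) ≤ 0 := by exact_mod_cast not_lt.1 hk
    have h1 : ∀ᶠ R : ℝ in atTop, ‖ω * ψ (cexp (((L - R : ℝ) : ℂ) + (-1 : ℝ) * I))‖ ≤
        2 * Real.exp r * Real.exp r / R := by
      filter_upwards [eventually_gt_atTop 0, eventually_ge_atTop L] with R hR hL
      obtain ⟨c, hc⟩ : ∃ c : ℂ, c = ((L - R : ℝ) : ℂ) + (-1 : ℝ) * I := ⟨_, rfl⟩
      have hre : c.re = L - R := by rw [hc]; simp
      have hsub : ball c R ⊆ PP L := by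
        intro v hv
        have h1 : |(v - c).re| ≤ ‖v - c‖ := abs_re_le_norm _
        rw [mem_ball, dist_eq_norm] at hv
        rw [sub_re, hre] at h1
        show v.re < L
        linarith [(abs_le.1 h1).2]
      obtain ⟨G, g1, g2⟩ := (hSd.mono hsub).isExactOn_ball.with_val_at c (G₀ c)
      have g3 := (key _ G c isOpen_ball (convex_ball _ _) hsub (mem_ball_self hR)
        (by rw [hc]; exact mid_ss hR) g2 g1).1
      have g4 := cauchy hR (fun v hv => (g2 v hv).differentiableAt.differentiableWithinAt) g3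
      rw [(g2 c (mem_ball_self hR)).deriv, hS] at g4
      rw [← hc]
      refine le_trans ?_ g4
      simp only [norm_mul]
      have g5 : 1 ≤ ‖cexp (k * c / 6)‖ := by
        rw [Complex.norm_exp]
        refine Real.one_le_exp ?_
        have : ((k : ℂ) * c / 6).re = k * c.re / 6 := by simp
        rw [this, hre]
        have : 0 ≤ (k : ℝ) * (L - R) := mul_nonneg_of_nonpos_of_nonpos hk' (by linarith)
        linarith
      exact mul_le_mul_of_nonneg_right (le_mul_of_one_le_right (norm_nonneg _) g5)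
        (norm_nonneg _)
    have h2 : Tendsto (fun R : ℝ => cexp (((L - R : ℝ) : ℂ) + (-1 : ℝ) * I)) atTop (𝓝 0) := by
      rw [tendsto_zero_iff_norm_tendsto_zero]
      have : (fun R : ℝ => ‖cexp (((L - R : ℝ) : ℂ) + (-1 : ℝ) * I)‖) =
          fun R => Real.exp (L + -R) := by
        funext R
        rw [Complex.norm_exp]
        simp [sub_eq_add_neg]
      rw [this]
      exact Real.tendsto_exp_atBot.comp
        (tendsto_atBot_add_const_left _ _ tendsto_neg_atTop_atBot)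
    have h3 := (((hψ.differentiableAt (ball_mem_nhds 0 (Real.exp_pos L))).continuousAt.tendsto.comp
      h2).const_mul ω).norm
    have h4 : Tendsto (fun R : ℝ => 2 * Real.exp r * Real.exp r / R) atTop (𝓝 0) :=
      tendsto_const_nhds.div_atTop tendsto_id
    exact absurd (le_of_tendsto_of_tendsto h3 h4 h1)
      (not_le.2 (norm_pos_iff.2 (mul_ne_zero hω (hψ0 0))))
  obtain ⟨m, hm'⟩ : ∃ m : ℕ, k = m + 1 := ⟨(k - 1).toNat, by omega⟩
  have hb6 : ∀ τ ∈ ball (0 : ℂ) (Real.exp (L / 6)), τ ^ 6 ∈ ball (0 : ℂ) (Real.exp L) := by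
    intro τ hτ
    rw [mem_ball_zero_iff] at hτ ⊢
    have h1 : Real.exp L = Real.exp (L / 6) ^ 6 := by
      rw [← Real.exp_nat_mul]; congr 1; push_cast; ring
    rw [norm_pow, h1]
    exact pow_lt_pow_left₀ hτ (norm_nonneg _) (by norm_num)
  have hsd : DifferentiableOn ℂ (fun τ : ℂ => 6 * ω * τ ^ m * ψ (τ ^ 6))
      (ball 0 (Real.exp (L / 6))) :=
    DifferentiableOn.mul (by fun_prop) (hψ.comp (by fun_prop) hb6)
  obtain ⟨v₁, hv₁⟩ : ∃ v₁, v₁ ∈ SS L := ⟨_, mid_ss one_pos⟩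
  obtain ⟨Γ, g1, g2⟩ := hsd.isExactOn_ball.with_val_at (cexp (v₁ / 6)) (G₀ v₁)
  have he6 : ∀ v ∈ PP L, cexp (v / 6) ∈ ball (0 : ℂ) (Real.exp (L / 6)) := by
    intro v hv
    rw [mem_ball_zero_iff, Complex.norm_exp]
    refine Real.exp_lt_exp.2 ?_
    have : v.re < L := hv
    simp
    linarith
  obtain ⟨g3, g4⟩ := key (PP L) (fun v => Γ (cexp (v / 6))) v₁ (pp_open L) (pp_convex L)
    Subset.rfl hv₁.1 hv₁ (fun v hv => by
      have h1 := (g2 _ (he6 v hv)).comp v ((hasDerivAt_id v).div_const 6).cexp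
      refine h1.congr_deriv ?_
      have h2 : cexp (v / 6) ^ 6 = cexp v := by
        rw [← Complex.exp_nat_mul]; congr 1; push_cast; ring
      have h3 : cexp (k * v / 6) = cexp (v / 6) ^ m * cexp (v / 6) := by
        rw [← pow_succ, ← Complex.exp_nat_mul, hm']; congr 1; push_cast; ring
      simp only [hS, id, h2, h3]
      ring) g1
  have hball := ball_mem_nhds (0 : ℂ) (Real.exp_pos (L / 6))
  have hΓ : AnalyticAt ℂ Γ 0 := DifferentiableOn.analyticAt
    (fun τ hτ => (g2 τ hτ).differentiableAt.differentiableWithinAt) hball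
  refine ⟨Γ, hΓ.continuousAt, ?_, fun v hv => (g4 ⟨hv.1, hv⟩).symm⟩
  rcases hΓ.eventually_constant_or_nhds_le_map_nhds with h | h
  · exfalso
    have h1 : ∀ᶠ τ in 𝓝[≠] (0 : ℂ), False := by
      filter_upwards [mem_nhdsWithin_of_mem_nhds (eventually_eventually_nhds.2 h),
        mem_nhdsWithin_of_mem_nhds hball, self_mem_nhdsWithin] with τ k1 k2 k3
      have k4 : deriv Γ τ = 0 := by
        rw [EventuallyEq.deriv_eq (f := fun _ => Γ 0) k1, deriv_const]
      rw [(g2 τ k2).deriv] at k4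
      exact mul_ne_zero (mul_ne_zero (mul_ne_zero (by norm_num) hω) (pow_ne_zero m k3))
        (hψ0 _) k4
    exact h1.exists.elim (fun _ h => h)
  · have h1 : Strip r ∪ {Γ 0} ∈ 𝓝 (Γ 0) := by
      refine h (mem_map.2 ?_)
      filter_upwards [hball] with τ hτ
      by_cases h0 : τ = 0
      · exact Or.inr (by rw [h0]; rfl)
      · left
        have h2 : (6 * log τ) ∈ PP L := by
          show (6 * log τ).re < L
          rw [mem_ball_zero_iff, ← Real.log_lt_iff_lt_exp (norm_pos_iff.2 h0)] at hτ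
          simp [Complex.log_re]
          linarith
        have h3 := g3 h2
        simp only at h3
        rwa [mul_div_cancel_left₀ _ (by norm_num), Complex.exp_log h0] at h3
    obtain ⟨ε, hε, hb⟩ := Metric.mem_nhds_iff.1 h1
    have h2 : Γ 0 + (ε / 2 : ℝ) ∈ ball (Γ 0) ε := by
      rw [mem_ball, dist_eq_norm, add_sub_cancel_left, Complex.norm_real, Real.norm_eq_abs,
        abs_of_pos (by linarith)]
      linarith
    rcases hb h2 with h3 | h3
    · simpa [Strip] using h3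
    · have h4 : ((ε / 2 : ℝ) : ℂ) = 0 := by simpa using h3
      have h5 : ε / 2 = 0 := by exact_mod_cast h4
      linarith

/-- the lift has a limit in the strip -/
theorem lim (hθ : DifferentiableOn ℂ θ (Strip r)) (hN : NatB r θ) {F γ om : ℂ → ℂ} {x₀ : ℂ}
    (hγ : MeromorphicAt γ x₀) (hom : MeromorphicAt om x₀)
    (h : ∀ᶠ x in Fl x₀, DifferentiableAt ℂ F x ∧ F x ∈ Strip r ∧
      deriv θ (F x) * deriv F x = γ x ∧ deriv F x ^ 6 = om x ∧ deriv F x ≠ 0) :
    ∃ y₀ ∈ Strip r, Tendsto F (Fl x₀) (𝓝 y₀) := by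
  haveI := fl_neBot x₀
  have h1 : meromorphicOrderAt om x₀ ≠ ⊤ := by
    intro k
    obtain ⟨x, k1, k2⟩ := (((meromorphicOrderAt_eq_top_iff.1 k).filter_mono (fl_ne x₀)).and h).exists
    exact pow_ne_zero 6 k2.2.2.2.2 (k2.2.2.2.1.trans k1)
  obtain ⟨φ, p1, p2, p3⟩ := (meromorphicOrderAt_ne_top_iff hom).1 h1
  obtain ⟨k, hk⟩ : ∃ k : ℤ, k = (meromorphicOrderAt om x₀).untop₀ := ⟨_, rfl⟩
  rw [← hk] at p3
  obtain ⟨ψ, q1, q2, q3⟩ := root6 p1 p2
  obtain ⟨δ₁, hδ₁, hs₁⟩ := mem_fl.1 h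
  obtain ⟨δ₂, hδ₂, hs₂⟩ := Metric.eventually_nhds_iff_ball.1 (q1.eventually_analyticAt.and (q3.and
    (eventually_nhdsWithin_iff.1 (hγ.eventually_analyticAt.and p3))))
  obtain ⟨L, hL⟩ : ∃ L : ℝ, Real.exp L = min δ₁ δ₂ := ⟨_, Real.exp_log (lt_min hδ₁ hδ₂)⟩
  have a1 : ∀ v ∈ SS L, x₀ + cexp v ∈ HD x₀ δ₁ := fun v hv =>
    hd_mono x₀ (hL ▸ min_le_left _ _) (e_hd x₀ hv)
  have a2 : ∀ v ∈ PP L, x₀ + cexp v ∈ ball x₀ δ₂ := fun v hv =>
    ball_subset_ball (hL ▸ min_le_right _ _) (e_ball x₀ hv)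
  have a3 : ∀ v : ℂ, x₀ + cexp v ∈ ({x₀}ᶜ : Set ℂ) := fun v => by simp
  have a4 : ∀ v : ℂ, HasDerivAt (fun v => x₀ + cexp v) (cexp v) v := fun v =>
    (Complex.hasDerivAt_exp v).const_add x₀
  have a5 : ∀ v ∈ SS L, HasDerivAt (fun v => F (x₀ + cexp v))
      (deriv F (x₀ + cexp v) * cexp v) v := fun v hv =>
    (hs₁ (a1 v hv)).1.hasDerivAt.comp v (a4 v)
  have hψ : DifferentiableOn ℂ (fun u => ψ (x₀ + u)) (ball 0 (Real.exp L)) := by
    intro u hu
    have : x₀ + u ∈ ball x₀ δ₂ := by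
      have := ball_subset_ball (hL ▸ min_le_right _ _ : Real.exp L ≤ δ₂) hu
      simpa [mem_ball, dist_eq_norm] using this
    exact ((hs₂ _ this).1.differentiableAt.comp u (by fun_prop)).differentiableWithinAt
  obtain ⟨s, hs⟩ : ∃ s : ℂ → ℂ, s = fun v => cexp ((k + 6 : ℤ) * v / 6) * ψ (x₀ + cexp v) :=
    ⟨_, rfl⟩
  have hs0 : ∀ v, s v ≠ 0 := fun v => by rw [hs]; exact mul_ne_zero (exp_ne_zero _) (q2 _)
  have hq6 : ∀ v ∈ SS L, (deriv F (x₀ + cexp v) * cexp v / s v) ^ 6 = 1 := by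
    intro v hv
    rw [div_pow, div_eq_one_iff_eq (pow_ne_zero 6 (hs0 v)), mul_pow, (hs₁ (a1 v hv)).2.2.2.1,
      ((hs₂ _ (a2 v hv.1)).2.2 (a3 v)).2, hs]
    simp only [add_sub_cancel_left, smul_eq_mul, mul_pow, ← (hs₂ _ (a2 v hv.1)).2.1]
    have e1 : cexp (((k + 6 : ℤ) : ℂ) * v / 6) ^ 6 = cexp v ^ k * cexp v ^ 6 := by
      rw [← Complex.exp_nat_mul, ← Complex.exp_nat_mul, ← Complex.exp_int_mul, ← Complex.exp_add]
      congr 1
      push_cast
      ring
    rw [e1]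
    ring
  have hFd : DifferentiableOn ℂ F (HD x₀ δ₁) := fun x hx => (hs₁ hx).1.differentiableWithinAt
  have hqc : ContinuousOn (fun v => deriv F (x₀ + cexp v) * cexp v / s v) (SS L) := by
    refine ContinuousOn.div (ContinuousOn.mul ((hFd.deriv (hd_open _ _)).continuousOn.comp
      (by fun_prop) a1) (by fun_prop)) ?_ (fun v _ => hs0 v)
    rw [hs]
    exact ContinuousOn.mul (by fun_prop) (fun v hv =>
      ((hs₂ _ (a2 v hv.1)).1.continuousAt.comp (f := fun v => x₀ + cexp v)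
        (a4 v).continuousAt).continuousWithinAt)
  have hsub : ((fun v => deriv F (x₀ + cexp v) * cexp v / s v) '' SS L).Subsingleton := by
    have hfin : {z : ℂ | z ^ 6 = 1}.Countable := by
      refine ((Polynomial.nthRoots 6 (1 : ℂ)).toFinset.finite_toSet.subset ?_).countable
      intro z hz
      simpa using hz
    refine hfin.isTotallyDisconnected _ ?_ ((ss_convex L).isPreconnected.image _ hqc)
    rintro _ ⟨v, hv, rfl⟩
    exact hq6 v hv
  obtain ⟨v₁, hv₁⟩ : ∃ v₁, v₁ ∈ SS L := ⟨_, mid_ss one_pos⟩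
  obtain ⟨ω, hω⟩ : ∃ ω : ℂ, ω = deriv F (x₀ + cexp v₁) * cexp v₁ / s v₁ := ⟨_, rfl⟩
  have hω0 : ω ≠ 0 := by
    intro k0
    have := hq6 v₁ hv₁
    rw [← hω, k0] at this
    norm_num at this
  obtain ⟨Γ, g1, g2, g3⟩ := lim0 hθ hN (G₀ := fun v => F (x₀ + cexp v))
    (γ := fun v => γ (x₀ + cexp v) * cexp v) (k := k + 6) hω0 hψ (fun u => q2 _)
    (fun v hv => ((((hs₂ _ (a2 v hv)).2.2 (a3 v)).1.differentiableAt.comp v
      (a4 v).differentiableAt).mul (by fun_prop)).differentiableWithinAt)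
    (fun v hv => (a5 v hv).congr_deriv (by
      have e1 : deriv F (x₀ + cexp v) * cexp v / s v = ω := by
        rw [hω]; exact hsub ⟨v, hv, rfl⟩ ⟨v₁, hv₁, rfl⟩
      rw [div_eq_iff (hs0 v), hs] at e1
      rw [e1, mul_assoc]))
    (fun v hv => ⟨(hs₁ (a1 v hv)).2.1, by
      rw [(a5 v hv).deriv, ← mul_assoc, (hs₁ (a1 v hv)).2.2.1]⟩)
  refine ⟨Γ 0, g2, ?_⟩
  have t1 : Tendsto (fun x => cexp (log (x - x₀) / 6)) (Fl x₀) (𝓝 0) := by
    rw [tendsto_zero_iff_norm_tendsto_zero]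
    have : (fun x => ‖cexp (log (x - x₀) / 6)‖) = fun x => Real.exp (Real.log ‖x - x₀‖ / 6) := by
      funext x
      rw [Complex.norm_exp]
      simp [Complex.log_re]
    rw [this]
    refine Real.tendsto_exp_atBot.comp (Tendsto.atBot_div_const (by norm_num)
      (Real.tendsto_log_nhdsNE_zero.comp ?_))
    exact ((tendsto_norm_sub_self_nhdsNE x₀).mono_left (fl_ne x₀)).mono_right
      (nhdsWithin_mono _ (fun t ht => ne_of_gt ht))
  refine (g1.tendsto.comp t1).congr' ?_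
  filter_upwards [hd_mem x₀ (Real.exp_pos L)] with x hx
  obtain ⟨k1, k2⟩ := log_ss hx
  have := g3 _ k1
  simp only [k2] at this
  exact this.symm

end NB

end Vale.Agent.P097Top
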