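import Vale.Agent.P097Top.NatB2

/-!
# P097Top: the lift of a meromorphic curve continues across every top point
-/

set_option linter.all false

noncomputable section

namespace Vale.Agent.P097Top

open Filter Topology Set Metric Complex Vale.Agent.P097T Vale.Agent.P097T.EndTop

namespace NB

variable {r c : ℝ} {θ H Q : ℂ → ℂ}

theorem ders (h : Cur r c θ H Q) {y : ℂ} (hy : y ∈ Strip r) :
    HasDerivAt θ (deriv θ y) y ∧ HasDerivAt (deriv θ) (deriv (deriv θ) y) y ∧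
      HasDerivAt H (deriv H y) y ∧ HasDerivAt (deriv H) (deriv (deriv H) y) y := by
  have o := strip_open r
  exact ⟨(h.dθ.differentiableAt (o.mem_nhds hy)).hasDerivAt,
    ((h.dθ.deriv o).differentiableAt (o.mem_nhds hy)).hasDerivAt,
    (h.dH.differentiableAt (o.mem_nhds hy)).hasDerivAt,
    ((h.dH.deriv o).differentiableAt (o.mem_nhds hy)).hasDerivAt⟩

theorem an_g (h : Cur r c θ H Q) {y : ℂ} (hy : y ∈ Strip r) : AnalyticAt ℂ (deriv θ) y :=
  (h.dθ.analyticOnNhd (strip_open r) y hy).deriv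

theorem an_fZ (h : Cur r c θ H Q) {y : ℂ} (hy : y ∈ Strip r) : AnalyticAt ℂ (fZ θ H) y := by
  have h1 := h.dθ.analyticOnNhd (strip_open r) y hy
  have h2 := h.dH.analyticOnNhd (strip_open r) y hy
  exact ((h1.deriv.mul h2).add (h2.deriv.mul analyticAt_const)).mul
    (h1.mul analyticAt_const).cexp'

theorem an_fW (h : Cur r c θ H Q) {y : ℂ} (hy : y ∈ Strip r) : AnalyticAt ℂ (fW θ H) y := by
  have h1 := h.dθ.analyticOnNhd (strip_open r) y hy
  have h2 := h.dH.analyticOnNhd (strip_open r) y hy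
  exact ((h1.deriv.mul h2).sub (h2.deriv.mul analyticAt_const)).mul
    (h1.mul analyticAt_const).neg.cexp'

theorem der_z (h : Cur r c θ H Q) {y : ℂ} (hy : y ∈ Strip r) (hg : deriv θ y ≠ 0) :
    HasDerivAt (fun y => fZ θ H y / deriv θ y)
      (I * c * cexp (θ y * I) / deriv θ y ^ 2) y := by
  obtain ⟨d1, d2, d3, d4⟩ := ders h hy
  refine (((((d2.mul d3).add (d4.mul_const I)).mul (d1.mul_const I).cexp)).div d2 hg).congr_deriv ?_
  simp only [Pi.mul_apply, Pi.add_apply]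
  congr 1
  linear_combination (I * cexp (θ y * I)) * h.laz y hy +
    (cexp (θ y * I) * deriv H y * deriv θ y ^ 2) * I_sq

theorem der_w (h : Cur r c θ H Q) {y : ℂ} (hy : y ∈ Strip r) (hg : deriv θ y ≠ 0) :
    HasDerivAt (fun y => fW θ H y / deriv θ y)
      (-(I * c) * cexp (-(θ y * I)) / deriv θ y ^ 2) y := by
  obtain ⟨d1, d2, d3, d4⟩ := ders h hy
  refine (((((d2.mul d3).sub (d4.mul_const I)).mul (d1.mul_const I).neg.cexp)).div d2
    hg).congr_deriv ?_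
  simp only [Pi.mul_apply, Pi.sub_apply, Pi.neg_apply]
  congr 1
  linear_combination (-I * cexp (-(θ y * I))) * h.laz y hy +
    (cexp (-(θ y * I)) * deriv H y * deriv θ y ^ 2) * I_sq

theorem zero_g (h : Cur r c θ H Q) {y : ℂ} (hy : y ∈ Strip r) (hg : deriv θ y = 0) :
    fZ θ H y ≠ 0 ∧ deriv (deriv θ) y ≠ 0 := by
  have h1 := h.laz y hy
  have hc : (c : ℂ) ≠ 0 := by exact_mod_cast h.cpos.ne'
  rw [hg] at h1
  constructor
  · unfold fZ
    rw [hg, zero_mul, zero_add]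
    refine mul_ne_zero (mul_ne_zero (fun k => hc ?_) I_ne_zero) (exp_ne_zero _)
    rw [k] at h1
    rw [← h1]; ring
  · intro k
    rw [k] at h1
    apply hc
    rw [← h1]; ring

/-- the local continuation -/
theorem loc (h : Cur r c θ H Q) (hN : NatB r θ) {F Z W : ℂ → ℂ} {x₀ : ℂ}
    (hZ : MeromorphicAt Z x₀) (hW : MeromorphicAt W x₀)
    (hF : ∀ᶠ x in Fl x₀, DifferentiableAt ℂ F x ∧ F x ∈ Strip r ∧
      Z x * deriv θ (F x) = fZ θ H (F x) ∧ W x * deriv θ (F x) = fW θ H (F x))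
    (hne : ∃ᶠ x in Fl x₀, deriv F x ≠ 0) :
    ∃ G : ℂ → ℂ, AnalyticAt ℂ G x₀ ∧ G x₀ ∈ Strip r ∧ ∀ᶠ x in Fl x₀, G x = F x := by
  haveI := fl_neBot x₀
  have hc : (c : ℂ) ≠ 0 := by exact_mod_cast h.cpos.ne'
  obtain ⟨δ, hδ, hs⟩ := mem_fl.1 hF
  have hg : ∀ x ∈ HD x₀ δ, deriv θ (F x) ≠ 0 := by
    intro x hx k
    obtain ⟨-, k1, k2, -⟩ := hs hx
    rw [k, mul_zero] at k2
    exact (zero_g h k1 k).1 k2.symm
  have dZ : ∀ x ∈ HD x₀ δ, deriv Z x =
      I * c * cexp (θ (F x) * I) / deriv θ (F x) ^ 2 * deriv F x := by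
    intro x hx
    refine (((der_z h (hs hx).2.1 (hg x hx)).comp x (hs hx).1.hasDerivAt).congr_of_eventuallyEq
      ?_).deriv
    filter_upwards [(hd_open x₀ δ).mem_nhds hx] with u hu
    exact eq_div_of_mul_eq (hg u hu) (hs hu).2.2.1
  have dW : ∀ x ∈ HD x₀ δ, deriv W x =
      -(I * c) * cexp (-(θ (F x) * I)) / deriv θ (F x) ^ 2 * deriv F x := by
    intro x hx
    refine (((der_w h (hs hx).2.1 (hg x hx)).comp x (hs hx).1.hasDerivAt).congr_of_eventuallyEq
      ?_).deriv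
    filter_upwards [(hd_open x₀ δ).mem_nhds hx] with u hu
    exact eq_div_of_mul_eq (hg u hu) (hs hu).2.2.2
  have hF' : ∀ᶠ x in Fl x₀, deriv F x ≠ 0 := by
    rcases hW.deriv.eventually_eq_zero_or_eventually_ne_zero with k | k
    · exfalso
      obtain ⟨x, k1, k2, k3⟩ := (hne.and_eventually ((k.filter_mono (fl_ne x₀)).and
        (hd_mem x₀ hδ))).exists
      rw [dW x k3] at k2
      exact mul_ne_zero (div_ne_zero (mul_ne_zero (neg_ne_zero.2 (mul_ne_zero I_ne_zero hc))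
        (exp_ne_zero _)) (pow_ne_zero 2 (hg x k3))) k1 k2
    · filter_upwards [k.filter_mono (fl_ne x₀), hd_mem x₀ hδ] with x k1 k2 k3
      rw [dW x k2, k3, mul_zero] at k1
      exact k1 rfl
  obtain ⟨δ', hδ', hs'⟩ := mem_fl.1 (hF'.and (hd_mem x₀ hδ))
  obtain ⟨B, hB⟩ : ∃ B : ℂ → ℂ, B = deriv Z / deriv W := ⟨_, rfl⟩
  have mB : MeromorphicAt B x₀ := by rw [hB]; exact hZ.deriv.div hW.deriv
  have eB : ∀ x ∈ HD x₀ δ', B x = -cexp (θ (F x) * I) ^ 2 := by
    intro x hx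
    obtain ⟨k1, k2⟩ := hs' hx
    have k3 := hg x k2
    have k4 := exp_ne_zero (θ (F x) * I)
    rw [hB, Pi.div_apply, dZ x k2, dW x k2, Complex.exp_neg]
    field_simp
  obtain ⟨γ, hγ⟩ : ∃ γ : ℂ → ℂ, γ = deriv B / ((fun _ => 2 * I) * B) := ⟨_, rfl⟩
  have mγ : MeromorphicAt γ x₀ := by
    rw [hγ]; exact mB.deriv.div ((MeromorphicAt.const _ _).mul mB)
  have eγ : ∀ x ∈ HD x₀ δ', deriv θ (F x) * deriv F x = γ x := by
    intro x hx
    obtain ⟨k1, k2⟩ := hs' hx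
    have k3 := ((((ders h (hs k2).2.1).1.comp x (hs k2).1.hasDerivAt).mul_const I).cexp.pow 2).neg
    have k4 := (k3.congr_of_eventuallyEq (f₁ := B) (by
      filter_upwards [(hd_open x₀ δ').mem_nhds hx] with u hu
      exact eB u hu)).deriv
    have k5 := exp_ne_zero (θ (F x) * I)
    rw [hγ, Pi.div_apply, Pi.mul_apply, k4, eB x hx]
    simp only [Function.comp]
    field_simp
    norm_num
    ring
  obtain ⟨y₀, hy₀, hl⟩ := lim h.dθ hN (F := F) mγ
    (om := γ ^ 4 * (deriv Z * deriv W) / fun _ => (c : ℂ) ^ 2)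
    (((mγ.pow 4).mul (hZ.deriv.mul hW.deriv)).div (MeromorphicAt.const _ _)) (by
      filter_upwards [hd_mem x₀ hδ'] with x hx
      obtain ⟨k1, k2⟩ := hs' hx
      refine ⟨(hs k2).1, (hs k2).2.1, eγ x hx, ?_, k1⟩
      have k3 := hg x k2
      have k4 := exp_ne_zero (θ (F x) * I)
      simp only [Pi.div_apply, Pi.mul_apply, Pi.pow_apply]
      rw [← eγ x hx, dZ x k2, dW x k2, Complex.exp_neg]
      field_simp
      linear_combination I_sq)
  by_cases hg0 : deriv θ y₀ = 0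
  · obtain ⟨k1, k2⟩ := zero_g h hy₀ hg0
    obtain ⟨G, g1, g2, g3⟩ := ext_of_lim (F := F) (ζ := fun y => deriv θ y / fZ θ H y) (M := Z⁻¹)
      ((an_g h hy₀).div (an_fZ h hy₀) k1) (by
        rw [((ders h hy₀).2.1.fun_div (an_fZ h hy₀).differentiableAt.hasDerivAt k1).deriv, hg0,
          zero_mul, sub_zero]
        exact div_ne_zero (mul_ne_zero k2 k1) (pow_ne_zero 2 k1)) hZ.inv (by
        filter_upwards [hd_mem x₀ hδ] with x hx
        have k3 := hg x hx
        rw [Pi.inv_apply, eq_div_of_mul_eq k3 (hs hx).2.2.1, inv_div]) hl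
    exact ⟨G, g1, g2 ▸ hy₀, g3⟩
  · obtain ⟨G, g1, g2, g3⟩ := ext_of_lim (F := F) (ζ := fun y => fZ θ H y / deriv θ y) (M := Z)
      ((an_fZ h hy₀).div (an_g h hy₀) hg0) (by
        rw [(der_z h hy₀ hg0).deriv]
        exact div_ne_zero (mul_ne_zero (mul_ne_zero I_ne_zero hc) (exp_ne_zero _))
          (pow_ne_zero 2 hg0)) hZ (by
        filter_upwards [hd_mem x₀ hδ] with x hx
        exact (eq_div_of_mul_eq (hg x hx) (hs hx).2.2.1).symm) hl
    exact ⟨G, g1, g2 ▸ hy₀, g3⟩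

end NB

end Vale.Agent.P097Top
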