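import Vale.Agent.P097Top.Defs

/-!
# P097Top: the law is nondegenerate in the last vertex along a real leaf
-/

set_option linter.all false

noncomputable section

namespace Vale.Agent.P097Top.PY

open Filter Topology Set Metric Complex Vale.Agent.P097 Vale.Agent.P097T

theorem sopen (r : ℝ) : IsOpen (Strip r) :=
  isOpen_lt (continuous_abs.comp Complex.continuous_im) continuous_const

theorem sconv (r : ℝ) : Convex ℝ (Strip r) := by
  have : Strip r = {z : ℂ | -r < z.im} ∩ {z : ℂ | z.im < r} := by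
    ext z
    simp [Strip, abs_lt]
  rw [this]
  exact (convex_halfSpace_im_gt _).inter (convex_halfSpace_im_lt _)

theorem rmem {r : ℝ} (hr : 0 < r) (x : ℝ) : (x : ℂ) ∈ Strip r := by simpa [Strip] using hr

theorem an_of {r : ℝ} {f : ℂ → ℂ} (h : DifferentiableOn ℂ f (Strip r)) {y : ℂ}
    (hy : y ∈ Strip r) : AnalyticAt ℂ f y := h.analyticAt ((sopen r).mem_nhds hy)

/-- The law as a function of the triple. -/
def LF (θ H : ℂ → ℂ) (q : (ℂ × ℂ) × ℂ) : ℂ := law θ H q.1.1 q.1.2 q.2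

/-- Its derivative in the last vertex. -/
def DF (θ H : ℂ → ℂ) (q : (ℂ × ℂ) × ℂ) : ℂ := fderiv ℂ (LF θ H) q (0, 1)

variable {r c : ℝ} {θ H Q : ℂ → ℂ}

theorem an_aa {E : Type} [NormedAddCommGroup E] [NormedSpace ℂ E] (hc : Cur r c θ H Q)
    {a b : E → ℂ} {e : E} (ha : AnalyticAt ℂ a e) (hb : AnalyticAt ℂ b e) (ma : a e ∈ Strip r)
    (mb : b e ∈ Strip r) : AnalyticAt ℂ (fun e => aa θ H (a e) (b e)) e ∧
      AnalyticAt ℂ (fun e => bb θ H (a e) (b e)) e := by
  have t1 := (an_of hc.dθ ma).comp ha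
  have t2 := (an_of hc.dθ mb).comp hb
  have h1 := (an_of hc.dH ma).comp ha
  have h2 := (an_of hc.dH mb).comp hb
  have g1 := (an_of hc.dθ ma).deriv.comp ha
  have g2 := (an_of hc.dθ mb).deriv.comp hb
  have k1 := (an_of hc.dH ma).deriv.comp ha
  have k2 := (an_of hc.dH mb).deriv.comp hb
  have cs : AnalyticAt ℂ (fun e => cos (θ (b e) - θ (a e))) e :=
    (differentiable_cos.analyticAt _).comp (t2.sub t1)
  have sn : AnalyticAt ℂ (fun e => sin (θ (b e) - θ (a e))) e :=
    (differentiable_sin.analyticAt _).comp (t2.sub t1)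
  exact ⟨(((g2.mul h2).mul cs).sub (k2.mul sn)).sub (g2.mul h1),
    (g1.mul (((g2.mul h2).mul sn).add (k2.mul cs))).sub (g2.mul k1)⟩

theorem an_LF (hc : Cur r c θ H Q) {q : (ℂ × ℂ) × ℂ} (hu : q.1.1 ∈ Strip r)
    (hy : q.1.2 ∈ Strip r) (hv : q.2 ∈ Strip r) : AnalyticAt ℂ (LF θ H) q := by
  have a1 : AnalyticAt ℂ (fun q : (ℂ × ℂ) × ℂ => q.1.1) q := analyticAt_fst.comp analyticAt_fst
  have a2 : AnalyticAt ℂ (fun q : (ℂ × ℂ) × ℂ => q.1.2) q := analyticAt_snd.comp analyticAt_fst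
  have a3 : AnalyticAt ℂ (fun q : (ℂ × ℂ) × ℂ => q.2) q := analyticAt_snd
  have x := an_aa hc a2 a1 hy hu
  have z := an_aa hc a2 a3 hy hv
  exact (x.1.mul z.2).add (z.1.mul x.2)

theorem an_DF (hc : Cur r c θ H Q) {q : (ℂ × ℂ) × ℂ} (hu : q.1.1 ∈ Strip r)
    (hy : q.1.2 ∈ Strip r) (hv : q.2 ∈ Strip r) : AnalyticAt ℂ (DF θ H) q :=
  ((ContinuousLinearMap.apply ℂ ℂ (((0 : ℂ × ℂ), (1 : ℂ)) : (ℂ × ℂ) × ℂ)).analyticAt _).comp
    (an_LF hc hu hy hv).fderiv

/-- The derivatives of `aa` and `bb` in the second variable. -/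
def daa (θ H : ℂ → ℂ) (y v : ℂ) : ℂ :=
  deriv (deriv θ) v * (H v * cos (θ v - θ y) - H y) -
    (deriv θ v ^ 2 * H v + deriv (deriv H) v) * sin (θ v - θ y)

def dbb (θ H : ℂ → ℂ) (y v : ℂ) : ℂ :=
  deriv θ y * (deriv (deriv θ) v * H v * sin (θ v - θ y) +
    (deriv θ v ^ 2 * H v + deriv (deriv H) v) * cos (θ v - θ y)) - deriv (deriv θ) v * deriv H y

theorem der_aa (hc : Cur r c θ H Q) (y : ℂ) {v : ℂ} (hv : v ∈ Strip r) :
    HasDerivAt (fun v => aa θ H y v) (daa θ H y v) v ∧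
      HasDerivAt (fun v => bb θ H y v) (dbb θ H y v) v := by
  have t := (an_of hc.dθ hv).differentiableAt.hasDerivAt
  have h := (an_of hc.dH hv).differentiableAt.hasDerivAt
  have g := (an_of hc.dθ hv).deriv.differentiableAt.hasDerivAt
  have k := (an_of hc.dH hv).deriv.differentiableAt.hasDerivAt
  have cs := (t.sub_const (θ y)).ccos
  have sn := (t.sub_const (θ y)).csin
  constructor
  · have := (((g.mul h).mul cs).sub (k.mul sn)).sub (g.mul_const (H y))
    refine HasDerivAt.congr_deriv this ?_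
    simp only [daa, Pi.mul_apply]
    ring
  · have := ((((g.mul h).mul sn).add (k.mul cs)).const_mul (deriv θ y)).sub
      (g.mul_const (deriv H y))
    refine HasDerivAt.congr_deriv this ?_
    simp only [dbb, Pi.mul_apply]
    ring

theorem DF_eq (hc : Cur r c θ H Q) {u y v : ℂ} (hu : u ∈ Strip r) (hy : y ∈ Strip r)
    (hv : v ∈ Strip r) :
    DF θ H ((u, y), v) = aa θ H y u * dbb θ H y v + daa θ H y v * bb θ H y u := by
  have d := (an_LF hc (q := ((u, y), v)) hu hy hv).differentiableAt.hasFDerivAt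
  have i : HasDerivAt (fun t : ℂ => (((u, y), t) : (ℂ × ℂ) × ℂ)) (0, 1) v :=
    (hasDerivAt_const v (u, y)).prodMk (hasDerivAt_id v)
  have e1 := d.comp_hasDerivAt v i
  have e2 := ((der_aa hc y hv).2.const_mul (aa θ H y u)).add
    ((der_aa hc y hv).1.mul_const (bb θ H y u))
  exact e1.unique e2

theorem g_DF (hc : Cur r c θ H Q) {u y v : ℂ} (hu : u ∈ Strip r) (hy : y ∈ Strip r)
    (hv : v ∈ Strip r) :
    deriv θ v * DF θ H ((u, y), v) = deriv (deriv θ) v * law θ H u y v +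
      c * (deriv θ y * aa θ H y u * cos (θ v - θ y) - bb θ H y u * sin (θ v - θ y)) := by
  rw [DF_eq hc hu hy hv, ← hc.laz v hv]
  simp only [law, daa, dbb]
  generalize aa θ H y u = A
  generalize bb θ H y u = B
  simp only [aa, bb]
  ring

theorem der_re {f : ℂ → ℂ} {f' : ℂ} {x : ℝ} (h : HasDerivAt f f' x) :
    HasDerivAt (fun t : ℝ => (f t).re) f'.re x ∧ HasDerivAt (fun t : ℝ => (f t).im) f'.im x := by
  have e := h.comp_ofReal
  exact ⟨Complex.reCLM.hasFDerivAt.comp_hasDerivAt x e,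
    Complex.imCLM.hasFDerivAt.comp_hasDerivAt x e⟩

theorem g_real (hc : Cur r c θ H Q) (x : ℝ) : deriv θ x = ((deriv θ x).re : ℂ) := by
  have t := (der_re (an_of hc.dθ (rmem hc.rpos x)).differentiableAt.hasDerivAt).2
  have : (fun t : ℝ => (θ t).im) = fun _ => 0 := funext hc.reθ
  rw [this] at t
  have := t.unique (hasDerivAt_const x 0)
  exact Complex.ext (by simp) (by simpa using this)

theorem th_real (hc : Cur r c θ H Q) (x : ℝ) : θ x = ((θ x).re : ℂ) :=
  Complex.ext (by simp) (by simpa using hc.reθ x)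

theorem th_mono (hc : Cur r c θ H Q) : StrictMono fun t : ℝ => (θ t).re :=
  strictMono_of_hasDerivAt_pos
    (fun x => (der_re (an_of hc.dθ (rmem hc.rpos x)).differentiableAt.hasDerivAt).1) hc.pos

theorem g_ne (hc : Cur r c θ H Q) (x : ℝ) : deriv θ x ≠ 0 := fun h => by
  have := hc.pos x
  rw [h] at this
  simp at this

theorem aa_ne (hc : Cur r c θ H Q) {u a : ℝ} (h1 : (θ u).re < (θ a).re)
    (h2 : (θ a).re - (θ u).re < Real.pi) : aa θ H a u ≠ 0 := by
  have ua : u < a := (th_mono hc).lt_iff_lt.1 h1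
  have d : ∀ t : ℝ, HasDerivAt (fun t : ℝ => (aa θ H a t / deriv θ t).re)
      (c * Real.sin ((θ a).re - (θ t).re) / (deriv θ t).re ^ 2) t := by
    intro t
    have m := rmem hc.rpos t
    have e := (der_aa hc a m).1.div (an_of hc.dθ m).deriv.differentiableAt.hasDerivAt (g_ne hc t)
    have e2 : (daa θ H a t * deriv θ t - aa θ H a t * deriv (deriv θ) t) / deriv θ t ^ 2 =
        ((c * Real.sin ((θ a).re - (θ t).re) / (deriv θ t).re ^ 2 : ℝ) : ℂ) := by
      push_cast
      rw [← th_real hc, ← th_real hc, ← g_real hc, ← hc.laz t m, ← neg_sub (θ t), Complex.sin_neg]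
      congr 1
      simp only [daa, aa]
      ring
    rw [e2] at e
    exact (der_re e).1
  have mono : StrictMonoOn (fun t : ℝ => (aa θ H a t / deriv θ t).re) (Icc u a) := by
    refine strictMonoOn_of_deriv_pos (convex_Icc _ _)
      (fun t _ => (d t).continuousAt.continuousWithinAt) fun t ht => ?_
    rw [interior_Icc] at ht
    rw [(d t).deriv]
    have p1 := th_mono hc ht.1
    have p2 := th_mono hc ht.2
    have := hc.pos t
    have := hc.cpos
    have : 0 < Real.sin ((θ a).re - (θ t).re) :=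
      Real.sin_pos_of_pos_of_lt_pi (by simp only at p2; linarith) (by simp only at p1; linarith)
    positivity
  intro h
  have := mono (left_mem_Icc.2 ua.le) (right_mem_Icc.2 ua.le) ua
  simp only [h] at this
  simp [aa] at this

theorem sin_ne {z : ℂ} (h0 : z.im = 0) (h1 : 0 < z.re) (h2 : z.re < Real.pi / 2) : sin z ≠ 0 := by
  have : z = (z.re : ℂ) := Complex.ext (by simp) (by simpa using h0)
  rw [this, ← Complex.ofReal_sin]
  have := Real.pi_pos
  exact_mod_cast (Real.sin_pos_of_pos_of_lt_pi h1 (by linarith)).ne'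

theorem DF_ne {n : ℕ} {T : ℝ} {y φ p : ℂ → ℂ} (hc : Cur r c θ H Q) (hl : LeafD r c θ H n T y φ p)
    (x : ℝ) (h : law θ H (y (x - 1 / n)) (y x) (y (x + 1 / n)) = 0) :
    DF θ H ((y (x - 1 / n), y x), y (x + 1 / n)) ≠ 0 := by
  have em : ((x - 1 / n : ℝ) : ℂ) = x - 1 / n := by push_cast; rfl
  have ep : ((x + 1 / n : ℝ) : ℂ) = x + 1 / n := by push_cast; rfl
  have m0 := rmem hl.pos x
  have mm := rmem hl.pos (x - 1 / n)
  have mp := rmem hl.pos (x + 1 / n)
  have r0 := hl.re x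
  have rm := hl.re (x - 1 / n)
  have rmm := hl.re (x - 1 / n - 1 / n)
  have rp := hl.re (x + 1 / n)
  have s0 := hl.sgn x
  have sm := hl.sgn (x - 1 / n)
  have sp := hl.sgn (x + 1 / n)
  push_cast at mm mp rm rmm rp sm sp
  have key := g_DF hc (hl.mem _ mm) (hl.mem _ m0) (hl.mem _ mp)
  have t0 := hl.th _ m0
  have tm := hl.th _ mm
  have tp := hl.th _ mp
  have c0 := hl.pc _ m0
  have cm := hl.pc _ mm
  have q0 := hl.ps _ m0
  have qm := hl.ps _ mm
  have ip : (de n φ (x + 1 / n)).im = 0 := by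
    simp only [de, add_sub_cancel_right]
    simp [rp.2.1, r0.2.1, -one_div]
  have e1 : θ (y (x + 1 / n)) - θ (y x) = de n φ x + de n φ (x + 1 / n) := by
    simp only [de, add_sub_cancel_right] at *
    linear_combination (-1 / 2) * tp + (1 / 2) * t0
  have e2 : θ (y (x - 1 / n)) - θ (y x) = -(de n φ (x - 1 / n) + de n φ x) := by
    simp only [de] at *
    linear_combination (-1 / 2) * tm + (1 / 2) * t0
  obtain ⟨a, ha⟩ : ∃ a : ℝ, y x = a := ⟨(y x).re, Complex.ext (by simp) (by simpa using r0.1)⟩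
  obtain ⟨u, hu⟩ : ∃ a : ℝ, y (x - 1 / n) = a :=
    ⟨(y (x - 1 / n)).re, Complex.ext (by simp) (by simpa using rm.1)⟩
  have e3 := congrArg Complex.re e2
  rw [ha, hu] at e3
  simp only [Complex.sub_re, Complex.neg_re, Complex.add_re] at e3
  have an : aa θ H (y x) (y (x - 1 / n)) ≠ 0 := by
    rw [ha, hu]
    exact aa_ne hc (by linarith [s0.2.2.1, sm.2.2.1]) (by linarith [s0.2.2.2, sm.2.2.2])
  have gn : deriv θ (y x) ≠ 0 := ha ▸ g_ne hc a
  have sn := sin_ne ip sp.2.2.1 sp.2.2.2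
  have R : deriv θ (y x) * aa θ H (y x) (y (x - 1 / n)) * cos (de n φ x) -
      bb θ H (y x) (y (x - 1 / n)) * sin (de n φ x) = 0 := by
    simp only [aa, bb, e2, Complex.cos_neg, Complex.sin_neg, Complex.cos_add, Complex.sin_add]
    have := Complex.sin_sq_add_cos_sq (de n φ x)
    linear_combination
      (deriv θ (y x) * (deriv θ (y (x - 1 / n)) * H (y (x - 1 / n)) * cos (de n φ (x - 1 / n)) +
        deriv H (y (x - 1 / n)) * sin (de n φ (x - 1 / n)))) * this -
      (deriv θ (y x) * deriv θ (y (x - 1 / n)) / 2) * cm - (deriv θ (y x) / 2) * qm +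
      (deriv θ (y x) * deriv θ (y (x - 1 / n)) / 2) * c0 - (deriv θ (y (x - 1 / n)) / 2) * q0
  intro z
  rw [z, h, e1, Complex.cos_add, Complex.sin_add] at key
  have cn : (c : ℂ) ≠ 0 := by exact_mod_cast hc.cpos.ne'
  have : (c : ℂ) * (deriv θ (y x) * aa θ H (y x) (y (x - 1 / n)) * sin (de n φ (x + 1 / n))) = 0 := by
    have := Complex.sin_sq_add_cos_sq (de n φ x)
    linear_combination sin (de n φ x) * key +
      c * (cos (de n φ (x + 1 / n)) * sin (de n φ x) + cos (de n φ x) * sin (de n φ (x + 1 / n))) * R -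
      (c * deriv θ (y x) * aa θ H (y x) (y (x - 1 / n)) * sin (de n φ (x + 1 / n))) * this
  exact mul_ne_zero cn (mul_ne_zero (mul_ne_zero gn an) sn) this

end Vale.Agent.P097Top.PY
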