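import Vale.Agent.P097Top.Asm2
import Vale.Agent.P097T.GermModel
import Vale.Agent.P097T.EndFin

/-!
# P097Top: closed terms
-/

set_option linter.all false

noncomputable section

namespace Vale.Agent.P097Top

open Filter Topology Set Metric Complex Vale.Agent.P097 Vale.Agent.P097T EB EA

theorem tri' : Spec_TRI := tri_of Out.model

theorem uw' : Spec_UW := uw Out.model Out.uw'

theorem noreg' : Spec_NOREG := noreg_m Out.model

theorem cr' : Spec_CR := cr_m Out.model

theorem cls' (N1 : Spec_N1) {h p : ℝ → ℝ} {c : ℝ} (hT : IsTable h)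
    (hI : H402.IntBd h) (L : Laz h p c) (k : ¬ H407.IsEllipse h) :
    ∃ (r : ℝ) (θ : ℂ → ℂ), 0 < r ∧ HolExt p θ (Strip r) ∧ NatB r θ ∧ ¬ Tame r θ :=
  cls_m Out.model N1 hT hI L k

theorem full' (N1 : Spec_N1) (AD : Spec_AD) {h : ℝ → ℝ} (hT : IsTable h)
    (hI : H402.IntBd h) : H407.IsEllipse h :=
  full_m Out.model N1 AD hT hI

/-- the class theorem without the entire case -/
theorem cls0 {h p : ℝ → ℝ} {c : ℝ} (hT : IsTable h) (hI : H402.IntBd h) (L : Laz h p c)
    (k : ¬ H407.IsEllipse h) : (∃ θ, HolExt p θ univ) ∨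
    ∃ (r : ℝ) (θ : ℂ → ℂ), 0 < r ∧ HolExt p θ (Strip r) ∧ NatB r θ ∧ ¬ Tame r θ := by
  rcases tri' h hT hI with k' | ⟨ε, c', ψ, δ, θ, H, Q, N, L', A, C | ⟨r, C, B⟩⟩
  · exact (k k').elim
  · obtain ⟨a, ha⟩ := lazu h _ p c' c hT L' L
    have d : Differentiable ℂ θ := fun y =>
      (C (|y.im| + 1) (by positivity)).dθ.differentiableAt
        ((strip_open _).mem_nhds (show |y.im| < _ by linarith))
    refine Or.inl ⟨fun y => θ (y + a), (d.comp (differentiable_id.add_const _)).differentiableOn,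
      fun x => ?_⟩
    rw [ha, ← (A (x + a)).1, ofReal_add]
  obtain ⟨a, ha⟩ := lazu h _ p c' c hT L' L
  have s : ∀ (b : ℝ) (y : ℂ), y ∈ Strip r → y + b ∈ Strip r := fun b y m => by
    simpa [Strip] using m
  refine Or.inr ⟨r, fun y => θ (y + a), C.rpos, ⟨?_, fun x => ?_⟩, fun y₀ ρ χ m ρ0 d e => ?_, ?_⟩
  · exact C.dθ.comp (differentiableOn_id.add_const _) (s a)
  · rw [ha, ← (A (x + a)).1, ofReal_add]
  · refine B (y₀ + a) ρ (fun y => χ (y + (-a : ℝ))) (by simpa using m) ρ0
      (d.comp (differentiableOn_id.add_const _) fun y hy => hy.imp (s _ y) fun hy => ?_)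
      fun y hy => ?_
    · rw [mem_ball, dist_eq_norm] at hy ⊢
      convert hy using 2
      push_cast
      ring
    · show χ (y + (-a : ℝ)) = θ y
      rw [e (s _ y hy)]
      show θ (y + (-a : ℝ) + a) = θ y
      congr 1
      push_cast
      ring
  · rintro ⟨B', hB⟩
    refine cr' h ε ψ δ r c' θ H Q N C A B (crit_of C ⟨B', fun y m => ?_⟩)
    have := hB _ (s (-a) y m)
    have e1 : ∀ f : ℂ → ℂ, deriv (fun y => f (y + a)) = fun y => deriv f (y + a) := fun f =>
      funext fun y => deriv_comp_add_const f _ y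
    have e2 : y + (-a : ℝ) + a = y := by push_cast; ring
    have e3 : dp r (y + (-a : ℝ)) = dp r y := by simp [dp]
    simpa only [e1, e2, e3] using this

end Vale.Agent.P097Top
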